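import Mathlib

namespace Vale.Agent.Lib.P209

theorem sum_count_univ {α : Type*} [Fintype α] [DecidableEq α] (s : Multiset α) :
    ∑ a, s.count a = Multiset.card s := by
  rw [← Multiset.toFinset_sum_count_eq s]
  symm
  apply Finset.sum_subset (Finset.subset_univ _)
  intro a _ ha
  exact Multiset.count_eq_zero_of_notMem (fun h => ha (Multiset.mem_toFinset.2 h))

/-- The cube index attached to a multiset of size `K` on `n + 1` letters: the multiplicities
of the first `n` letters. -/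
def cubeOf (n K : ℕ) (s : Sym (Fin (n + 1)) K) : Fin n → ℕ :=
  fun j => Multiset.count (Fin.castSucc j) s.1

theorem sum_cubeOf (n K : ℕ) (s : Sym (Fin (n + 1)) K) :
    ∑ j, cubeOf n K s j + Multiset.count (Fin.last n) s.1 = K := by
  have h := sum_count_univ s.1
  rw [Fin.sum_univ_castSucc, s.2] at h
  exact h

theorem cubeOf_sum_le (n K : ℕ) (s : Sym (Fin (n + 1)) K) :
    ∑ j, (cubeOf n K s j + 1) ≤ K + n := by
  rw [Finset.sum_add_distrib]
  have h := sum_cubeOf n K s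
  simp only [Finset.sum_const, Finset.card_univ, Fintype.card_fin, smul_eq_mul, mul_one]
  omega

theorem cubeOf_injective (n K : ℕ) : Function.Injective (cubeOf n K) := by
  intro s s' h
  apply Subtype.ext
  ext a
  refine Fin.lastCases ?_ (fun j => ?_) a
  · have h1 := sum_cubeOf n K s
    have h2 := sum_cubeOf n K s'
    rw [h] at h1
    omega
  · exact congrFun h j

theorem card_sym_ge (n K : ℕ) :
    (K + 1) ^ n ≤ n.factorial * Fintype.card (Sym (Fin (n + 1)) K) := by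
  rw [Sym.card_sym_eq_multichoose, Fintype.card_fin, Nat.multichoose_eq]
  have h1 : (n + 1 + K - 1).choose K = (n + K).choose n := by
    have : n + 1 + K - 1 = n + K := by omega
    rw [this, Nat.choose_symm_add]
  rw [h1, ← Nat.descFactorial_eq_factorial_mul_choose]
  have h2 := Nat.pow_sub_le_descFactorial (n + K) n
  have : n + K + 1 - n = K + 1 := by omega
  rw [this] at h2
  exact h2

theorem pow_one_add_le (n : ℕ) (x : ℝ) (h0 : 0 ≤ x) (h1 : x ≤ 1) :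
    (1 + x) ^ n ≤ 1 + (2 ^ n - 1) * x := by
  induction n with
  | zero => simp
  | succ n ih =>
    have h2 : (1 : ℝ) ≤ 2 ^ n := one_le_pow₀ (by norm_num)
    calc (1 + x) ^ (n + 1) = (1 + x) ^ n * (1 + x) := pow_succ _ _
      _ ≤ (1 + (2 ^ n - 1) * x) * (1 + x) := mul_le_mul_of_nonneg_right ih (by linarith)
      _ ≤ 1 + (2 ^ (n + 1) - 1) * x := by
        rw [pow_succ]
        nlinarith [mul_nonneg (sub_nonneg.2 h2) (mul_nonneg h0 (sub_nonneg.2 h1))]

/-- Choice of the grid parameters `M` (subdivision range) and `K` (grid size). -/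
theorem exists_params (n : ℕ) (hn : 1 ≤ n) (ε : ℝ) (hε : 0 < ε) (hε2 : ε ≤ 1 / 2) :
    ∃ M K : ℕ, 1 ≤ M ∧ 1 ≤ K ∧
      (M : ℝ) * n.factorial + (((K : ℝ) + n) * (1 + 1 / M)) ^ n * (1 - ε) ≤
        ((K : ℝ) + 1) ^ n := by
  obtain ⟨M, hM⟩ := exists_nat_ge ((2 : ℝ) ^ (n + 1) / ε + 1)
  have hMpos : (1 : ℝ) ≤ M := by
    have : 0 < (2 : ℝ) ^ (n + 1) / ε := by positivity
    linarith
  have hM0 : (0 : ℝ) < M := by linarith
  have hM1 : 1 ≤ M := by exact_mod_cast hMpos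
  have hx0 : (0 : ℝ) ≤ 1 / M := by positivity
  have hxle : (1 : ℝ) / M ≤ ε / 2 ^ (n + 1) := by
    rw [div_le_div_iff₀ hM0 (by positivity)]
    have h1 : (2 : ℝ) ^ (n + 1) / ε ≤ M := by linarith
    rw [div_le_iff₀ hε] at h1
    linarith
  have hx1 : (1 : ℝ) / M ≤ 1 := by
    rw [div_le_one hM0]
    exact hMpos
  have hpow : (1 + 1 / (M : ℝ)) ^ n ≤ 1 + ε / 2 := by
    have h1 := pow_one_add_le n (1 / (M : ℝ)) hx0 hx1
    have h2 : ((2 : ℝ) ^ n - 1) * (1 / (M : ℝ)) ≤ 2 ^ n * (ε / 2 ^ (n + 1)) := by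
      have h3 : (2 : ℝ) ^ n - 1 ≤ 2 ^ n := by linarith
      have h4 : (0 : ℝ) ≤ 2 ^ n := by positivity
      calc ((2 : ℝ) ^ n - 1) * (1 / (M : ℝ)) ≤ 2 ^ n * (1 / (M : ℝ)) :=
            mul_le_mul_of_nonneg_right h3 hx0
        _ ≤ 2 ^ n * (ε / 2 ^ (n + 1)) := mul_le_mul_of_nonneg_left hxle h4
    have h5 : (2 : ℝ) ^ n * (ε / 2 ^ (n + 1)) = ε / 2 := by
      rw [pow_succ]
      field_simp
    linarith
  have hfac : (1 + 1 / (M : ℝ)) ^ n * (1 - ε) ≤ 1 - ε / 2 := by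
    have h1 : (1 + 1 / (M : ℝ)) ^ n * (1 - ε) ≤ (1 + ε / 2) * (1 - ε) :=
      mul_le_mul_of_nonneg_right hpow (by linarith)
    nlinarith [sq_nonneg ε]
  obtain ⟨K, hK⟩ := exists_nat_ge (4 * (n : ℝ) ^ 2 / ε + 4 * (M : ℝ) * n.factorial / ε + 1)
  have hq1 : (0 : ℝ) ≤ 4 * (n : ℝ) ^ 2 / ε := by positivity
  have hq2 : (0 : ℝ) ≤ 4 * (M : ℝ) * n.factorial / ε := by positivity
  have hKpos : (1 : ℝ) ≤ K := by linarith
  refine ⟨M, K, hM1, by exact_mod_cast hKpos, ?_⟩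
  set N : ℝ := (K : ℝ) + n with hN
  have hn0 : (0 : ℝ) ≤ n := Nat.cast_nonneg n
  have hNpos : 0 < N := by rw [hN]; linarith
  have hN1 : 4 * (n : ℝ) ^ 2 / ε ≤ N := by rw [hN]; linarith
  have hN2 : 4 * (M : ℝ) * n.factorial / ε ≤ N := by rw [hN]; linarith
  have hB : N ^ n * (1 - (n : ℝ) ^ 2 / N) ≤ (K : ℝ) ^ n := by
    have h1 : (K : ℝ) = N * (1 + (-(n : ℝ) / N)) := by
      rw [hN]
      field_simp
      ring
    have h2 : (-2 : ℝ) ≤ -(n : ℝ) / N := by
      rw [neg_div, neg_le_neg_iff]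
      have : (n : ℝ) / N ≤ 1 := by
        rw [div_le_one hNpos, hN]
        linarith
      linarith
    have h3 := one_add_mul_le_pow h2 n
    have h4 : (1 - (n : ℝ) ^ 2 / N) = 1 + (n : ℝ) * (-(n : ℝ) / N) := by
      field_simp
      ring
    rw [h4]
    calc N ^ n * (1 + (n : ℝ) * (-(n : ℝ) / N)) ≤ N ^ n * (1 + -(n : ℝ) / N) ^ n :=
          mul_le_mul_of_nonneg_left h3 (by positivity)
      _ = (N * (1 + -(n : ℝ) / N)) ^ n := (mul_pow _ _ _).symm
      _ = (K : ℝ) ^ n := by rw [← h1]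
  have hK1 : (K : ℝ) ^ n ≤ ((K : ℝ) + 1) ^ n := pow_le_pow_left₀ (by linarith) (by linarith) n
  have hi : (n : ℝ) ^ 2 / N ≤ ε / 4 := by
    rw [div_le_iff₀ hNpos]
    rw [div_le_iff₀ hε] at hN1
    linarith
  have hNn : N ≤ N ^ n := by
    have hN1' : 1 ≤ N := by rw [hN]; linarith
    calc N = N ^ 1 := (pow_one N).symm
      _ ≤ N ^ n := pow_le_pow_right₀ hN1' hn
  have hii : (M : ℝ) * n.factorial ≤ ε / 4 * N ^ n := by
    rw [div_le_iff₀ hε] at hN2
    nlinarith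
  have hmain : (N * (1 + 1 / (M : ℝ))) ^ n * (1 - ε) ≤ N ^ n * (1 - ε / 2) := by
    rw [mul_pow, mul_assoc]
    exact mul_le_mul_of_nonneg_left hfac (by positivity)
  have hNnpos : 0 < N ^ n := by positivity
  have hprod := mul_le_mul_of_nonneg_left hi hNnpos.le
  nlinarith

end Vale.Agent.Lib.P209
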