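import Mathlib

namespace Vale.Agent.Lib.P209

/-- Splitting lemma of Kraft type with an arbitrary finite set of bins: items of sizes
`B ^ (D - lev i)` with `lev i ≤ D` and total size at most `card β * B ^ D` can be distributed
into the bins `β` with total size at most `B ^ D` in each bin. -/
theorem kraft_bins (B : ℕ) (hB : 1 ≤ B) {ι : Type*} [DecidableEq ι] {β : Type*} [Fintype β]
    [DecidableEq β] [Nonempty β] (lev : ι → ℕ) (D : ℕ) :
    ∀ (n : ℕ) (S : Finset ι), S.card = n → (∀ i ∈ S, lev i ≤ D) →
      ∑ i ∈ S, B ^ (D - lev i) ≤ Fintype.card β * B ^ D →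
      ∃ φ : ι → β, ∀ g : β,
        ∑ i ∈ S, (if φ i = g then B ^ (D - lev i) else 0) ≤ B ^ D := by
  intro n
  induction n with
  | zero =>
    intro S hS _ _
    rw [Finset.card_eq_zero] at hS
    subst hS
    exact ⟨fun _ => Classical.arbitrary β, fun g => by simp⟩
  | succ n ih =>
    intro S hS hlev hsum
    have hne : S.Nonempty := by
      rw [← Finset.card_pos, hS]
      exact Nat.succ_pos n
    obtain ⟨j, hj, hmax⟩ := S.exists_max_image lev hne
    set S' := S.erase j with hS'
    have hcard : S'.card = n := by
      rw [hS', Finset.card_erase_of_mem hj, hS]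
      rfl
    have hsplit : ∀ f : ι → ℕ, ∑ i ∈ S, f i = f j + ∑ i ∈ S', f i := fun f =>
      (Finset.add_sum_erase S f hj).symm
    have hlev' : ∀ i ∈ S', lev i ≤ D := fun i hi => hlev i (Finset.mem_of_mem_erase hi)
    have hLD : lev j ≤ D := hlev j hj
    set u : ℕ := B ^ (D - lev j) with hu
    have hupos : 0 < u := Nat.pow_pos hB
    have hsum' : ∑ i ∈ S', B ^ (D - lev i) + u ≤ Fintype.card β * B ^ D := by
      have h' : ∑ i ∈ S, B ^ (D - lev i) = u + ∑ i ∈ S', B ^ (D - lev i) :=
        hsplit (fun i => B ^ (D - lev i))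
      omega
    obtain ⟨φ', hφ'⟩ := ih S' hcard hlev' (by omega)
    set s : β → ℕ := fun g => ∑ i ∈ S', (if φ' i = g then B ^ (D - lev i) else 0) with hs
    have hdvd : ∀ g, u ∣ s g := by
      intro g
      refine Finset.dvd_sum fun i hi => ?_
      split_ifs
      · have : lev i ≤ lev j := hmax i (Finset.mem_of_mem_erase hi)
        exact pow_dvd_pow B (by omega)
      · exact dvd_zero u
    have hdvd2 : u ∣ B ^ D := pow_dvd_pow B (by omega)
    have hex : ∃ g, s g + u ≤ B ^ D := by
      by_contra hcon
      push Not at hcon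
      have heq : ∀ g, s g = B ^ D := by
        intro g
        have h1 := hφ' g
        have h2 := hcon g
        have h3 : u ∣ B ^ D - s g := Nat.dvd_sub hdvd2 (hdvd g)
        have h4 : B ^ D - s g < u := by
          have : s g ≤ B ^ D := h1
          omega
        have h5 := Nat.eq_zero_of_dvd_of_lt h3 h4
        have : s g ≤ B ^ D := h1
        omega
      have htot : ∑ g : β, s g = ∑ i ∈ S', B ^ (D - lev i) := by
        simp only [hs]
        rw [Finset.sum_comm]
        refine Finset.sum_congr rfl fun i _ => ?_
        rw [Finset.sum_ite_eq]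
        simp
      have htot2 : ∑ g : β, s g = Fintype.card β * B ^ D := by
        rw [Finset.sum_congr rfl fun g _ => heq g, Finset.sum_const, Finset.card_univ,
          smul_eq_mul]
      omega
    obtain ⟨g₀, hg₀⟩ := hex
    refine ⟨Function.update φ' j g₀, fun g => ?_⟩
    rw [hsplit]
    have hrest : ∑ i ∈ S', (if Function.update φ' j g₀ i = g then B ^ (D - lev i) else 0) =
        s g := by
      refine Finset.sum_congr rfl fun i hi => ?_
      have hij : i ≠ j := Finset.ne_of_mem_erase hi
      rw [Function.update_of_ne hij]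
    rw [hrest, Function.update_self]
    by_cases hg : g₀ = g
    · rw [if_pos hg, ← hg]
      omega
    · rw [if_neg hg, zero_add]
      exact hφ' g

end Vale.Agent.Lib.P209
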