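import Vale.Agent.Lib.P209.Nest

open Complex ComplexConjugate Filter Topology

namespace Vale.Agent.Lib.P209

/-- Dyadic packing: if `r i < R / 2 ^ lev i` and `∑ 2 ^ (-(n * lev i)) ≤ 1` (Kraft inequality
for the volumes), the closed balls of capacities `r i` pack the open ball of capacity `R`
(complex dimension `n = m + 1`). -/
theorem dyadic_packing (m k : ℕ) (lev : Fin k → ℕ) (r : Fin k → ℝ) (R : ℝ)
    (hr : ∀ i, r i < R / 2 ^ lev i)
    (hK : ∑ i, (1 : ℝ) / 2 ^ ((m + 1) * lev i) ≤ 1) : BallPacking (m + 1) k r R := by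
  set D := Finset.univ.sup lev with hD
  have hlev : ∀ i, lev i ≤ D := fun i => Finset.le_sup (Finset.mem_univ i)
  refine dyadic_on m D (Fin k) lev r R hlev hr ?_
  have h1 : ((∑ i, (2 ^ (m + 1)) ^ (D - lev i) : ℕ) : ℝ) ≤ (((2 ^ (m + 1)) ^ D : ℕ) : ℝ) := by
    push_cast
    have h2 : ∀ i, ((2 : ℝ) ^ (m + 1)) ^ (D - lev i) =
        ((2 : ℝ) ^ (m + 1)) ^ D * (1 / 2 ^ ((m + 1) * lev i)) := by
      intro i
      rw [pow_sub₀ _ (by positivity) (hlev i), pow_mul, one_div]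
    rw [Finset.sum_congr rfl fun i _ => h2 i, ← Finset.mul_sum]
    calc ((2 : ℝ) ^ (m + 1)) ^ D * ∑ i, (1 : ℝ) / 2 ^ ((m + 1) * lev i)
        ≤ ((2 : ℝ) ^ (m + 1)) ^ D * 1 := mul_le_mul_of_nonneg_left hK (by positivity)
      _ = ((2 : ℝ) ^ (m + 1)) ^ D := mul_one _
  exact_mod_cast h1

theorem exists_level (r R : ℝ) (hr : 0 < r) (hrR : r < R) :
    ∃ L : ℕ, R / 2 ^ (L + 1) ≤ r ∧ r < R / 2 ^ L := by
  have hR : 0 < R := lt_trans hr hrR
  have hex : ∃ L : ℕ, R / 2 ^ (L + 1) ≤ r := by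
    obtain ⟨L, hL⟩ := exists_pow_lt_of_lt_one (div_pos hr hR) (by norm_num : (1 / 2 : ℝ) < 1)
    refine ⟨L, ?_⟩
    rw [lt_div_iff₀ hR] at hL
    have h1 : R / 2 ^ (L + 1) ≤ (1 / 2 : ℝ) ^ L * R := by
      rw [div_le_iff₀ (by positivity)]
      have h2 : (1 / 2 : ℝ) ^ L * R * 2 ^ (L + 1) = 2 * R := by
        rw [one_div, inv_pow, pow_succ]
        field_simp
      rw [h2]
      linarith
    linarith
  classical
  have hL : R / 2 ^ (Nat.find hex + 1) ≤ r := Nat.find_spec hex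
  refine ⟨Nat.find hex, hL, ?_⟩
  by_cases h0 : Nat.find hex = 0
  · rw [h0]
    simpa using hrR
  · have hmin := Nat.find_min hex (m := Nat.find hex - 1) (by omega)
    push Not at hmin
    have : Nat.find hex - 1 + 1 = Nat.find hex := by omega
    rw [this] at hmin
    exact hmin

/-- Volume packing: if `∑ r i ^ n ≤ (R / 2) ^ n`, the closed balls of capacities `r i > 0`
pack the open ball of capacity `R` (complex dimension `n = m + 1`, any number of balls). -/
theorem volume_packing (m k : ℕ) (r : Fin k → ℝ) (R : ℝ) (hR : 0 < R) (hr : ∀ i, 0 < r i)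
    (hV : ∑ i, r i ^ (m + 1) ≤ (R / 2) ^ (m + 1)) : BallPacking (m + 1) k r R := by
  have hle : ∀ i, r i ≤ R / 2 := by
    intro i
    have h1 : r i ^ (m + 1) ≤ (R / 2) ^ (m + 1) :=
      le_trans (Finset.single_le_sum (f := fun i => r i ^ (m + 1))
        (fun j _ => (pow_pos (hr j) _).le) (Finset.mem_univ i)) hV
    exact le_of_pow_le_pow_left₀ (Nat.succ_ne_zero m) (by linarith) h1
  have hlt : ∀ i, r i < R := fun i => by linarith [hle i]
  choose lev hlev1 hlev2 using fun i => exists_level (r i) R (hr i) (hlt i)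
  refine dyadic_packing m k lev r R hlev2 ?_
  have h1 : ∀ i, (1 : ℝ) / 2 ^ ((m + 1) * lev i) ≤ (2 / R) ^ (m + 1) * r i ^ (m + 1) := by
    intro i
    have h2 : (1 : ℝ) / 2 ^ lev i ≤ 2 / R * r i := by
      have h3 := hlev1 i
      rw [div_le_iff₀ (by positivity)] at h3
      rw [div_le_iff₀ (by positivity)]
      have h4 : 2 / R * r i * 2 ^ lev i = r i * 2 ^ (lev i + 1) / R := by
        rw [pow_succ]
        field_simp
      rw [h4, le_div_iff₀ hR]
      linarith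
    calc (1 : ℝ) / 2 ^ ((m + 1) * lev i) = (1 / 2 ^ lev i) ^ (m + 1) := by
          rw [mul_comm, pow_mul, one_div, one_div, inv_pow]
      _ ≤ (2 / R * r i) ^ (m + 1) := pow_le_pow_left₀ (by positivity) h2 _
      _ = (2 / R) ^ (m + 1) * r i ^ (m + 1) := mul_pow _ _ _
  calc ∑ i, (1 : ℝ) / 2 ^ ((m + 1) * lev i)
      ≤ ∑ i, (2 / R) ^ (m + 1) * r i ^ (m + 1) := Finset.sum_le_sum fun i _ => h1 i
    _ = (2 / R) ^ (m + 1) * ∑ i, r i ^ (m + 1) := by rw [Finset.mul_sum]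
    _ ≤ (2 / R) ^ (m + 1) * (R / 2) ^ (m + 1) := mul_le_mul_of_nonneg_left hV (by positivity)
    _ = 1 := by
      rw [← mul_pow]
      have : 2 / R * (R / 2) = 1 := by field_simp
      rw [this, one_pow]

end Vale.Agent.Lib.P209
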