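import Vale.Agent.Lib.P209.Grid
import Vale.Agent.Lib.P209.KraftBins
import Vale.Agent.Lib.P209.Count
import Vale.Agent.Lib.P209.NestPack

open Complex ComplexConjugate Filter Topology

namespace Vale.Agent.Lib.P209

/-- Every small capacity `r` lies in exactly one window
`[R / (N (t + 1) 2 ^ L), R / (N t 2 ^ L))` with `M ≤ t < 2 M`. -/
theorem exists_type (M N : ℕ) (hM : 1 ≤ M) (hN : 1 ≤ N) (r R : ℝ) (hr : 0 < r)
    (hrR : r < R / ((N : ℝ) * M)) :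
    ∃ L t : ℕ, M ≤ t ∧ t < 2 * M ∧ r < R / ((N : ℝ) * t * 2 ^ L) ∧
      R / ((N : ℝ) * (t + 1) * 2 ^ L) ≤ r := by
  have hM0 : (0 : ℝ) < M := by exact_mod_cast hM
  have hN0 : (0 : ℝ) < N := by exact_mod_cast hN
  obtain ⟨L, hL1, hL2⟩ := exists_level r (R / ((N : ℝ) * M)) hr hrR
  have h2L : (0 : ℝ) < 2 ^ L := by positivity
  rw [div_le_iff₀ (by positivity), div_le_iff₀ (by positivity)] at hL1
  rw [lt_div_iff₀ h2L, lt_div_iff₀ (by positivity)] at hL2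
  set x : ℝ := R / ((N : ℝ) * r * 2 ^ L) with hx
  have hden : (0 : ℝ) < (N : ℝ) * r * 2 ^ L := by positivity
  have hxM : (M : ℝ) < x := by
    rw [hx, lt_div_iff₀ hden]
    nlinarith
  have hx2M : x ≤ 2 * M := by
    rw [hx, div_le_iff₀ hden]
    rw [pow_succ] at hL1
    nlinarith
  have hx0 : 0 < x := lt_trans hM0 hxM
  have hc1 : M < ⌈x⌉₊ := Nat.lt_ceil.2 hxM
  have hc2 : ⌈x⌉₊ ≤ 2 * M := by
    rw [Nat.ceil_le]
    push_cast
    exact hx2M
  obtain ⟨t, ht⟩ : ∃ t, ⌈x⌉₊ = t + 1 := ⟨⌈x⌉₊ - 1, by omega⟩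
  have hxt : x ≤ (t : ℝ) + 1 := by
    have := Nat.le_ceil x
    rw [ht] at this
    exact_mod_cast this
  have htx : (t : ℝ) < x := by
    have := Nat.ceil_lt_add_one hx0.le
    rw [ht] at this
    push_cast at this
    linarith
  have htM : M ≤ t := by omega
  have ht0 : (0 : ℝ) < t := by
    have : (M : ℝ) ≤ t := by exact_mod_cast htM
    linarith
  refine ⟨L, t, htM, by omega, ?_, ?_⟩
  · rw [lt_div_iff₀ (by positivity)]
    rw [hx, lt_div_iff₀ hden] at htx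
    nlinarith
  · rw [div_le_iff₀ (by positivity)]
    rw [hx, div_le_iff₀ hden] at hxt
    nlinarith

theorem type_volume (M N : ℕ) (hM : 1 ≤ M) (hN : 1 ≤ N) (L t : ℕ) (ht : M ≤ t) (r R : ℝ)
    (hR : 0 < R) (h : R / ((N : ℝ) * (t + 1) * 2 ^ L) ≤ r) (n : ℕ) :
    1 / (((2 : ℝ) ^ n) ^ L * (t : ℝ) ^ n) ≤ ((N : ℝ) * (1 + 1 / M) / R) ^ n * r ^ n := by
  have hM0 : (0 : ℝ) < M := by exact_mod_cast hM
  have hN0 : (0 : ℝ) < N := by exact_mod_cast hN
  have hMt : (M : ℝ) ≤ t := by exact_mod_cast ht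
  have ht0 : (0 : ℝ) < t := by linarith
  have h2L : (0 : ℝ) < 2 ^ L := by positivity
  have hr0 : 0 < r := lt_of_lt_of_le (by positivity) h
  have hbase : 1 / ((2 : ℝ) ^ L * t) ≤ (N : ℝ) * (1 + 1 / M) / R * r := by
    rw [div_le_iff₀ (by positivity)] at h
    rw [div_le_iff₀ (by positivity)]
    have h1 : (t : ℝ) + 1 ≤ (1 + 1 / M) * t := by
      have h4 : (1 : ℝ) ≤ t / M := by
        rw [le_div_iff₀ hM0]
        linarith
      have h2 : (1 + 1 / (M : ℝ)) * t = t + t / M := by ring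
      rw [h2]
      linarith
    have h3 : (N : ℝ) * (1 + 1 / M) / R * r * (2 ^ L * t) =
        r * (N * ((1 + 1 / M) * t) * 2 ^ L) / R := by ring
    rw [h3, le_div_iff₀ hR, one_mul]
    calc R ≤ r * (N * (t + 1) * 2 ^ L) := h
      _ ≤ r * (N * ((1 + 1 / M) * t) * 2 ^ L) := by
        apply mul_le_mul_of_nonneg_left _ hr0.le
        apply mul_le_mul_of_nonneg_right _ h2L.le
        exact mul_le_mul_of_nonneg_left h1 hN0.le
  have hpow : (1 / ((2 : ℝ) ^ L * t)) ^ n ≤ ((N : ℝ) * (1 + 1 / M) / R * r) ^ n :=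
    pow_le_pow_left₀ (by positivity) hbase n
  have e1 : (1 / ((2 : ℝ) ^ L * t)) ^ n = 1 / (((2 : ℝ) ^ n) ^ L * (t : ℝ) ^ n) := by
    rw [div_pow, one_pow, mul_pow, ← pow_mul, ← pow_mul, mul_comm L n]
  rw [← e1, ← mul_pow]
  exact hpow

/-- The bins of type `τ`: a cube index, a position in the subdivided cube, a coordinate
order. -/
abbrev GBin (n M : ℕ) (mτ : Fin M → ℕ) (τ : Fin M) : Type :=
  Fin (mτ τ) × ((Fin n → Fin (M + τ.val)) × Equiv.Perm (Fin n))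

theorem card_GBin (n M : ℕ) (mτ : Fin M → ℕ) (τ : Fin M) :
    Fintype.card (GBin n M mτ τ) = mτ τ * ((M + τ.val) ^ n * n.factorial) := by
  simp [GBin, Fintype.card_prod, Fintype.card_pi, Fintype.card_perm]

theorem assign_bins (B : ℕ) (hB : 1 ≤ B) (k M : ℕ) (tt : Fin k → Fin M) (L : Fin k → ℕ) (D : ℕ)
    (hLD : ∀ i, L i ≤ D) (β : Fin M → Type) [∀ τ, Fintype (β τ)] [∀ τ, DecidableEq (β τ)]
    [∀ τ, Nonempty (β τ)]
    (hcap : ∀ τ, ∑ i ∈ Finset.univ.filter (fun i => tt i = τ), B ^ (D - L i) ≤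
      Fintype.card (β τ) * B ^ D) :
    ∃ Φ : Fin k → (Σ τ, β τ), (∀ i, (Φ i).1 = tt i) ∧ ∀ g : (Σ τ, β τ),
      ∑ i ∈ Finset.univ.filter (fun i => Φ i = g), B ^ (D - L i) ≤ B ^ D := by
  classical
  have h1 : ∀ τ, ∃ φ : Fin k → β τ, ∀ y : β τ,
      ∑ i ∈ Finset.univ.filter (fun i => tt i = τ),
        (if φ i = y then B ^ (D - L i) else 0) ≤ B ^ D :=
    fun τ => kraft_bins B hB L D _ _ rfl (fun i _ => hLD i) (hcap τ)
  choose φ hφ using h1
  refine ⟨fun i => ⟨tt i, φ (tt i) i⟩, fun i => rfl, ?_⟩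
  rintro ⟨τ, y⟩
  refine le_trans ?_ (hφ τ y)
  rw [Finset.sum_filter, Finset.sum_filter]
  refine Finset.sum_le_sum fun i _ => ?_
  by_cases h : (⟨tt i, φ (tt i) i⟩ : Σ τ, β τ) = ⟨τ, y⟩
  · rw [if_pos h]
    have h1 : tt i = τ := congrArg Sigma.fst h
    subst h1
    have h2 : φ (tt i) i = y := eq_of_heq (Sigma.mk.inj_iff.1 h).2
    rw [if_pos rfl, if_pos h2]
  · rw [if_neg h]
    exact Nat.zero_le _

theorem outer_grid (m M K : ℕ) (hM : 1 ≤ M) (mτ : Fin M → ℕ)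
    (ψ : (Σ τ : Fin M, Fin (mτ τ)) ↪ Sym (Fin (m + 1 + 1)) K) (ρ : Fin M → ℝ) (R : ℝ)
    (hR : 0 < R)
    (hρ : ∀ τ : Fin M, ρ τ < R / (((K + (m + 1) : ℕ) : ℝ) * ((M + τ.val : ℕ) : ℝ))) :
    BallPackingOn (m + 1) (Σ τ : Fin M, GBin (m + 1) M mτ τ) (fun g => ρ g.1) R := by
  have hpi := Real.pi_pos
  set N : ℕ := K + (m + 1) with hN
  have hN0 : (0 : ℝ) < (N : ℝ) := by exact_mod_cast (by omega : 0 < N)
  set H : ℝ := R / (Real.pi * N) with hH
  have hHpos : 0 < H := by rw [hH]; positivity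
  refine grid_packing (m + 1) (Nat.succ_pos m) (ι := Σ τ : Fin M, GBin (m + 1) M mτ τ)
    (fun g => cubeOf (m + 1) K (ψ ⟨g.1, g.2.1⟩)) (fun g => M + g.1.val)
    (fun g j => (g.2.2.1 j).val) (fun g => g.2.2.2) N H R (fun g => ρ g.1) hHpos ?_ ?_ ?_ ?_ ?_ ?_
  · have h1 : Real.pi * ((N : ℝ) * H) = R := by
      rw [hH]
      field_simp
    rw [h1]
  · intro g
    omega
  · intro g j
    exact (g.2.2.1 j).isLt
  · intro g
    exact cubeOf_sum_le (m + 1) K _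
  · rintro ⟨τ, c, b, σ⟩ ⟨τ', c', b', σ'⟩ hne hag
    have h1 := ψ.injective (cubeOf_injective (m + 1) K hag)
    have h2 : τ = τ' := congrArg Sigma.fst h1
    subst h2
    have h3 : c = c' := eq_of_heq (Sigma.mk.inj_iff.1 h1).2
    subst h3
    refine ⟨rfl, fun hbb hσ => hne ?_⟩
    have h4 : b = b' := funext fun j => Fin.ext (congrFun hbb j)
    have h5 : σ = σ' := hσ
    rw [h4, h5]
  · intro g
    have h1 := hρ g.1
    have hpos : (0 : ℝ) < ((M + g.1.val : ℕ) : ℝ) := by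
      exact_mod_cast (by omega : 0 < M + g.1.val)
    have h2 : Real.pi * (H / ((M + g.1.val : ℕ) : ℝ)) =
        R / ((N : ℝ) * ((M + g.1.val : ℕ) : ℝ)) := by
      rw [hH]
      field_simp
    rw [h2]
    exact h1

end Vale.Agent.Lib.P209
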