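import Vale.Agent.Lib.P209.AsympMain

open Complex ComplexConjugate Filter Topology

namespace Vale.Agent.Lib.P209

/-- Core statement: with grid parameters `M`, `K` satisfying the numerical condition, every
family of balls of capacities below `R / ((K + n) M)` and total volume at most
the fraction `1 - ε` of `R ^ n` packs the ball of capacity `R` (complex dimension
`n = m + 1`). -/
theorem asymp_core (m M K : ℕ) (hM : 1 ≤ M) (ε : ℝ)
    (hP : (M : ℝ) * ((m + 1).factorial : ℝ) +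
      ((((K + (m + 1) : ℕ) : ℝ) * (1 + 1 / (M : ℝ))) ^ (m + 1)) * (1 - ε) ≤
        ((K : ℝ) + 1) ^ (m + 1))
    (k : ℕ) (r : Fin k → ℝ) (R : ℝ) (hR : 0 < R) (hr : ∀ i, 0 < r i)
    (hsmall : ∀ i, r i < R / (((K + (m + 1) : ℕ) : ℝ) * (M : ℝ)))
    (hV : ∑ i, r i ^ (m + 1) ≤ (1 - ε) * R ^ (m + 1)) :
    BallPacking (m + 1) k r R := by
  classical
  have hN1 : 1 ≤ K + (m + 1) := by omega
  have hM0 : (0 : ℝ) < (M : ℝ) := by exact_mod_cast hM
  have hN0 : (0 : ℝ) < ((K + (m + 1) : ℕ) : ℝ) := by exact_mod_cast hN1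
  choose L t htM ht2M hlt hge using fun i =>
    exists_type M (K + (m + 1)) hM hN1 (r i) R (hr i) (hsmall i)
  have hLD : ∀ i, L i ≤ Finset.univ.sup L := fun i => Finset.le_sup (Finset.mem_univ i)
  generalize Finset.univ.sup L = D at hLD
  have hB1 : 1 ≤ 2 ^ (m + 1) := Nat.one_le_two_pow
  let tt : Fin k → Fin M := fun i => ⟨t i - M, by have := htM i; have := ht2M i; omega⟩
  have htt : ∀ i, M + (tt i).val = t i := by
    intro i
    have := htM i
    show M + (t i - M) = t i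
    omega
  let mτ : Fin M → ℕ := fun τ =>
    (∑ i ∈ Finset.univ.filter (fun i => tt i = τ), (2 ^ (m + 1)) ^ (D - L i)) /
      (((M + τ.val) ^ (m + 1) * (m + 1).factorial) * (2 ^ (m + 1)) ^ D) + 1
  haveI hne : ∀ τ, Nonempty (GBin (m + 1) M mτ τ) := fun τ =>
    ⟨(⟨0, Nat.succ_pos _⟩, (fun _ => ⟨0, by omega⟩, 1))⟩
  have hcap : ∀ τ, ∑ i ∈ Finset.univ.filter (fun i => tt i = τ), (2 ^ (m + 1)) ^ (D - L i) ≤
      Fintype.card (GBin (m + 1) M mτ τ) * (2 ^ (m + 1)) ^ D := by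
    intro τ
    rw [card_GBin]
    have hq : 0 < ((M + τ.val) ^ (m + 1) * (m + 1).factorial) * (2 ^ (m + 1)) ^ D :=
      Nat.mul_pos (Nat.mul_pos (Nat.pow_pos (by omega)) (Nat.factorial_pos _)) (Nat.pow_pos hB1)
    exact nat_le_succ_div_mul _ _ _ hq
  obtain ⟨Φ, hΦ1, hΦ⟩ :=
    assign_bins (2 ^ (m + 1)) hB1 k M tt L D hLD (GBin (m + 1) M mτ) hcap
  have hcount : ∑ τ, mτ τ ≤ Fintype.card (Sym (Fin (m + 1 + 1)) K) :=
    count_bound m M K hM ε hP k r R hR hV L t tt htt hge D hLD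
  have hcardS : Fintype.card (Σ τ : Fin M, Fin (mτ τ)) ≤
      Fintype.card (Sym (Fin (m + 1 + 1)) K) := by
    rw [Fintype.card_sigma]
    simpa using hcount
  obtain ⟨ψ⟩ := Function.Embedding.nonempty_of_card_le hcardS
  have ht0 : ∀ i, (0 : ℝ) < (t i : ℝ) := fun i => by
    exact_mod_cast (lt_of_lt_of_le hM (htM i))
  have hden : ∀ i, (0 : ℝ) < ((K + (m + 1) : ℕ) : ℝ) * (t i : ℝ) * 2 ^ L i := by
    intro i
    have := ht0 i
    positivity
  obtain ⟨δ, hδpos, hδ⟩ := exists_pos_le_of_finite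
    (fun i : Fin k => 1 - r i * (((K + (m + 1) : ℕ) : ℝ) * (t i : ℝ) * 2 ^ L i) / R) (by
      intro i
      have h1 := hlt i
      rw [lt_div_iff₀ (hden i)] at h1
      rw [sub_pos, div_lt_one hR]
      exact h1)
  let ρ : Fin M → ℝ := fun τ =>
    (1 - δ / 2) * (R / (((K + (m + 1) : ℕ) : ℝ) * ((M + τ.val : ℕ) : ℝ)))
  have houter : BallPackingOn (m + 1) (Σ τ : Fin M, GBin (m + 1) M mτ τ) (fun g => ρ g.1) R := by
    refine outer_grid m M K hM mτ ψ ρ R hR ?_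
    intro τ
    have hpos : (0 : ℝ) < ((M + τ.val : ℕ) : ℝ) := by
      exact_mod_cast (by omega : 0 < M + τ.val)
    have hX : 0 < R / (((K + (m + 1) : ℕ) : ℝ) * ((M + τ.val : ℕ) : ℝ)) := by positivity
    show (1 - δ / 2) * (R / (((K + (m + 1) : ℕ) : ℝ) * ((M + τ.val : ℕ) : ℝ))) < _
    nlinarith
  refine BallPackingOn.nest Φ r (fun g => ρ g.1) R houter ?_
  intro g
  refine dyadic_on m D {i : Fin k // Φ i = g} (fun i => L i.val) (fun i => r i.val) (ρ g.1)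
    (fun i => hLD i.val) ?_ ?_
  · rintro ⟨i, hi⟩
    have hg1 : g.1 = tt i := by
      rw [← hi]
      exact hΦ1 i
    show r i < ρ g.1 / 2 ^ L i
    rw [hg1]
    show r i < (1 - δ / 2) * (R / (((K + (m + 1) : ℕ) : ℝ) * ((M + (tt i).val : ℕ) : ℝ))) /
      2 ^ L i
    rw [htt i]
    have h1 := hδ i
    have h2 := hden i
    have h3 : r i * (((K + (m + 1) : ℕ) : ℝ) * (t i : ℝ) * 2 ^ L i) / R ≤ 1 - δ := by
      linarith
    rw [div_le_iff₀ hR] at h3
    have h4 : (1 - δ / 2) * (R / (((K + (m + 1) : ℕ) : ℝ) * (t i : ℝ))) =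
        (1 - δ / 2) * R / (((K + (m + 1) : ℕ) : ℝ) * (t i : ℝ)) := by ring
    have h5 := ht0 i
    rw [lt_div_iff₀ (by positivity), h4, lt_div_iff₀ (by positivity)]
    nlinarith
  · have h1 := hΦ g
    have h2 : ∑ i : {i : Fin k // Φ i = g}, (2 ^ (m + 1)) ^ (D - L i.val) =
        ∑ i ∈ Finset.univ.filter (fun i => Φ i = g), (2 ^ (m + 1)) ^ (D - L i) :=
      (Finset.sum_subtype (Finset.univ.filter (fun i => Φ i = g)) (by simp)
        (fun i => (2 ^ (m + 1)) ^ (D - L i))).symm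
    rw [h2]
    exact h1

/-- Asymptotic packing by small balls: for every `ε > 0` there is `δ > 0` such that balls of
capacities at most `δ R` and total volume at most `R ^ n` times `1 - ε` pack the ball of capacity
`R` (complex dimension `n = m + 1`, any number of balls). -/
theorem asymptotic_packing (m : ℕ) (ε : ℝ) (hε : 0 < ε) :
    ∃ δ : ℝ, 0 < δ ∧ ∀ (k : ℕ) (r : Fin k → ℝ) (R : ℝ), 0 < R → (∀ i, 0 < r i) →
      (∀ i, r i ≤ δ * R) → ∑ i, r i ^ (m + 1) ≤ (1 - ε) * R ^ (m + 1) →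
      BallPacking (m + 1) k r R := by
  have hε'pos : 0 < min ε (1 / 2) := lt_min hε (by norm_num)
  have hε'le : min ε (1 / 2) ≤ 1 / 2 := min_le_right _ _
  have hε'ε : min ε (1 / 2) ≤ ε := min_le_left _ _
  obtain ⟨M, K, hM, hK, hP⟩ :=
    exists_params (m + 1) (Nat.succ_pos m) (min ε (1 / 2)) hε'pos hε'le
  have hN0 : (0 : ℝ) < ((K + (m + 1) : ℕ) : ℝ) := by
    exact_mod_cast (by omega : 0 < K + (m + 1))
  have hM0 : (0 : ℝ) < (M : ℝ) := by exact_mod_cast hM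
  refine ⟨1 / (2 * (((K + (m + 1) : ℕ) : ℝ) * (M : ℝ))), by positivity, ?_⟩
  intro k r R hR hr hsmall hV
  refine asymp_core m M K hM (min ε (1 / 2)) ?_ k r R hR hr ?_ ?_
  · have h := hP
    push_cast at h ⊢
    exact h
  · intro i
    have h1 := hsmall i
    have h2 : 1 / (2 * (((K + (m + 1) : ℕ) : ℝ) * (M : ℝ))) * R <
        R / (((K + (m + 1) : ℕ) : ℝ) * (M : ℝ)) := by
      have hNM : (0 : ℝ) < ((K + (m + 1) : ℕ) : ℝ) * (M : ℝ) := mul_pos hN0 hM0
      rw [div_mul_eq_mul_div, one_mul, div_lt_div_iff₀ (by positivity) hNM]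
      nlinarith
    linarith
  · have hRn : (0 : ℝ) ≤ R ^ (m + 1) := by positivity
    have h1 : (1 - ε) * R ^ (m + 1) ≤ (1 - min ε (1 / 2)) * R ^ (m + 1) :=
      mul_le_mul_of_nonneg_right (by linarith) hRn
    linarith

end Vale.Agent.Lib.P209
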