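import Vale.Agent.Lib.P209.Asymp

open Complex ComplexConjugate Filter Topology

namespace Vale.Agent.Lib.P209

theorem cast_div_succ_le (a b : ℕ) : (((a / b + 1 : ℕ)) : ℝ) ≤ (a : ℝ) / (b : ℝ) + 1 := by
  push_cast
  have h : ((a / b : ℕ) : ℝ) ≤ (a : ℝ) / (b : ℝ) := Nat.cast_div_le
  linarith

theorem nat_le_succ_div_mul (a U P : ℕ) (h : 0 < U * P) : a ≤ (a / (U * P) + 1) * U * P := by
  have h1 := Nat.lt_mul_div_succ a h
  calc a ≤ U * P * (a / (U * P) + 1) := h1.le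
    _ = (a / (U * P) + 1) * U * P := by ring

/-- The number of cubes needed is at most the number of cubes of the grid. -/
theorem count_bound (m M K : ℕ) (hM : 1 ≤ M) (ε : ℝ)
    (hP : (M : ℝ) * ((m + 1).factorial : ℝ) +
      ((((K + (m + 1) : ℕ) : ℝ) * (1 + 1 / (M : ℝ))) ^ (m + 1)) * (1 - ε) ≤
        ((K : ℝ) + 1) ^ (m + 1))
    (k : ℕ) (r : Fin k → ℝ) (R : ℝ) (hR : 0 < R)
    (hV : ∑ i, r i ^ (m + 1) ≤ (1 - ε) * R ^ (m + 1))
    (L t : Fin k → ℕ) (tt : Fin k → Fin M) (htt : ∀ i, M + (tt i).val = t i)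
    (hge : ∀ i, R / (((K + (m + 1) : ℕ) : ℝ) * ((t i : ℝ) + 1) * 2 ^ L i) ≤ r i)
    (D : ℕ) (hLD : ∀ i, L i ≤ D) :
    ∑ τ : Fin M, ((∑ i ∈ Finset.univ.filter (fun i => tt i = τ), (2 ^ (m + 1)) ^ (D - L i)) /
        (((M + τ.val) ^ (m + 1) * (m + 1).factorial) * (2 ^ (m + 1)) ^ D) + 1) ≤
      Fintype.card (Sym (Fin (m + 1 + 1)) K) := by
  classical
  have hN1 : 1 ≤ K + (m + 1) := by omega
  have hM0 : (0 : ℝ) < (M : ℝ) := by exact_mod_cast hM
  have hN0 : (0 : ℝ) < ((K + (m + 1) : ℕ) : ℝ) := by exact_mod_cast hN1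
  have hfac : (0 : ℝ) < ((m + 1).factorial : ℝ) := by exact_mod_cast Nat.factorial_pos (m + 1)
  have hP0 : (0 : ℝ) < (2 : ℝ) ^ (m + 1) := by positivity
  set A : ℝ := (((K + (m + 1) : ℕ) : ℝ) * (1 + 1 / (M : ℝ)) / R) ^ (m + 1) with hA
  have hA0 : 0 ≤ A := by rw [hA]; positivity
  have htM : ∀ i, M ≤ t i := fun i => by have := htt i; omega
  have hterm : ∀ i, (1 : ℝ) / (((2 : ℝ) ^ (m + 1)) ^ L i * (t i : ℝ) ^ (m + 1)) ≤
      A * r i ^ (m + 1) := fun i =>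
    type_volume M (K + (m + 1)) hM hN1 (L i) (t i) (htM i) (r i) R hR (hge i) (m + 1)
  have hs : ∀ τ : Fin M,
      (((∑ i ∈ Finset.univ.filter (fun i => tt i = τ), (2 ^ (m + 1)) ^ (D - L i)) /
        (((M + τ.val) ^ (m + 1) * (m + 1).factorial) * (2 ^ (m + 1)) ^ D) + 1 : ℕ) : ℝ) ≤
      (∑ i ∈ Finset.univ.filter (fun i => tt i = τ),
        (1 : ℝ) / (((2 : ℝ) ^ (m + 1)) ^ L i * (t i : ℝ) ^ (m + 1))) / (m + 1).factorial + 1 := by
    intro τ
    refine le_trans (cast_div_succ_le _ _) ?_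
    have h2 : ((∑ i ∈ Finset.univ.filter (fun i => tt i = τ), (2 ^ (m + 1)) ^ (D - L i) : ℕ) : ℝ) /
        (((((M + τ.val) ^ (m + 1) * (m + 1).factorial) * (2 ^ (m + 1)) ^ D : ℕ)) : ℝ) =
        (∑ i ∈ Finset.univ.filter (fun i => tt i = τ),
          (1 : ℝ) / (((2 : ℝ) ^ (m + 1)) ^ L i * (t i : ℝ) ^ (m + 1))) / (m + 1).factorial := by
      push_cast
      rw [Finset.sum_div, Finset.sum_div]
      refine Finset.sum_congr rfl fun i hi => ?_
      have hti : tt i = τ := (Finset.mem_filter.1 hi).2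
      have et : ((M : ℝ) + (τ.val : ℝ)) = (t i : ℝ) := by
        rw [← hti]
        exact_mod_cast htt i
      have e : ((2 : ℝ) ^ (m + 1)) ^ (D - L i) =
          ((2 : ℝ) ^ (m + 1)) ^ D / ((2 : ℝ) ^ (m + 1)) ^ L i :=
        pow_sub₀ _ hP0.ne' (hLD i)
      have ht0 : (0 : ℝ) < (t i : ℝ) := by
        have : (M : ℝ) ≤ t i := by exact_mod_cast htM i
        linarith
      rw [e, et]
      field_simp
    rw [h2]
  have hreal : ((m + 1).factorial : ℝ) * ∑ τ : Fin M,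
      (((∑ i ∈ Finset.univ.filter (fun i => tt i = τ), (2 ^ (m + 1)) ^ (D - L i)) /
        (((M + τ.val) ^ (m + 1) * (m + 1).factorial) * (2 ^ (m + 1)) ^ D) + 1 : ℕ) : ℝ) ≤
      ((K : ℝ) + 1) ^ (m + 1) := by
    calc ((m + 1).factorial : ℝ) * ∑ τ : Fin M,
        (((∑ i ∈ Finset.univ.filter (fun i => tt i = τ), (2 ^ (m + 1)) ^ (D - L i)) /
          (((M + τ.val) ^ (m + 1) * (m + 1).factorial) * (2 ^ (m + 1)) ^ D) + 1 : ℕ) : ℝ)
        ≤ ((m + 1).factorial : ℝ) * ∑ τ : Fin M,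
          ((∑ i ∈ Finset.univ.filter (fun i => tt i = τ),
            (1 : ℝ) / (((2 : ℝ) ^ (m + 1)) ^ L i * (t i : ℝ) ^ (m + 1))) /
              (m + 1).factorial + 1) :=
          mul_le_mul_of_nonneg_left (Finset.sum_le_sum fun τ _ => hs τ) hfac.le
      _ = (∑ i, (1 : ℝ) / (((2 : ℝ) ^ (m + 1)) ^ L i * (t i : ℝ) ^ (m + 1))) +
            (M : ℝ) * (m + 1).factorial := by
          rw [Finset.sum_add_distrib, ← Finset.sum_div, Finset.sum_fiberwise]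
          simp only [Finset.sum_const, Finset.card_univ, Fintype.card_fin, nsmul_eq_mul, mul_one]
          field_simp
      _ ≤ A * ∑ i, r i ^ (m + 1) + (M : ℝ) * (m + 1).factorial := by
          rw [Finset.mul_sum]
          exact add_le_add_left (Finset.sum_le_sum fun i _ => hterm i) _
      _ ≤ A * ((1 - ε) * R ^ (m + 1)) + (M : ℝ) * (m + 1).factorial :=
          add_le_add_left (mul_le_mul_of_nonneg_left hV hA0) _
      _ = (M : ℝ) * ((m + 1).factorial : ℝ) +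
            ((((K + (m + 1) : ℕ) : ℝ) * (1 + 1 / (M : ℝ))) ^ (m + 1)) * (1 - ε) := by
          rw [hA, div_pow]
          field_simp
          ring
      _ ≤ ((K : ℝ) + 1) ^ (m + 1) := hP
  have hnat : (m + 1).factorial * ∑ τ : Fin M,
      ((∑ i ∈ Finset.univ.filter (fun i => tt i = τ), (2 ^ (m + 1)) ^ (D - L i)) /
        (((M + τ.val) ^ (m + 1) * (m + 1).factorial) * (2 ^ (m + 1)) ^ D) + 1) ≤
      (K + 1) ^ (m + 1) := by
    exact_mod_cast hreal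
  exact Nat.le_of_mul_le_mul_left (le_trans hnat (card_sym_ge (m + 1) K))
    (Nat.factorial_pos _)

end Vale.Agent.Lib.P209
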