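import Vale.Agent.Lib.P209.HalvingPack
import Vale.Agent.Lib.P209.Kraft

open Complex ComplexConjugate Filter Topology

namespace Vale.Agent.Lib.P209

/-- A packing of a family of closed balls indexed by an arbitrary type: the same conditions as
in `BallPacking`. -/
def BallPackingOn (n : ℕ) (ι : Type) (r : ι → ℝ) (R : ℝ) : Prop :=
  ∃ f : ι → EuclideanSpace ℂ (Fin n) → EuclideanSpace ℂ (Fin n),
    (∀ i, IsSympBallEmb n (r i) (f i)) ∧
    (∀ i, f i '' capBall n (r i) ⊆ openCapBall n R) ∧
    (∀ i j, i ≠ j → Disjoint (f i '' capBall n (r i)) (f j '' capBall n (r j)))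

theorem ballPackingOn_of_subsingleton (n : ℕ) (ι : Type) [Subsingleton ι] (r : ι → ℝ) (R : ℝ)
    (h : ∀ i, r i < R) : BallPackingOn n ι r R := by
  refine ⟨fun _ => id, fun i => id_isSympBallEmb n (r i), ?_,
    fun i j hij => absurd (Subsingleton.elim i j) hij⟩
  intro i
  rintro y ⟨z, hz, rfl⟩
  rw [mem_openCapBall]
  rw [mem_capBall] at hz
  simp only [id]
  linarith [h i]

/-- Nesting of packings. -/
theorem BallPackingOn.nest {n : ℕ} {ι κ : Type} (φ : ι → κ) (r : ι → ℝ) (ρ : κ → ℝ) (R : ℝ)
    (hout : BallPackingOn n κ ρ R)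
    (hin : ∀ g : κ, BallPackingOn n {i : ι // φ i = g} (fun i => r i.val) (ρ g)) :
    BallPackingOn n ι r R := by
  obtain ⟨F, hFe, hFsub, hFdisj⟩ := hout
  choose h hhe hhsub hhdisj using hin
  have hcap : ∀ (g : κ) (i : {i : ι // φ i = g}),
      h g i '' capBall n (r i.val) ⊆ capBall n (ρ g) := fun g i =>
    (hhsub g i).trans (openCapBall_subset_capBall _ _)
  have himg : ∀ (g : κ) (i : {i : ι // φ i = g}),
      (F g ∘ h g i) '' capBall n (r i.val) ⊆ F g '' capBall n (ρ g) := by
    intro g i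
    rw [Set.image_comp]
    exact Set.image_mono (hcap g i)
  have hsame : ∀ (g : κ) (i j : {i : ι // φ i = g}), i ≠ j →
      Disjoint ((F g ∘ h g i) '' capBall n (r i.val)) ((F g ∘ h g j) '' capBall n (r j.val)) := by
    intro g i j hij
    obtain ⟨W, hW, hBW, hgs, hgi, hgω⟩ := hFe g
    rw [Set.disjoint_left]
    rintro y ⟨x, hx, rfl⟩ ⟨x', hx', heq⟩
    have hxW : h g i x ∈ W := hBW (hcap g i ⟨x, hx, rfl⟩)
    have hxW' : h g j x' ∈ W := hBW (hcap g j ⟨x', hx', rfl⟩)
    have heq' : h g j x' = h g i x := hgi hxW' hxW heq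
    exact Set.disjoint_left.1 (hhdisj g i j hij) ⟨x, hx, rfl⟩ ⟨x', hx', heq'⟩
  refine ⟨fun i => F (φ i) ∘ h (φ i) ⟨i, rfl⟩, ?_, ?_, ?_⟩
  · intro i
    exact (hhe (φ i) ⟨i, rfl⟩).comp (hFe (φ i)) (hcap (φ i) ⟨i, rfl⟩)
  · intro i
    exact (himg (φ i) ⟨i, rfl⟩).trans (hFsub (φ i))
  · intro i j hij
    by_cases hφ : φ i = φ j
    · have key : ∀ (g : κ) (hi : φ i = g),
          F (φ i) ∘ h (φ i) ⟨i, rfl⟩ = F g ∘ h g ⟨i, hi⟩ := by
        intro g hi
        subst hi
        rfl
      show Disjoint ((F (φ i) ∘ h (φ i) ⟨i, rfl⟩) '' capBall n (r i))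
        ((F (φ j) ∘ h (φ j) ⟨j, rfl⟩) '' capBall n (r j))
      rw [key (φ j) hφ]
      have hne : (⟨i, hφ⟩ : {i : ι // φ i = φ j}) ≠ ⟨j, rfl⟩ := by
        intro hcon
        exact hij (congrArg Subtype.val hcon)
      exact hsame (φ j) ⟨i, hφ⟩ ⟨j, rfl⟩ hne
    · exact Set.disjoint_of_subset (himg (φ i) ⟨i, rfl⟩) (himg (φ j) ⟨j, rfl⟩)
        (hFdisj (φ i) (φ j) hφ)

/-- Dyadic packing, general index type: if `r i < R / 2 ^ lev i` and the Kraft sum
of the numbers `2 ^ (n * (D - lev i))` is at most `2 ^ (n * D)`, the balls pack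
(complex dimension `n = m + 1`). -/
theorem dyadic_on (m : ℕ) : ∀ (D : ℕ) (ι : Type) [Fintype ι] (lev : ι → ℕ) (r : ι → ℝ) (R : ℝ),
    (∀ i, lev i ≤ D) → (∀ i, r i < R / 2 ^ lev i) →
    ∑ i, (2 ^ (m + 1)) ^ (D - lev i) ≤ (2 ^ (m + 1)) ^ D → BallPackingOn (m + 1) ι r R := by
  intro D
  induction D with
  | zero =>
    intro ι _ lev r R hlev hr hsum
    have hl0 : ∀ i, lev i = 0 := fun i => Nat.le_zero.1 (hlev i)
    have hcard : Fintype.card ι ≤ 1 := by
      simpa [hl0] using hsum
    haveI : Subsingleton ι := Fintype.card_le_one_iff_subsingleton.1 hcard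
    refine ballPackingOn_of_subsingleton (m + 1) ι r R fun i => ?_
    have := hr i
    rw [hl0 i] at this
    simpa using this
  | succ D ih =>
    intro ι _ lev r R hlev hr hsum
    classical
    set N : ℕ := 2 ^ (m + 1) with hN
    have hNpos : 1 ≤ N := Nat.one_le_two_pow
    by_cases h0 : ∃ i0, lev i0 = 0
    · obtain ⟨i0, hi0⟩ := h0
      haveI : Subsingleton ι := by
        refine ⟨fun a b => ?_⟩
        have hall : ∀ i, i = i0 := by
          intro i
          by_contra hne
          have hsub : ({i0, i} : Finset ι) ⊆ Finset.univ := Finset.subset_univ _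
          have h1 := Finset.sum_le_sum_of_subset (f := fun i => N ^ (D + 1 - lev i)) hsub
          rw [Finset.sum_pair (Ne.symm hne)] at h1
          have h2 : 0 < N ^ (D + 1 - lev i) := Nat.pow_pos hNpos
          rw [hi0] at h1
          simp only [Nat.sub_zero] at h1
          omega
        rw [hall a, hall b]
      refine ballPackingOn_of_subsingleton (m + 1) ι r R fun i => ?_
      have h1 : i = i0 := Subsingleton.elim i i0
      have := hr i
      rw [h1, hi0] at this
      rw [h1]
      simpa using this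
    · push Not at h0
      have hl1 : ∀ i, 1 ≤ lev i := fun i => Nat.one_le_iff_ne_zero.2 (h0 i)
      obtain ⟨φ, hφ⟩ := kraft_split N hNpos lev (D + 1) (Finset.univ : Finset ι).card
        Finset.univ rfl (fun i _ => ⟨hl1 i, hlev i⟩) hsum
      -- capacities of the groups
      have hρ : ∀ g : Fin N, ∃ ρ : ℝ, ρ < R / 2 ∧
          ∀ i : {i : ι // φ i = g}, r i.val < ρ / 2 ^ (lev i.val - 1) := by
        intro g
        have hp : ∀ i : {i : ι // φ i = g}, 0 < R / 2 - r i.val * 2 ^ (lev i.val - 1) := by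
          intro i
          have h1 := hr i.val
          have h2 : (2 : ℝ) ^ lev i.val = 2 ^ (lev i.val - 1) * 2 := by
            rw [← pow_succ]
            congr 1
            have := hl1 i.val
            omega
          rw [h2, lt_div_iff₀ (by positivity)] at h1
          linarith
        obtain ⟨δ, hδ, hδle⟩ := exists_pos_le_of_finite _ hp
        refine ⟨R / 2 - δ / 2, by linarith, fun i => ?_⟩
        rw [lt_div_iff₀ (by positivity)]
        have := hδle i
        linarith
      choose ρ hρlt hρr using hρ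
      have hout : BallPackingOn (m + 1) (Fin N) ρ R :=
        halving_packing (m + 1) N (le_refl _) ρ R hρlt
      refine BallPackingOn.nest φ r ρ R hout fun g => ?_
      refine ih {i : ι // φ i = g} (fun i => lev i.val - 1) (fun i => r i.val) (ρ g)
        (fun i => ?_) (hρr g) ?_
      · have := hlev i.val
        omega
      · have h1 := hφ g
        have h2 : ∑ i : {i : ι // φ i = g}, N ^ (D - (lev i.val - 1)) =
            ∑ i ∈ Finset.univ, (if φ i = g then N ^ (D + 1 - lev i) else 0) := by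
          rw [← Finset.sum_filter]
          rw [Finset.sum_subtype (Finset.univ.filter fun i => φ i = g) (p := fun i => φ i = g)
            (fun x => by simp) (fun i => N ^ (D + 1 - lev i))]
          refine Finset.sum_congr rfl fun i _ => ?_
          congr 1
          have := hl1 i.val
          omega
        rw [h2]
        simpa using h1

end Vale.Agent.Lib.P209
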