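import Vale.Agent.Lib.P209.Toric
import Vale.Agent.Lib.P209.Nest

open Complex ComplexConjugate Filter Topology

namespace Vale.Agent.Lib.P209

/-- Permutation of the coordinates, as a linear map. -/
noncomputable def permL (n : ℕ) (σ : Equiv.Perm (Fin n)) :
    EuclideanSpace ℂ (Fin n) →ₗ[ℂ] EuclideanSpace ℂ (Fin n) where
  toFun z := WithLp.toLp 2 (fun i : Fin n => z (σ.symm i))
  map_add' := by
    intro x y
    ext i
    simp
  map_smul' := by
    intro a x
    ext i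
    simp

/-- Permutation of the coordinates: the new coordinate `σ i` is the old coordinate `i`. -/
noncomputable def permCLM (n : ℕ) (σ : Equiv.Perm (Fin n)) :
    EuclideanSpace ℂ (Fin n) →L[ℂ] EuclideanSpace ℂ (Fin n) :=
  LinearMap.toContinuousLinearMap (permL n σ)

theorem permCLM_apply (n : ℕ) (σ : Equiv.Perm (Fin n)) (z : EuclideanSpace ℂ (Fin n))
    (i : Fin n) : permCLM n σ z i = z (σ.symm i) := rfl

theorem permCLM_sympOn (n : ℕ) (σ : Equiv.Perm (Fin n)) :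
    SympOn (permCLM n σ) Set.univ := by
  refine ⟨isOpen_univ, ?_, ?_, ?_⟩
  · exact ((permCLM n σ).restrictScalars ℝ).contDiff.contDiffOn
  · intro z _ z' _ h
    ext i
    have h1 := congrArg (fun y : EuclideanSpace ℂ (Fin n) => y (σ i)) h
    simp only [permCLM_apply, Equiv.symm_apply_apply] at h1
    exact h1
  · intro x _ u v
    have hfd : fderiv ℝ (permCLM n σ) x = (permCLM n σ).restrictScalars ℝ :=
      ((permCLM n σ).restrictScalars ℝ).fderiv
    rw [hfd]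
    have h1 : inner ℂ (permCLM n σ u) (permCLM n σ v) = inner ℂ u v := by
      rw [PiLp.inner_apply, PiLp.inner_apply]
      simp only [permCLM_apply]
      exact Equiv.sum_comp σ.symm (fun i => inner ℂ (u i) (v i))
    exact congrArg Complex.im h1

/-- The open order simplex of size `s`: positive, strictly decreasing coordinates below `s`. -/
def OS (n : ℕ) (s : ℝ) : Set (Fin n → ℝ) :=
  {y | (∀ i, 0 < y i) ∧ (∀ i j, i < j → y j < y i) ∧ (∀ i, y i < s)}

/-- The cell with corner `κ`, size `s` and coordinate order `σ`. -/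
def Cell (n : ℕ) (κ : Fin n → ℝ) (s : ℝ) (σ : Equiv.Perm (Fin n)) : Set (Fin n → ℝ) :=
  {x | (fun i => x (σ i) - κ (σ i)) ∈ OS n s}

theorem qge_mem_OS (n : ℕ) (s : ℝ) (w : EuclideanSpace ℂ (Fin n)) (hw : w ∈ Tor n s) :
    (fun i : Fin n => ‖Qge n i.val w‖ ^ 2) ∈ OS n s := by
  refine ⟨fun i => norm_sq_Qge_pos n w i (hw.1 i), fun i j hij => ?_, fun i => ?_⟩
  · have h1 : ‖Qge n i.val w‖ ^ 2 = ‖Qge n (i.val + 1) w‖ ^ 2 + ‖w i‖ ^ 2 :=
      norm_sq_Qge_succ n i.val i.isLt w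
    have h2 : ‖Qge n j.val w‖ ^ 2 ≤ ‖Qge n (i.val + 1) w‖ ^ 2 :=
      norm_sq_Qge_anti n (i.val + 1) j.val (by
        have : i.val < j.val := hij
        omega) w
    have h3 : 0 < ‖w i‖ ^ 2 := pow_pos (norm_pos_iff.2 (hw.1 i)) 2
    show ‖Qge n j.val w‖ ^ 2 < ‖Qge n i.val w‖ ^ 2
    linarith
  · have h1 := norm_Qge_le n i.val w
    show ‖Qge n i.val w‖ ^ 2 < s
    linarith [hw.2]

/-- A closed ball of capacity `r < π s` embeds symplectically into the toric region over the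
cell with corner `κ`, size `s` and coordinate order `σ`. -/
theorem exists_cell_emb (n : ℕ) (κ : Fin n → ℝ) (hκ : ∀ i, 0 ≤ κ i) (s : ℝ)
    (σ : Equiv.Perm (Fin n)) (r : ℝ) (hr : r < Real.pi * s) :
    ∃ (f : EuclideanSpace ℂ (Fin n) → EuclideanSpace ℂ (Fin n))
      (U : Set (EuclideanSpace ℂ (Fin n))),
      SympOn f U ∧ capBall n r ⊆ U ∧
        ∀ w ∈ U, (fun i : Fin n => ‖f w i‖ ^ 2) ∈ Cell n κ s σ := by
  obtain ⟨f₀, U, hs₀, hcap, hmaps⟩ := exists_piece n (2 * s) r (by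
    have : 2 * s / 2 = s := by ring
    rw [this]
    exact hr)
  have hTor : Set.MapsTo f₀ U (Tor n s) := by
    intro w hw
    obtain ⟨h1, h2⟩ := hmaps hw
    refine ⟨h1, ?_⟩
    rw [Qge_zero] at h2
    linarith
  set κ' : ℕ → ℝ := fun d => if h : d < n then κ (σ ⟨d, h⟩) else 0 with hκ'def
  have hκ' : ∀ d, 0 ≤ κ' d := by
    intro d
    rw [hκ'def]
    by_cases h : d < n
    · simp only [h, dif_pos]
      exact hκ _
    · simp only [h, dif_neg, not_false_eq_true]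
      exact le_rfl
  have hκ'i : ∀ i : Fin n, κ' i.val = κ (σ i) := by
    intro i
    rw [hκ'def]
    simp only [i.isLt, dif_pos]
  set C : ℝ := 2 * (∑ i : Fin n, κ' i.val + n * s) + 1 with hC
  obtain ⟨hsT, hcoT⟩ := TT_props n C s κ' hκ' (by rw [hC]; linarith) n le_rfl
  refine ⟨permCLM n σ ∘ TT n C κ' n ∘ f₀, U,
    (hs₀.comp hsT hTor).comp (permCLM_sympOn n σ) (Set.mapsTo_univ _ _), hcap, ?_⟩
  intro w hw
  have hw' := hTor hw
  obtain ⟨h1, _⟩ := hcoT (f₀ w) hw'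
  have hfun : (fun i : Fin n => ‖(permCLM n σ ∘ TT n C κ' n ∘ f₀) w (σ i)‖ ^ 2 - κ (σ i)) =
      fun i : Fin n => ‖Qge n i.val (f₀ w)‖ ^ 2 := by
    funext i
    simp only [Function.comp_apply, permCLM_apply, Equiv.symm_apply_apply]
    rw [h1 i i.isLt, hκ'i i]
    ring
  show (fun i : Fin n => ‖(permCLM n σ ∘ TT n C κ' n ∘ f₀) w (σ i)‖ ^ 2 - κ (σ i)) ∈ OS n s
  rw [hfun]
  exact qge_mem_OS n s (f₀ w) hw'

/-- Pairwise disjoint cells inside the simplex give a ball packing. -/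
theorem packing_of_cells (n : ℕ) {ι : Type} (κ : ι → Fin n → ℝ) (s : ι → ℝ)
    (σ : ι → Equiv.Perm (Fin n)) (r : ι → ℝ) (R : ℝ)
    (hκ : ∀ i j, 0 ≤ κ i j) (hr : ∀ i, r i < Real.pi * s i)
    (hin : ∀ i, ∀ x ∈ Cell n (κ i) (s i) (σ i), Real.pi * ∑ j, x j < R)
    (hdisj : ∀ i i', i ≠ i' →
      Disjoint (Cell n (κ i) (s i) (σ i)) (Cell n (κ i') (s i') (σ i'))) :
    BallPackingOn n ι r R := by
  choose f U hs hcap hcell using fun i =>
    exists_cell_emb n (κ i) (hκ i) (s i) (σ i) (r i) (hr i)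
  refine ⟨f, fun i => (hs i).isSympBallEmb (hcap i), ?_, ?_⟩
  · intro i
    rintro y ⟨z, hz, rfl⟩
    have h1 := hin i _ (hcell i z (hcap i hz))
    unfold openCapBall
    exact h1
  · intro i i' hii'
    rw [Set.disjoint_left]
    rintro y ⟨z, hz, rfl⟩ ⟨z', hz', hzz'⟩
    have h1 := hcell i z (hcap i hz)
    have h2 := hcell i' z' (hcap i' hz')
    rw [hzz'] at h2
    exact Set.disjoint_left.1 (hdisj i i' hii') h1 h2

end Vale.Agent.Lib.P209
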