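import Vale.Agent.Lib.P209.CoreAlg

open Complex ComplexConjugate

namespace Vale.Agent.Lib.P209

variable {V : Type*} [NormedAddCommGroup V] [InnerProductSpace ℂ V]

/-- `ρ(w) = sqrt (c - ‖w‖²)`. -/
noncomputable def rho (c : ℝ) (w : V) : ℝ := Real.sqrt (c - ‖w‖ ^ 2)

/-- `z₀(w) = a ρ(w) - b ⟪e, w⟫`. -/
noncomputable def zz (a b c : ℝ) (e : V) (w : V) : ℂ :=
  ((a * rho c w : ℝ) : ℂ) - (b : ℂ) * inner ℂ e w

/-- `κ(w) = (a - 1) ⟪e, w⟫ + b ρ(w)`. -/
noncomputable def kk (a b c : ℝ) (e : V) (w : V) : ℂ :=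
  ((a - 1 : ℝ) : ℂ) * inner ℂ e w + ((b * rho c w : ℝ) : ℂ)

/-- `v(w) = w + κ(w) • e`. -/
noncomputable def vv (a b c : ℝ) (e : V) (w : V) : V := w + kk a b c e w • e

/-- The phase `g(w) = conj z₀ / |z₀|`. -/
noncomputable def gg (a b c : ℝ) (e : V) (w : V) : ℂ :=
  conj (zz a b c e w) / ((‖zz a b c e w‖ : ℝ) : ℂ)

/-- The chart map `G(w) = g(w) • v(w)`. -/
noncomputable def GG (a b c : ℝ) (e : V) (w : V) : V := gg a b c e w • vv a b c e w

theorem rho_sq {c : ℝ} {w : V} (h : ‖w‖ ^ 2 ≤ c) : rho c w ^ 2 = c - ‖w‖ ^ 2 := by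
  unfold rho
  rw [Real.sq_sqrt (by linarith)]

theorem rho_nonneg (c : ℝ) (w : V) : 0 ≤ rho c w := Real.sqrt_nonneg _

theorem rho_pos {c : ℝ} {w : V} (h : ‖w‖ ^ 2 < c) : 0 < rho c w :=
  Real.sqrt_pos.2 (by linarith)

theorem inner_e_vv (a b c : ℝ) (e : V) (he : ‖e‖ = 1) (w : V) :
    inner ℂ e (vv a b c e w) = (a : ℂ) * inner ℂ e w + ((b * rho c w : ℝ) : ℂ) := by
  unfold vv kk
  rw [inner_add_right, inner_smul_right, inner_self_eq_norm_sq_to_K, he]
  push_cast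
  ring

theorem norm_sq_vv (a b c : ℝ) (e : V) (he : ‖e‖ = 1) (w : V) :
    ‖vv a b c e w‖ ^ 2 = ‖w‖ ^ 2 - ‖inner ℂ e w‖ ^ 2 +
      ‖(a : ℂ) * inner ℂ e w + ((b * rho c w : ℝ) : ℂ)‖ ^ 2 := by
  unfold vv
  rw [norm_add_sq (𝕜 := ℂ), inner_smul_right, norm_smul, he, mul_one]
  have h1 : inner ℂ w e = conj (inner ℂ e w) := (inner_conj_symm w e).symm
  rw [h1]
  unfold kk
  set m := inner ℂ e w with hm
  rw [← Complex.normSq_eq_norm_sq, ← Complex.normSq_eq_norm_sq, ← Complex.normSq_eq_norm_sq]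
  simp only [Complex.normSq_apply, Complex.add_re, Complex.add_im, Complex.mul_re, Complex.mul_im,
    Complex.ofReal_re, Complex.ofReal_im, Complex.conj_re, Complex.conj_im, RCLike.re_to_complex]
  ring

theorem norm_sq_zz_add_vv (a b c : ℝ) (e : V) (he : ‖e‖ = 1) (hab : a ^ 2 + b ^ 2 = 1) (w : V)
    (hw : ‖w‖ ^ 2 ≤ c) : ‖zz a b c e w‖ ^ 2 + ‖vv a b c e w‖ ^ 2 = c := by
  rw [norm_sq_vv a b c e he w]
  unfold zz
  set m := inner ℂ e w with hm
  have hr := rho_sq hw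
  set r := rho c w with hrdef
  rw [← Complex.normSq_eq_norm_sq, ← Complex.normSq_eq_norm_sq, ← Complex.normSq_eq_norm_sq]
  simp only [Complex.normSq_apply, Complex.add_re, Complex.add_im, Complex.mul_re, Complex.mul_im,
    Complex.ofReal_re, Complex.ofReal_im, Complex.sub_re, Complex.sub_im]
  nlinarith [hr, hab, sq_nonneg m.re, sq_nonneg m.im, sq_nonneg r]

theorem le_of_lt_mul {a b c : ℝ} (hab : a ^ 2 + b ^ 2 = 1) {t : ℝ} (ht0 : 0 ≤ t)
    (ht : t < a ^ 2 * c) : t ≤ c := by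
  have hc : 0 < c := by
    by_contra hc
    push Not at hc
    nlinarith [sq_nonneg a, sq_nonneg b]
  nlinarith [sq_nonneg a, sq_nonneg b]

theorem zz_re_pos (a b c : ℝ) (e : V) (he : ‖e‖ = 1) (ha : 0 < a) (hab : a ^ 2 + b ^ 2 = 1)
    (w : V) (hw : ‖w‖ ^ 2 < a ^ 2 * c) : 0 < (zz a b c e w).re := by
  have hwc : ‖w‖ ^ 2 ≤ c := le_of_lt_mul hab (sq_nonneg _) hw
  have hr := rho_sq hwc
  have hr0 := rho_nonneg c w
  set r := rho c w with hrdef
  have hm : ‖inner ℂ e w‖ ≤ ‖w‖ := by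
    have := norm_inner_le_norm (𝕜 := ℂ) e w
    rwa [he, one_mul] at this
  have hmre : |(inner ℂ e w).re| ≤ ‖w‖ := (Complex.abs_re_le_norm _).trans hm
  have hlt : (|b| * ‖w‖) ^ 2 < (a * r) ^ 2 := by
    rw [mul_pow, mul_pow, sq_abs, hr]
    nlinarith [sq_nonneg ‖w‖]
  have hlt' : |b| * ‖w‖ < a * r :=
    lt_of_pow_lt_pow_left₀ 2 (mul_nonneg ha.le hr0) hlt
  have hb : b * (inner ℂ e w).re ≤ |b| * ‖w‖ := by
    calc b * (inner ℂ e w).re ≤ |b * (inner ℂ e w).re| := le_abs_self _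
      _ = |b| * |(inner ℂ e w).re| := abs_mul _ _
      _ ≤ |b| * ‖w‖ := mul_le_mul_of_nonneg_left hmre (abs_nonneg _)
  unfold zz
  simp only [Complex.sub_re, Complex.ofReal_re, Complex.mul_re, Complex.ofReal_im, zero_mul,
    sub_zero]
  linarith

theorem zz_ne_zero (a b c : ℝ) (e : V) (he : ‖e‖ = 1) (ha : 0 < a) (hab : a ^ 2 + b ^ 2 = 1)
    (w : V) (hw : ‖w‖ ^ 2 < a ^ 2 * c) : zz a b c e w ≠ 0 := by
  intro h
  have := zz_re_pos a b c e he ha hab w hw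
  rw [h] at this
  simp at this

theorem gg_mul_zz (a b c : ℝ) (e : V) (w : V) (hz : zz a b c e w ≠ 0) :
    gg a b c e w * zz a b c e w = ((‖zz a b c e w‖ : ℝ) : ℂ) := by
  unfold gg
  have hn : ((‖zz a b c e w‖ : ℝ) : ℂ) ≠ 0 := by
    exact_mod_cast (norm_ne_zero_iff.2 hz)
  rw [div_mul_eq_mul_div, Complex.conj_mul', div_eq_iff hn]
  push_cast
  ring

theorem gg_mul_conj (a b c : ℝ) (e : V) (w : V) (hz : zz a b c e w ≠ 0) :
    gg a b c e w * conj (gg a b c e w) = 1 := by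
  unfold gg
  have hn : ((‖zz a b c e w‖ : ℝ) : ℂ) ≠ 0 := by
    exact_mod_cast (norm_ne_zero_iff.2 hz)
  rw [map_div₀, Complex.conj_conj, Complex.conj_ofReal, div_mul_div_comm, Complex.conj_mul',
    div_eq_one_iff_eq (mul_ne_zero hn hn)]
  push_cast
  ring

theorem norm_gg (a b c : ℝ) (e : V) (w : V) (hz : zz a b c e w ≠ 0) : ‖gg a b c e w‖ = 1 := by
  have h := gg_mul_conj a b c e w hz
  rw [Complex.mul_conj'] at h
  have h2 : ‖gg a b c e w‖ ^ 2 = 1 := by exact_mod_cast h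
  have h3 : 0 ≤ ‖gg a b c e w‖ := norm_nonneg _
  nlinarith

theorem norm_GG (a b c : ℝ) (e : V) (w : V) (hz : zz a b c e w ≠ 0) :
    ‖GG a b c e w‖ = ‖vv a b c e w‖ := by
  unfold GG
  rw [norm_smul, norm_gg a b c e w hz, one_mul]

/-- The recovery function: `Θ(Y) = a * sqrt (c - ‖Y‖²) + b ⟪e, Y⟫`. -/
noncomputable def theta (a b c : ℝ) (e : V) (Y : V) : ℂ :=
  ((a * Real.sqrt (c - ‖Y‖ ^ 2) : ℝ) : ℂ) + (b : ℂ) * inner ℂ e Y

theorem rho_mul_gg (a b c : ℝ) (e : V) (he : ‖e‖ = 1) (hab : a ^ 2 + b ^ 2 = 1) (w : V)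
    (hw : ‖w‖ ^ 2 ≤ c) (hz : zz a b c e w ≠ 0) :
    ((rho c w : ℝ) : ℂ) * gg a b c e w = theta a b c e (GG a b c e w) := by
  have hN := norm_sq_zz_add_vv a b c e he hab w hw
  have hs : Real.sqrt (c - ‖GG a b c e w‖ ^ 2) = ‖zz a b c e w‖ := by
    rw [norm_GG a b c e w hz, show c - ‖vv a b c e w‖ ^ 2 = ‖zz a b c e w‖ ^ 2 by linarith,
      Real.sqrt_sq (norm_nonneg _)]
  unfold theta
  rw [hs]
  have h1 : inner ℂ e (GG a b c e w) = gg a b c e w * inner ℂ e (vv a b c e w) := by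
    unfold GG
    rw [inner_smul_right]
  rw [h1, inner_e_vv a b c e he w]
  have h2 := gg_mul_zz a b c e w hz
  have h3 : ((a * ‖zz a b c e w‖ : ℝ) : ℂ) = (a : ℂ) * (gg a b c e w * zz a b c e w) := by
    rw [h2]; push_cast; ring
  rw [h3]
  have h4 : zz a b c e w = ((a * rho c w : ℝ) : ℂ) - (b : ℂ) * inner ℂ e w := rfl
  rw [h4]
  have hab' : ((a : ℂ)) ^ 2 + (b : ℂ) ^ 2 = 1 := by exact_mod_cast hab
  push_cast
  linear_combination (-(rho c w : ℂ) * gg a b c e w) * hab'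

theorem lt_of_lt_mul {a b c : ℝ} (hab : a ^ 2 + b ^ 2 = 1) {t : ℝ} (ht0 : 0 ≤ t)
    (ht : t < a ^ 2 * c) : t < c := by
  have hc : 0 < c := by
    by_contra hc
    push Not at hc
    nlinarith [sq_nonneg a, sq_nonneg b]
  nlinarith [sq_nonneg a, sq_nonneg b]

theorem GG_injOn (a b c : ℝ) (e : V) (he : ‖e‖ = 1) (ha : 0 < a) (hab : a ^ 2 + b ^ 2 = 1) :
    Set.InjOn (GG a b c e) {w : V | ‖w‖ ^ 2 < a ^ 2 * c} := by
  intro w hw w' hw' hG
  simp only [Set.mem_setOf_eq] at hw hw'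
  have hz := zz_ne_zero a b c e he ha hab w hw
  have hz' := zz_ne_zero a b c e he ha hab w' hw'
  have hwc := le_of_lt_mul hab (sq_nonneg _) hw
  have hwc' := le_of_lt_mul hab (sq_nonneg _) hw'
  have hρpos := rho_pos (lt_of_lt_mul hab (sq_nonneg _) hw)
  have hρpos' := rho_pos (lt_of_lt_mul hab (sq_nonneg _) hw')
  have h1 := rho_mul_gg a b c e he hab w hwc hz
  have h1' := rho_mul_gg a b c e he hab w' hwc' hz'
  rw [hG] at h1
  have h2 : ((rho c w : ℝ) : ℂ) * gg a b c e w = ((rho c w' : ℝ) : ℂ) * gg a b c e w' :=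
    h1.trans h1'.symm
  have hρ : rho c w = rho c w' := by
    have h3 := congrArg norm h2
    rw [norm_mul, norm_mul, norm_gg a b c e w hz, norm_gg a b c e w' hz', mul_one, mul_one,
      Complex.norm_real, Complex.norm_real, Real.norm_of_nonneg hρpos.le,
      Real.norm_of_nonneg hρpos'.le] at h3
    exact h3
  have hg : gg a b c e w = gg a b c e w' := by
    rw [hρ] at h2
    have hne : ((rho c w' : ℝ) : ℂ) ≠ 0 := by exact_mod_cast hρpos'.ne'
    exact mul_left_cancel₀ hne h2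
  have hgne : gg a b c e w' ≠ 0 := by
    intro h0
    have := norm_gg a b c e w' hz'
    rw [h0, norm_zero] at this
    exact zero_ne_one this
  have hv : vv a b c e w = vv a b c e w' := by
    have h4 : gg a b c e w' • vv a b c e w = gg a b c e w' • vv a b c e w' := by
      have h5 : GG a b c e w = gg a b c e w • vv a b c e w := rfl
      have h6 : GG a b c e w' = gg a b c e w' • vv a b c e w' := rfl
      rw [← h6, ← hG, h5, hg]
    exact smul_right_injective V hgne h4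
  have hm : inner ℂ e w = inner ℂ e w' := by
    have e1 := inner_e_vv a b c e he w
    have e2 := inner_e_vv a b c e he w'
    rw [hv, e2, hρ] at e1
    have hane : (a : ℂ) ≠ 0 := by exact_mod_cast ha.ne'
    have e3 : (a : ℂ) * inner ℂ e w' = (a : ℂ) * inner ℂ e w := by
      linear_combination e1
    exact (mul_left_cancel₀ hane e3).symm
  have hk : kk a b c e w = kk a b c e w' := by
    unfold kk
    rw [hm, hρ]
  have hw1 : w = vv a b c e w - kk a b c e w • e := by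
    unfold vv
    abel
  have hw2 : w' = vv a b c e w' - kk a b c e w' • e := by
    unfold vv
    abel
  rw [hw1, hw2, hv, hk]

theorem cross_bound (a b c : ℝ) (e : V) (he : ‖e‖ = 1) (ha : 0 < a) (hb : 0 < b)
    (hab : a ^ 2 + b ^ 2 = 1) (w w' : V) (hw : ‖w‖ ^ 2 < a ^ 2 * c) (hw' : ‖w'‖ ^ 2 < b ^ 2 * c)
    (hG : GG a (-b) c e w = GG b a c e w') : c ≤ ‖w‖ ^ 2 + ‖w'‖ ^ 2 := by
  have hab1 : a ^ 2 + (-b) ^ 2 = 1 := by rw [neg_sq]; exact hab
  have hab2 : b ^ 2 + a ^ 2 = 1 := by rw [add_comm]; exact hab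
  have hz := zz_ne_zero a (-b) c e he ha hab1 w hw
  have hz' := zz_ne_zero b a c e he hb hab2 w' hw'
  have hwc := le_of_lt_mul hab1 (sq_nonneg _) hw
  have hwc' := le_of_lt_mul hab2 (sq_nonneg _) hw'
  have h1 := rho_mul_gg a (-b) c e he hab1 w hwc hz
  have h1' := rho_mul_gg b a c e he hab2 w' hwc' hz'
  rw [hG] at h1
  set Y := GG b a c e w' with hY
  have hYn : ‖Y‖ ^ 2 ≤ c := by
    rw [hY, norm_GG b a c e w' hz']
    have := norm_sq_zz_add_vv b a c e he hab2 w' hwc'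
    nlinarith [sq_nonneg ‖zz b a c e w'‖]
  have hs : Real.sqrt (c - ‖Y‖ ^ 2) ^ 2 = c - ‖Y‖ ^ 2 := Real.sq_sqrt (by linarith)
  set s := Real.sqrt (c - ‖Y‖ ^ 2) with hsdef
  have hη : ‖inner ℂ e Y‖ ^ 2 ≤ ‖Y‖ ^ 2 := by
    have h := norm_inner_le_norm (𝕜 := ℂ) e Y
    rw [he, one_mul] at h
    exact pow_le_pow_left₀ (norm_nonneg _) h 2
  set η := inner ℂ e Y with hηdef
  have n1 : rho c w ^ 2 = Complex.normSq (theta a (-b) c e Y) := by
    rw [← h1, Complex.normSq_mul, Complex.normSq_ofReal, Complex.normSq_eq_norm_sq,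
      norm_gg a (-b) c e w hz]
    ring
  have n2 : rho c w' ^ 2 = Complex.normSq (theta b a c e Y) := by
    rw [← h1', Complex.normSq_mul, Complex.normSq_ofReal, Complex.normSq_eq_norm_sq,
      norm_gg b a c e w' hz']
    ring
  have n3 : Complex.normSq (theta a (-b) c e Y) + Complex.normSq (theta b a c e Y) =
      s ^ 2 + ‖η‖ ^ 2 := by
    unfold theta
    rw [← hsdef, ← hηdef, ← Complex.normSq_eq_norm_sq]
    simp only [Complex.normSq_apply, Complex.add_re, Complex.add_im, Complex.mul_re,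
      Complex.mul_im, Complex.ofReal_re, Complex.ofReal_im, Complex.ofReal_neg, Complex.neg_re,
      Complex.neg_im]
    nlinarith [hab, sq_nonneg s, sq_nonneg η.re, sq_nonneg η.im]
  have r1 := rho_sq hwc
  have r2 := rho_sq hwc'
  linarith

end Vale.Agent.Lib.P209
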