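import Vale.Agent.Lib.P209.Symp

open Complex ComplexConjugate Filter Topology

namespace Vale.Agent.Lib.P209

variable {V : Type*} [NormedAddCommGroup V] [InnerProductSpace ℂ V]

/-- The general domain of the chart map: `‖w‖² < c` and `z₀(w) ≠ 0`. -/
def chartDom (a b c : ℝ) (e : V) : Set V := {w : V | ‖w‖ ^ 2 < c ∧ zz a b c e w ≠ 0}

theorem zz_continuous (a b c : ℝ) (e : V) : Continuous (zz a b c e) := by
  unfold zz rho
  fun_prop

theorem isOpen_chartDom (a b c : ℝ) (e : V) : IsOpen (chartDom a b c e) := by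
  have h1 : IsOpen {w : V | ‖w‖ ^ 2 < c} := isOpen_lt (continuous_norm.pow 2) continuous_const
  have h2 : IsOpen {w : V | zz a b c e w ≠ 0} := isOpen_ne_fun (zz_continuous a b c e) continuous_const
  exact h1.inter h2

/-- General form: the chart map preserves the imaginary part of the Hermitian inner product at
every point of an open set on which `‖w‖² < c` and `z₀ ≠ 0`. -/
theorem GG_symplectic_gen (a b c : ℝ) (e : V) (he : ‖e‖ = 1) (hab : a ^ 2 + b ^ 2 = 1)
    (S : Set V) (hS : IsOpen S) (hSc : ∀ w ∈ S, ‖w‖ ^ 2 < c ∧ zz a b c e w ≠ 0)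
    (w : V) (hw : w ∈ S) (u u' : V) :
    (inner ℂ (fderiv ℝ (GG a b c e) w u) (fderiv ℝ (GG a b c e) w u')).im =
      (inner ℂ u u').im := by
  have hU : S ∈ 𝓝 w := hS.mem_nhds hw
  have hwc : ‖w‖ ^ 2 < c := (hSc w hw).1
  have hz : zz a b c e w ≠ 0 := (hSc w hw).2
  set P : V →L[ℝ] ℝ := fderiv ℝ (rho (V := V) c) w with hPdef
  have hP : HasFDerivAt (rho (V := V) c) P w :=
    ((rho_contDiffAt c w hwc 1).differentiableAt one_ne_zero).hasFDerivAt
  have hDz := zz_hasFDerivAt a b c e w P hP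
  have hDv := vv_hasFDerivAt a b c e w P hP
  set Dz : V →L[ℝ] ℂ := Complex.ofRealCLM.comp (a • P) - (b : ℂ) • innerR e with hDzdef
  set Dv : V →L[ℝ] V := ContinuousLinearMap.id ℝ V +
      ((((a - 1 : ℝ) : ℂ)) • innerR e + Complex.ofRealCLM.comp (b • P)).smulRight e with hDvdef
  set Dg : V →L[ℝ] ℂ := fderiv ℝ (gg a b c e) w with hDgdef
  have hDg : HasFDerivAt (gg a b c e) Dg w :=
    ((gg_contDiffAt a b c e w hwc hz 1).differentiableAt one_ne_zero).hasFDerivAt
  have hDG : HasFDerivAt (GG a b c e) (gg a b c e w • Dv + Dg.smulRight (vv a b c e w)) w :=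
    hDg.smul hDv
  have hcg : HasFDerivAt (fun w => conj (gg a b c e w))
      ((Complex.conjCLE : ℂ →L[ℝ] ℂ).comp Dg) w := Complex.conjCLE.hasFDerivAt.comp w hDg
  have hcz : HasFDerivAt (fun w => conj (zz a b c e w))
      ((Complex.conjCLE : ℂ →L[ℝ] ℂ).comp Dz) w := Complex.conjCLE.hasFDerivAt.comp w hDz
  -- (h1)
  have h1 : ∀ u : V, (conj (gg a b c e w) * Dg u).re = 0 := by
    intro u
    have hφ := hDg.mul hcg
    have hev : (fun w => gg a b c e w * conj (gg a b c e w)) =ᶠ[𝓝 w] fun _ => (1 : ℂ) := by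
      filter_upwards [hU] with w' hw'
      exact gg_mul_conj a b c e w' (hSc w' hw').2
    have h0 := (hφ.congr_of_eventuallyEq hev.symm).unique (hasFDerivAt_const (1 : ℂ) w)
    have h0u := congrArg (fun L : V →L[ℝ] ℂ => L u) h0
    simp only [ContinuousLinearMap.add_apply, ContinuousLinearMap.smul_apply,
      ContinuousLinearMap.comp_apply, ContinuousLinearMap.zero_apply, smul_eq_mul] at h0u
    have h0r := congrArg Complex.re h0u
    simp only [Complex.add_re, Complex.mul_re, Complex.zero_re, Complex.conj_re, Complex.conj_im,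
      ContinuousLinearEquiv.coe_coe, Complex.conjCLE_apply] at h0r ⊢
    linarith
  -- (h2)
  have h2 : ∀ u : V, (Dg u * zz a b c e w + gg a b c e w * Dz u).im = 0 := by
    intro u
    have hψ := Complex.imCLM.hasFDerivAt.comp w (hDg.mul hDz)
    have hev : (⇑Complex.imCLM ∘ fun w => gg a b c e w * zz a b c e w) =ᶠ[𝓝 w]
        fun _ => (0 : ℝ) := by
      filter_upwards [hU] with w' hw'
      have := gg_mul_zz a b c e w' (hSc w' hw').2
      simp only [Function.comp_apply, Complex.imCLM_apply]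
      rw [this, Complex.ofReal_im]
    have h0 := (hψ.congr_of_eventuallyEq hev.symm).unique (hasFDerivAt_const (0 : ℝ) w)
    have h0u := congrArg (fun L : V →L[ℝ] ℝ => L u) h0
    simp only [ContinuousLinearMap.add_apply, ContinuousLinearMap.smul_apply,
      ContinuousLinearMap.comp_apply, ContinuousLinearMap.zero_apply, smul_eq_mul,
      Complex.imCLM_apply] at h0u
    rw [← h0u]
    congr 1
    ring
  -- (h3)
  have h3 : ∀ u : V, (conj (zz a b c e w) * Dz u).re +
      (inner ℂ (vv a b c e w) (Dv u)).re = 0 := by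
    intro u
    have hχ := (hcz.mul hDz).add (hDv.inner ℂ hDv)
    have hev : (fun w => conj (zz a b c e w) * zz a b c e w +
        inner ℂ (vv a b c e w) (vv a b c e w)) =ᶠ[𝓝 w] fun _ => (c : ℂ) := by
      filter_upwards [hU] with w' hw'
      have hN := norm_sq_zz_add_vv a b c e he hab w' (hSc w' hw').1.le
      have h := congrArg (fun t : ℝ => (t : ℂ)) hN
      simp only [Complex.ofReal_add, Complex.ofReal_pow] at h
      rw [Complex.conj_mul', inner_self_eq_norm_sq_to_K]
      simpa using h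
    have h0 := (hχ.congr_of_eventuallyEq hev.symm).unique (hasFDerivAt_const (c : ℂ) w)
    have h0u := congrArg (fun L : V →L[ℝ] ℂ => L u) h0
    simp only [ContinuousLinearMap.add_apply, ContinuousLinearMap.smul_apply,
      ContinuousLinearMap.comp_apply, ContinuousLinearMap.zero_apply, smul_eq_mul,
      fderivInnerCLM_apply, ContinuousLinearMap.prod_apply] at h0u
    have h0r := congrArg Complex.re h0u
    have hsym : (inner ℂ (Dv u) (vv a b c e w)).re = (inner ℂ (vv a b c e w) (Dv u)).re := by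
      rw [← inner_conj_symm, Complex.conj_re]
    simp only [Complex.add_re, Complex.mul_re, Complex.zero_re, Complex.conj_re, Complex.conj_im,
      ContinuousLinearEquiv.coe_coe, Complex.conjCLE_apply] at h0r ⊢
    linarith
  have hDzu : ∀ u : V, Dz u = ((a * P u : ℝ) : ℂ) - (b : ℂ) * inner ℂ e u := by
    intro u
    simp [hDzdef, innerR_apply]
  have hDvu : ∀ u : V, Dv u =
      u + (((a - 1 : ℝ) : ℂ) * inner ℂ e u + ((b * P u : ℝ) : ℂ)) • e := by
    intro u
    simp [hDvdef, innerR_apply]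
  have hgg : conj (gg a b c e w) * gg a b c e w = 1 := by
    rw [mul_comm]
    exact gg_mul_conj a b c e w hz
  have hvv : inner ℂ (vv a b c e w) (vv a b c e w) = ((‖vv a b c e w‖ ^ 2 : ℝ) : ℂ) := by
    rw [inner_self_eq_norm_sq_to_K]
    simp
  have hyv : inner ℂ (Dv u) (vv a b c e w) = conj (inner ℂ (vv a b c e w) (Dv u)) :=
    (inner_conj_symm _ _).symm
  have key := core_alg (gg a b c e w) (zz a b c e w) (Dz u) (Dz u') (Dg u) (Dg u')
    (inner ℂ (vv a b c e w) (Dv u)) (inner ℂ (vv a b c e w) (Dv u')) (inner ℂ (Dv u) (Dv u'))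
    (‖vv a b c e w‖ ^ 2) ‖zz a b c e w‖ (gg_mul_conj a b c e w hz) (gg_mul_zz a b c e w hz)
    (h1 u) (h1 u') (h2 u) (h2 u') (h3 u) (h3 u')
  have hpair := pair_alg a b hab e he u u' (P u) (P u')
  rw [hDG.fderiv]
  simp only [ContinuousLinearMap.add_apply, ContinuousLinearMap.smul_apply,
    ContinuousLinearMap.smulRight_apply]
  have hfin : (conj (Dz u) * Dz u').im + (inner ℂ (Dv u) (Dv u')).im = (inner ℂ u u').im := by
    rw [← Complex.add_im, hDzu u, hDzu u', hDvu u, hDvu u', hpair]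
    simp
  rw [← hfin, ← key]
  congr 1
  simp only [inner_add_left, inner_add_right, inner_smul_left, inner_smul_right]
  rw [hvv, hyv]
  linear_combination (inner ℂ (Dv u) (Dv u')) * hgg

theorem GG_contDiffOn_gen (a b c : ℝ) (e : V) (n : WithTop ℕ∞) :
    ContDiffOn ℝ n (GG a b c e) (chartDom a b c e) := by
  intro w hw
  exact (GG_contDiffAt a b c e w hw.1 hw.2 n).contDiffWithinAt

theorem GG_injOn_gen (a b c : ℝ) (e : V) (he : ‖e‖ = 1) (hab : a ^ 2 + b ^ 2 = 1) :
    Set.InjOn (GG a b c e) (chartDom a b c e) := by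
  intro w hw w' hw' hG
  obtain ⟨hwc, hz⟩ := hw
  obtain ⟨hwc', hz'⟩ := hw'
  have hρpos := rho_pos hwc
  have hρpos' := rho_pos hwc'
  have h1 := rho_mul_gg a b c e he hab w hwc.le hz
  have h1' := rho_mul_gg a b c e he hab w' hwc'.le hz'
  rw [hG] at h1
  have h2 : ((rho c w : ℝ) : ℂ) * gg a b c e w = ((rho c w' : ℝ) : ℂ) * gg a b c e w' :=
    h1.trans h1'.symm
  have hρ : rho c w = rho c w' := by
    have h3 := congrArg norm h2
    rw [norm_mul, norm_mul, norm_gg a b c e w hz, norm_gg a b c e w' hz', mul_one, mul_one,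
      Complex.norm_real, Complex.norm_real, Real.norm_of_nonneg hρpos.le,
      Real.norm_of_nonneg hρpos'.le] at h3
    exact h3
  have hg : gg a b c e w = gg a b c e w' := by
    rw [hρ] at h2
    have hne : ((rho c w' : ℝ) : ℂ) ≠ 0 := by exact_mod_cast hρpos'.ne'
    exact mul_left_cancel₀ hne h2
  have hgne : gg a b c e w' ≠ 0 := by
    intro h0
    have := norm_gg a b c e w' hz'
    rw [h0, norm_zero] at this
    exact zero_ne_one this
  have hv : vv a b c e w = vv a b c e w' := by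
    have h4 : gg a b c e w' • vv a b c e w = gg a b c e w' • vv a b c e w' := by
      have h5 : GG a b c e w = gg a b c e w • vv a b c e w := rfl
      have h6 : GG a b c e w' = gg a b c e w' • vv a b c e w' := rfl
      rw [← h6, ← hG, h5, hg]
    exact smul_right_injective V hgne h4
  have hnz : ‖zz a b c e w‖ = ‖zz a b c e w'‖ := by
    have e1 := norm_sq_zz_add_vv a b c e he hab w hwc.le
    have e2 := norm_sq_zz_add_vv a b c e he hab w' hwc'.le
    rw [hv] at e1
    have e3 : ‖zz a b c e w‖ ^ 2 = ‖zz a b c e w'‖ ^ 2 := by linarith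
    have h0 := norm_nonneg (zz a b c e w)
    have h0' := norm_nonneg (zz a b c e w')
    nlinarith
  have hzz : zz a b c e w = zz a b c e w' := by
    have e1 := gg_mul_zz a b c e w hz
    have e2 := gg_mul_zz a b c e w' hz'
    rw [hg, hnz] at e1
    exact mul_left_cancel₀ hgne (e1.trans e2.symm)
  have hm : inner ℂ e w = inner ℂ e w' := by
    have e1 := inner_e_vv a b c e he w
    have e2 := inner_e_vv a b c e he w'
    rw [hv, hρ] at e1
    have E3 := e1.symm.trans e2
    have z1 : zz a b c e w = ((a * rho c w : ℝ) : ℂ) - (b : ℂ) * inner ℂ e w := rfl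
    have z2 : zz a b c e w' = ((a * rho c w' : ℝ) : ℂ) - (b : ℂ) * inner ℂ e w' := rfl
    rw [z1, z2, hρ] at hzz
    have hab' : ((a : ℂ)) ^ 2 + (b : ℂ) ^ 2 = 1 := by exact_mod_cast hab
    linear_combination (a : ℂ) * E3 - (b : ℂ) * hzz - (inner ℂ e w - inner ℂ e w') * hab'
  have hk : kk a b c e w = kk a b c e w' := by
    unfold kk
    rw [hm, hρ]
  have hw1 : w = vv a b c e w - kk a b c e w • e := by
    unfold vv
    abel
  have hw2 : w' = vv a b c e w' - kk a b c e w' • e := by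
    unfold vv
    abel
  rw [hw1, hw2, hv, hk]

theorem zz_zero_one (c : ℝ) (e w : V) : zz 0 1 c e w = -inner ℂ e w := by
  unfold zz
  simp

theorem mem_chartDom_zero_one (c : ℝ) (e w : V) :
    w ∈ chartDom 0 1 c e ↔ ‖w‖ ^ 2 < c ∧ inner ℂ e w ≠ 0 := by
  unfold chartDom
  rw [Set.mem_setOf_eq, zz_zero_one, neg_ne_zero]

theorem norm_sq_GG_zero_one (c : ℝ) (e : V) (he : ‖e‖ = 1) (w : V) (hw : ‖w‖ ^ 2 < c)
    (hz : inner ℂ e w ≠ 0) : ‖GG 0 1 c e w‖ ^ 2 = c - ‖inner ℂ e w‖ ^ 2 := by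
  have hz' : zz 0 1 c e w ≠ 0 := by rw [zz_zero_one]; exact neg_ne_zero.2 hz
  have hN := norm_sq_zz_add_vv 0 1 c e he (by norm_num) w hw.le
  rw [norm_GG 0 1 c e w hz']
  rw [zz_zero_one, norm_neg] at hN
  linarith

theorem norm_sq_inner_GG_zero_one (c : ℝ) (e : V) (he : ‖e‖ = 1) (w : V) (hw : ‖w‖ ^ 2 < c)
    (hz : inner ℂ e w ≠ 0) : ‖inner ℂ e (GG 0 1 c e w)‖ ^ 2 = c - ‖w‖ ^ 2 := by
  have hz' : zz 0 1 c e w ≠ 0 := by rw [zz_zero_one]; exact neg_ne_zero.2 hz
  have h1 : inner ℂ e (GG 0 1 c e w) = gg 0 1 c e w * inner ℂ e (vv 0 1 c e w) := by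
    unfold GG
    rw [inner_smul_right]
  rw [h1, inner_e_vv 0 1 c e he w, norm_mul, norm_gg 0 1 c e w hz']
  have h2 : ((0 : ℝ) : ℂ) * inner ℂ e w + ((1 * rho c w : ℝ) : ℂ) = ((rho c w : ℝ) : ℂ) := by
    simp
  rw [h2, Complex.norm_real, Real.norm_of_nonneg (rho_nonneg c w), one_mul, rho_sq hw.le]

end Vale.Agent.Lib.P209
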