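import Mathlib

open Complex ComplexConjugate

namespace Vale.Agent.Lib.P209

/-- Algebraic core of the phase-normalisation computation. -/
theorem core_alg (g z x x' γ γ' A A' B : ℂ) (N s : ℝ)
    (hg : g * conj g = 1) (hz : g * z = (s : ℂ))
    (h1 : (conj g * γ).re = 0) (h1' : (conj g * γ').re = 0)
    (h2 : (γ * z + g * x).im = 0) (h2' : (γ' * z + g * x').im = 0)
    (h3 : (conj z * x).re + A.re = 0) (h3' : (conj z * x').re + A'.re = 0) :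
    (conj γ * γ' * (N : ℂ) + conj γ * g * A' + conj g * γ' * conj A + B).im =
      (conj x * x').im + B.im := by
  obtain ⟨g1, g2⟩ := g
  obtain ⟨z1, z2⟩ := z
  obtain ⟨x1, x2⟩ := x
  obtain ⟨y1, y2⟩ := x'
  obtain ⟨c1, c2⟩ := γ
  obtain ⟨d1, d2⟩ := γ'
  obtain ⟨A1, A2⟩ := A
  obtain ⟨B1, B2⟩ := A'
  obtain ⟨C1, C2⟩ := B
  simp only [Complex.ext_iff, Complex.mul_re, Complex.mul_im, Complex.conj_re, Complex.conj_im,
    Complex.one_re, Complex.one_im, Complex.ofReal_re, Complex.ofReal_im, Complex.add_re,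
    Complex.add_im] at hg hz h1 h1' h2 h2' h3 h3' ⊢
  obtain ⟨hg1, -⟩ := hg
  obtain ⟨hz1, hz2⟩ := hz
  have hg1' : g1 ^ 2 + g2 ^ 2 = 1 := by linear_combination hg1
  have ez1 : z1 = s * g1 := by linear_combination g1 * hz1 + g2 * hz2 - z1 * hg1'
  have ez2 : z2 = -(s * g2) := by linear_combination g1 * hz2 - g2 * hz1 - z2 * hg1'
  subst ez1 ez2
  obtain ⟨κ, hκ1, hκ2⟩ : ∃ κ : ℝ, c1 = -(κ * g2) ∧ c2 = κ * g1 :=
    ⟨g1 * c2 - g2 * c1, by linear_combination g1 * h1 - c1 * hg1',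
      by linear_combination g2 * h1 - c2 * hg1'⟩
  obtain ⟨κ', hκ1', hκ2'⟩ : ∃ κ' : ℝ, d1 = -(κ' * g2) ∧ d2 = κ' * g1 :=
    ⟨g1 * d2 - g2 * d1, by linear_combination g1 * h1' - d1 * hg1',
      by linear_combination g2 * h1' - d2 * hg1'⟩
  subst hκ1 hκ2 hκ1' hκ2'
  linear_combination (κ' * (g1 ^ 2 + g2 ^ 2)) * h3 - (κ * (g1 ^ 2 + g2 ^ 2)) * h3' +
    (g1 * y1 - g2 * y2) * h2 - (g1 * x1 - g2 * x2) * h2' + (x1 * y2 - x2 * y1) * hg1'

end Vale.Agent.Lib.P209
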