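import Vale.Agent.Lib.P209.Smooth

open Complex ComplexConjugate Filter Topology

namespace Vale.Agent.Lib.P209

variable {V : Type*} [NormedAddCommGroup V] [InnerProductSpace ℂ V]

theorem zz_hasFDerivAt (a b c : ℝ) (e : V) (w : V) (P : V →L[ℝ] ℝ)
    (hP : HasFDerivAt (rho (V := V) c) P w) :
    HasFDerivAt (zz a b c e) (Complex.ofRealCLM.comp (a • P) - (b : ℂ) • innerR e) w := by
  have h1 : HasFDerivAt (fun w : V => ((a * rho c w : ℝ) : ℂ)) (Complex.ofRealCLM.comp (a • P)) w :=
    Complex.ofRealCLM.hasFDerivAt.comp w (hP.const_mul a)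
  have h2 : HasFDerivAt (fun w : V => (b : ℂ) * innerR e w) ((b : ℂ) • innerR e) w :=
    ((innerR e).hasFDerivAt).const_mul (b : ℂ)
  exact h1.sub h2

theorem kk_hasFDerivAt (a b c : ℝ) (e : V) (w : V) (P : V →L[ℝ] ℝ)
    (hP : HasFDerivAt (rho (V := V) c) P w) :
    HasFDerivAt (kk a b c e)
      ((((a - 1 : ℝ) : ℂ)) • innerR e + Complex.ofRealCLM.comp (b • P)) w := by
  have h1 : HasFDerivAt (fun w : V => ((b * rho c w : ℝ) : ℂ)) (Complex.ofRealCLM.comp (b • P)) w :=
    Complex.ofRealCLM.hasFDerivAt.comp w (hP.const_mul b)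
  have h2 : HasFDerivAt (fun w : V => ((a - 1 : ℝ) : ℂ) * innerR e w)
      ((((a - 1 : ℝ) : ℂ)) • innerR e) w :=
    ((innerR e).hasFDerivAt).const_mul _
  exact h2.add h1

theorem vv_hasFDerivAt (a b c : ℝ) (e : V) (w : V) (P : V →L[ℝ] ℝ)
    (hP : HasFDerivAt (rho (V := V) c) P w) :
    HasFDerivAt (vv a b c e) (ContinuousLinearMap.id ℝ V +
      ((((a - 1 : ℝ) : ℂ)) • innerR e + Complex.ofRealCLM.comp (b • P)).smulRight e) w :=
  (hasFDerivAt_id w).add ((kk_hasFDerivAt a b c e w P hP).smul_const e)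

/-- The algebraic identity behind the isotropy of the pair z₀, v. -/
theorem pair_alg (a b : ℝ) (hab : a ^ 2 + b ^ 2 = 1) (e : V) (he : ‖e‖ = 1) (u u' : V)
    (p p' : ℝ) :
    conj (((a * p : ℝ) : ℂ) - (b : ℂ) * inner ℂ e u) * (((a * p' : ℝ) : ℂ) - (b : ℂ) * inner ℂ e u')
      + inner ℂ (u + (((a - 1 : ℝ) : ℂ) * inner ℂ e u + ((b * p : ℝ) : ℂ)) • e)
          (u' + (((a - 1 : ℝ) : ℂ) * inner ℂ e u' + ((b * p' : ℝ) : ℂ)) • e)
      = ((p * p' : ℝ) : ℂ) + inner ℂ u u' := by
  rw [inner_add_left, inner_add_right, inner_add_right, inner_smul_left, inner_smul_left,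
    inner_smul_right, inner_smul_right, inner_self_eq_norm_sq_to_K, he]
  have h1 : inner ℂ u e = conj (inner ℂ e u) := (inner_conj_symm u e).symm
  rw [h1]
  have hab' : ((a : ℂ)) ^ 2 + (b : ℂ) ^ 2 = 1 := by exact_mod_cast hab
  simp only [map_sub, map_add, map_mul, Complex.conj_ofReal]
  push_cast
  linear_combination ((p : ℂ) * p' + conj (inner ℂ e u) * inner ℂ e u') * hab'

/-- The chart map preserves the imaginary part of the Hermitian inner product (the standard
symplectic form) at every point of its domain. -/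
theorem GG_symplectic (a b c : ℝ) (e : V) (he : ‖e‖ = 1) (ha : 0 < a) (hab : a ^ 2 + b ^ 2 = 1)
    (w : V) (hw : ‖w‖ ^ 2 < a ^ 2 * c) (u u' : V) :
    (inner ℂ (fderiv ℝ (GG a b c e) w u) (fderiv ℝ (GG a b c e) w u')).im =
      (inner ℂ u u').im := by
  have hU : {w : V | ‖w‖ ^ 2 < a ^ 2 * c} ∈ 𝓝 w := (isOpen_dom a c).mem_nhds hw
  have hwc : ‖w‖ ^ 2 < c := lt_of_lt_mul hab (sq_nonneg _) hw
  have hz : zz a b c e w ≠ 0 := zz_ne_zero a b c e he ha hab w hw
  set P : V →L[ℝ] ℝ := fderiv ℝ (rho (V := V) c) w with hPdef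
  have hP : HasFDerivAt (rho (V := V) c) P w :=
    ((rho_contDiffAt c w hwc 1).differentiableAt one_ne_zero).hasFDerivAt
  have hDz := zz_hasFDerivAt a b c e w P hP
  have hDv := vv_hasFDerivAt a b c e w P hP
  set Dz : V →L[ℝ] ℂ := Complex.ofRealCLM.comp (a • P) - (b : ℂ) • innerR e with hDzdef
  set Dv : V →L[ℝ] V := ContinuousLinearMap.id ℝ V +
      ((((a - 1 : ℝ) : ℂ)) • innerR e + Complex.ofRealCLM.comp (b • P)).smulRight e with hDvdef
  set Dg : V →L[ℝ] ℂ := fderiv ℝ (gg a b c e) w with hDgdef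
  have hDg : HasFDerivAt (gg a b c e) Dg w :=
    ((gg_contDiffAt a b c e w hwc hz 1).differentiableAt one_ne_zero).hasFDerivAt
  have hDG : HasFDerivAt (GG a b c e) (gg a b c e w • Dv + Dg.smulRight (vv a b c e w)) w :=
    hDg.smul hDv
  have hcg : HasFDerivAt (fun w => conj (gg a b c e w))
      ((Complex.conjCLE : ℂ →L[ℝ] ℂ).comp Dg) w := Complex.conjCLE.hasFDerivAt.comp w hDg
  have hcz : HasFDerivAt (fun w => conj (zz a b c e w))
      ((Complex.conjCLE : ℂ →L[ℝ] ℂ).comp Dz) w := Complex.conjCLE.hasFDerivAt.comp w hDz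
  -- (h1)
  have h1 : ∀ u : V, (conj (gg a b c e w) * Dg u).re = 0 := by
    intro u
    have hφ := hDg.mul hcg
    have hev : (fun w => gg a b c e w * conj (gg a b c e w)) =ᶠ[𝓝 w] fun _ => (1 : ℂ) := by
      filter_upwards [hU] with w' hw'
      exact gg_mul_conj a b c e w' (zz_ne_zero a b c e he ha hab w' hw')
    have h0 := (hφ.congr_of_eventuallyEq hev.symm).unique (hasFDerivAt_const (1 : ℂ) w)
    have h0u := congrArg (fun L : V →L[ℝ] ℂ => L u) h0
    simp only [ContinuousLinearMap.add_apply, ContinuousLinearMap.smul_apply,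
      ContinuousLinearMap.comp_apply, ContinuousLinearMap.zero_apply, smul_eq_mul] at h0u
    have h0r := congrArg Complex.re h0u
    simp only [Complex.add_re, Complex.mul_re, Complex.zero_re, Complex.conj_re, Complex.conj_im,
      ContinuousLinearEquiv.coe_coe, Complex.conjCLE_apply] at h0r ⊢
    linarith
  -- (h2)
  have h2 : ∀ u : V, (Dg u * zz a b c e w + gg a b c e w * Dz u).im = 0 := by
    intro u
    have hψ := Complex.imCLM.hasFDerivAt.comp w (hDg.mul hDz)
    have hev : (⇑Complex.imCLM ∘ fun w => gg a b c e w * zz a b c e w) =ᶠ[𝓝 w]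
        fun _ => (0 : ℝ) := by
      filter_upwards [hU] with w' hw'
      have := gg_mul_zz a b c e w' (zz_ne_zero a b c e he ha hab w' hw')
      simp only [Function.comp_apply, Complex.imCLM_apply]
      rw [this, Complex.ofReal_im]
    have h0 := (hψ.congr_of_eventuallyEq hev.symm).unique (hasFDerivAt_const (0 : ℝ) w)
    have h0u := congrArg (fun L : V →L[ℝ] ℝ => L u) h0
    simp only [ContinuousLinearMap.add_apply, ContinuousLinearMap.smul_apply,
      ContinuousLinearMap.comp_apply, ContinuousLinearMap.zero_apply, smul_eq_mul,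
      Complex.imCLM_apply] at h0u
    rw [← h0u]
    congr 1
    ring
  -- (h3)
  have h3 : ∀ u : V, (conj (zz a b c e w) * Dz u).re +
      (inner ℂ (vv a b c e w) (Dv u)).re = 0 := by
    intro u
    have hχ := (hcz.mul hDz).add (hDv.inner ℂ hDv)
    have hev : (fun w => conj (zz a b c e w) * zz a b c e w +
        inner ℂ (vv a b c e w) (vv a b c e w)) =ᶠ[𝓝 w] fun _ => (c : ℂ) := by
      filter_upwards [hU] with w' hw'
      have hN := norm_sq_zz_add_vv a b c e he hab w' (le_of_lt_mul hab (sq_nonneg _) hw')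
      have h := congrArg (fun t : ℝ => (t : ℂ)) hN
      simp only [Complex.ofReal_add, Complex.ofReal_pow] at h
      rw [Complex.conj_mul', inner_self_eq_norm_sq_to_K]
      simpa using h
    have h0 := (hχ.congr_of_eventuallyEq hev.symm).unique (hasFDerivAt_const (c : ℂ) w)
    have h0u := congrArg (fun L : V →L[ℝ] ℂ => L u) h0
    simp only [ContinuousLinearMap.add_apply, ContinuousLinearMap.smul_apply,
      ContinuousLinearMap.comp_apply, ContinuousLinearMap.zero_apply, smul_eq_mul,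
      fderivInnerCLM_apply, ContinuousLinearMap.prod_apply] at h0u
    have h0r := congrArg Complex.re h0u
    have hsym : (inner ℂ (Dv u) (vv a b c e w)).re = (inner ℂ (vv a b c e w) (Dv u)).re := by
      rw [← inner_conj_symm, Complex.conj_re]
    simp only [Complex.add_re, Complex.mul_re, Complex.zero_re, Complex.conj_re, Complex.conj_im,
      ContinuousLinearEquiv.coe_coe, Complex.conjCLE_apply] at h0r ⊢
    linarith
  have hDzu : ∀ u : V, Dz u = ((a * P u : ℝ) : ℂ) - (b : ℂ) * inner ℂ e u := by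
    intro u
    simp [hDzdef, innerR_apply]
  have hDvu : ∀ u : V, Dv u =
      u + (((a - 1 : ℝ) : ℂ) * inner ℂ e u + ((b * P u : ℝ) : ℂ)) • e := by
    intro u
    simp [hDvdef, innerR_apply]
  have hgg : conj (gg a b c e w) * gg a b c e w = 1 := by
    rw [mul_comm]
    exact gg_mul_conj a b c e w hz
  have hvv : inner ℂ (vv a b c e w) (vv a b c e w) = ((‖vv a b c e w‖ ^ 2 : ℝ) : ℂ) := by
    rw [inner_self_eq_norm_sq_to_K]
    simp
  have hyv : inner ℂ (Dv u) (vv a b c e w) = conj (inner ℂ (vv a b c e w) (Dv u)) :=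
    (inner_conj_symm _ _).symm
  have key := core_alg (gg a b c e w) (zz a b c e w) (Dz u) (Dz u') (Dg u) (Dg u')
    (inner ℂ (vv a b c e w) (Dv u)) (inner ℂ (vv a b c e w) (Dv u')) (inner ℂ (Dv u) (Dv u'))
    (‖vv a b c e w‖ ^ 2) ‖zz a b c e w‖ (gg_mul_conj a b c e w hz) (gg_mul_zz a b c e w hz)
    (h1 u) (h1 u') (h2 u) (h2 u') (h3 u) (h3 u')
  have hpair := pair_alg a b hab e he u u' (P u) (P u')
  rw [hDG.fderiv]
  simp only [ContinuousLinearMap.add_apply, ContinuousLinearMap.smul_apply,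
    ContinuousLinearMap.smulRight_apply]
  have hfin : (conj (Dz u) * Dz u').im + (inner ℂ (Dv u) (Dv u')).im = (inner ℂ u u').im := by
    rw [← Complex.add_im, hDzu u, hDzu u', hDvu u, hDvu u', hpair]
    simp
  rw [← hfin, ← key]
  congr 1
  simp only [inner_add_left, inner_add_right, inner_smul_left, inner_smul_right]
  rw [hvv, hyv]
  linear_combination (inner ℂ (Dv u) (Dv u')) * hgg

end Vale.Agent.Lib.P209
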