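import Vale.Agent.Lib.P209.Defs
import Vale.Agent.Lib.P209.Symp

open Complex ComplexConjugate Filter Topology

namespace Vale.Agent.Lib.P209

theorem omega0_eq (n : ℕ) (u v : EuclideanSpace ℂ (Fin n)) :
    omega0 n u v = (inner ℂ u v).im := by
  unfold omega0
  rw [PiLp.inner_apply, Complex.im_sum]
  refine Finset.sum_congr rfl fun j _ => ?_
  simp only [RCLike.inner_apply, Complex.mul_im, Complex.conj_re, Complex.conj_im]
  ring

theorem sum_norm_sq (n : ℕ) (z : EuclideanSpace ℂ (Fin n)) : ∑ j, ‖z j‖ ^ 2 = ‖z‖ ^ 2 :=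
  (EuclideanSpace.norm_sq_eq z).symm

theorem mem_capBall {n : ℕ} {r : ℝ} {z : EuclideanSpace ℂ (Fin n)} :
    z ∈ capBall n r ↔ Real.pi * ‖z‖ ^ 2 ≤ r := by
  unfold capBall
  rw [Set.mem_setOf_eq, sum_norm_sq]

theorem mem_openCapBall {n : ℕ} {r : ℝ} {z : EuclideanSpace ℂ (Fin n)} :
    z ∈ openCapBall n r ↔ Real.pi * ‖z‖ ^ 2 < r := by
  unfold openCapBall
  rw [Set.mem_setOf_eq, sum_norm_sq]

theorem openCapBall_subset_capBall (n : ℕ) (r : ℝ) : openCapBall n r ⊆ capBall n r := by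
  intro z hz
  rw [mem_openCapBall] at hz
  rw [mem_capBall]
  exact hz.le

theorem lt_dom_of_mem_capBall {n : ℕ} {a c r : ℝ} (hr : r < Real.pi * (a ^ 2 * c))
    {z : EuclideanSpace ℂ (Fin n)} (hz : z ∈ capBall n r) : ‖z‖ ^ 2 < a ^ 2 * c := by
  rw [mem_capBall] at hz
  have hpi := Real.pi_pos
  by_contra hcon
  push Not at hcon
  nlinarith

/-- The chart map is a symplectic embedding of every closed ball inside its domain. -/
theorem GG_isSympBallEmb (n : ℕ) (a b c : ℝ) (e : EuclideanSpace ℂ (Fin n)) (he : ‖e‖ = 1)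
    (ha : 0 < a) (hab : a ^ 2 + b ^ 2 = 1) (r : ℝ) (hr : r < Real.pi * (a ^ 2 * c)) :
    IsSympBallEmb n r (GG a b c e) := by
  refine ⟨{w | ‖w‖ ^ 2 < a ^ 2 * c}, isOpen_dom a c, ?_, GG_contDiffOn a b c e he ha hab _,
    GG_injOn a b c e he ha hab, ?_⟩
  · intro z hz
    exact lt_dom_of_mem_capBall hr hz
  · intro x hx u v
    rw [omega0_eq, omega0_eq]
    exact GG_symplectic a b c e he ha hab x hx u v

theorem GG_image_subset (n : ℕ) (a b c : ℝ) (e : EuclideanSpace ℂ (Fin n)) (he : ‖e‖ = 1)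
    (ha : 0 < a) (hab : a ^ 2 + b ^ 2 = 1) (r R : ℝ) (hc : Real.pi * c = R)
    (hr : r < Real.pi * (a ^ 2 * c)) :
    GG a b c e '' capBall n r ⊆ openCapBall n R := by
  rintro y ⟨w, hw, rfl⟩
  have hwd := lt_dom_of_mem_capBall hr hw
  have hz := zz_ne_zero a b c e he ha hab w hwd
  have hN := norm_sq_zz_add_vv a b c e he hab w (le_of_lt_mul hab (sq_nonneg _) hwd)
  have hpos : 0 < ‖zz a b c e w‖ ^ 2 := pow_pos (norm_pos_iff.2 hz) 2
  rw [mem_openCapBall, norm_GG a b c e w hz, ← hc]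
  have hpi := Real.pi_pos
  nlinarith

/-- Two balls: if `R₁ + R₂ < R` then the closed balls of capacities `R₁` and `R₂` embed
symplectically and disjointly into the open ball of capacity `R` (complex dimension `m + 1`). -/
theorem two_ball (m : ℕ) (R₁ R₂ R : ℝ) (h₁ : 0 < R₁) (h₂ : 0 < R₂) (h : R₁ + R₂ < R) :
    ∃ f₁ f₂ : EuclideanSpace ℂ (Fin (m + 1)) → EuclideanSpace ℂ (Fin (m + 1)),
      IsSympBallEmb (m + 1) R₁ f₁ ∧ IsSympBallEmb (m + 1) R₂ f₂ ∧
      f₁ '' capBall (m + 1) R₁ ⊆ openCapBall (m + 1) R ∧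
      f₂ '' capBall (m + 1) R₂ ⊆ openCapBall (m + 1) R ∧
      Disjoint (f₁ '' capBall (m + 1) R₁) (f₂ '' capBall (m + 1) R₂) := by
  have hR : 0 < R := by linarith
  have hpi := Real.pi_pos
  set δ : ℝ := 1 - (R₁ + R₂) / R with hδdef
  have hδ : 0 < δ := by
    have : (R₁ + R₂) / R < 1 := (div_lt_one hR).2 h
    linarith
  set t₁ : ℝ := R₁ / R + δ / 2 with ht₁def
  set t₂ : ℝ := R₂ / R + δ / 2 with ht₂def
  have ht : t₁ + t₂ = 1 := by
    rw [ht₁def, ht₂def, hδdef]
    field_simp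
    ring
  have ht₁ : R₁ / R < t₁ := by linarith
  have ht₂ : R₂ / R < t₂ := by linarith
  have ht₁0 : 0 < t₁ := lt_trans (div_pos h₁ hR) ht₁
  have ht₂0 : 0 < t₂ := lt_trans (div_pos h₂ hR) ht₂
  set a : ℝ := Real.sqrt t₁ with hadef
  set b : ℝ := Real.sqrt t₂ with hbdef
  have ha : 0 < a := Real.sqrt_pos.2 ht₁0
  have hb : 0 < b := Real.sqrt_pos.2 ht₂0
  have ha2 : a ^ 2 = t₁ := Real.sq_sqrt ht₁0.le
  have hb2 : b ^ 2 = t₂ := Real.sq_sqrt ht₂0.le
  have hab : a ^ 2 + b ^ 2 = 1 := by rw [ha2, hb2, ht]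
  have hab1 : a ^ 2 + (-b) ^ 2 = 1 := by rw [neg_sq]; exact hab
  have hab2 : b ^ 2 + a ^ 2 = 1 := by rw [add_comm]; exact hab
  set c : ℝ := R / Real.pi with hcdef
  have hc : Real.pi * c = R := by
    rw [hcdef]
    field_simp
  have hr₁ : R₁ < Real.pi * (a ^ 2 * c) := by
    have e1 : Real.pi * (a ^ 2 * c) = t₁ * R := by rw [ha2, ← hc]; ring
    rw [e1]
    exact (div_lt_iff₀ hR).1 ht₁
  have hr₂ : R₂ < Real.pi * (b ^ 2 * c) := by
    have e1 : Real.pi * (b ^ 2 * c) = t₂ * R := by rw [hb2, ← hc]; ring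
    rw [e1]
    exact (div_lt_iff₀ hR).1 ht₂
  set e : EuclideanSpace ℂ (Fin (m + 1)) := EuclideanSpace.single (0 : Fin (m + 1)) (1 : ℂ)
    with hedef
  have he : ‖e‖ = 1 := by
    rw [hedef, EuclideanSpace.norm_single]
    simp
  refine ⟨GG a (-b) c e, GG b a c e, GG_isSympBallEmb (m + 1) a (-b) c e he ha hab1 R₁ hr₁,
    GG_isSympBallEmb (m + 1) b a c e he hb hab2 R₂ hr₂,
    GG_image_subset (m + 1) a (-b) c e he ha hab1 R₁ R hc hr₁,
    GG_image_subset (m + 1) b a c e he hb hab2 R₂ R hc hr₂, ?_⟩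
  rw [Set.disjoint_left]
  rintro y ⟨w, hw, rfl⟩ ⟨w', hw', heq⟩
  have hwd := lt_dom_of_mem_capBall hr₁ hw
  have hwd' := lt_dom_of_mem_capBall hr₂ hw'
  have hcb := cross_bound a b c e he ha hb hab w w' hwd hwd' heq.symm
  rw [mem_capBall] at hw hw'
  nlinarith

/-- Composition: a symplectic embedding of a closed ball whose image lies in a closed ball
on which a second symplectic embedding is defined composes to a symplectic embedding. -/
theorem IsSympBallEmb.comp {n : ℕ} {r R' : ℝ}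
    {f g : EuclideanSpace ℂ (Fin n) → EuclideanSpace ℂ (Fin n)}
    (hf : IsSympBallEmb n r f) (hg : IsSympBallEmb n R' g)
    (hfg : f '' capBall n r ⊆ capBall n R') : IsSympBallEmb n r (g ∘ f) := by
  obtain ⟨U, hU, hBU, hfs, hfi, hfω⟩ := hf
  obtain ⟨W, hW, hBW, hgs, hgi, hgω⟩ := hg
  have hmaps : Set.MapsTo f (U ∩ f ⁻¹' W) W := fun x hx => hx.2
  refine ⟨U ∩ f ⁻¹' W, hfs.continuousOn.isOpen_inter_preimage hU hW, ?_, ?_, ?_, ?_⟩
  · intro x hx
    exact ⟨hBU hx, hBW (hfg ⟨x, hx, rfl⟩)⟩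
  · exact hgs.comp (hfs.mono Set.inter_subset_left) hmaps
  · exact hgi.comp (hfi.mono Set.inter_subset_left) hmaps
  · intro x hx u v
    have hfd : DifferentiableAt ℝ f x :=
      (hfs.contDiffAt (hU.mem_nhds hx.1)).differentiableAt (by simp)
    have hgd : DifferentiableAt ℝ g (f x) :=
      (hgs.contDiffAt (hW.mem_nhds hx.2)).differentiableAt (by simp)
    rw [fderiv_comp x hgd hfd]
    simp only [ContinuousLinearMap.comp_apply]
    rw [hgω (f x) hx.2, hfω x hx.1]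

/-- Nested two-ball packings: if `∑ r i < R` then the closed balls of capacities `r i` pack
the open ball of capacity `R` (complex dimension `m + 1`). -/
theorem sum_packing (m : ℕ) : ∀ (k : ℕ) (r : Fin k → ℝ), (∀ i, 0 < r i) → ∀ R : ℝ,
    ∑ i, r i < R → BallPacking (m + 1) k r R := by
  intro k
  induction k with
  | zero =>
    intro r _ R _
    exact ⟨fun i => Fin.elim0 i, fun i => Fin.elim0 i, fun i => Fin.elim0 i,
      fun i => Fin.elim0 i⟩
  | succ k ih =>
    intro r hr R hsum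
    rw [Fin.sum_univ_succ] at hsum
    have hS : 0 ≤ ∑ i : Fin k, r i.succ := Finset.sum_nonneg fun i _ => (hr i.succ).le
    set S : ℝ := ∑ i : Fin k, r i.succ with hSdef
    set R'' : ℝ := S + (R - r 0 - S) / 2 with hR''def
    have hR''S : S < R'' := by rw [hR''def]; linarith
    have hR''0 : 0 < R'' := lt_of_le_of_lt hS hR''S
    have hR''R : r 0 + R'' < R := by rw [hR''def]; linarith
    obtain ⟨f', hf'e, hf'sub, hf'disj⟩ := ih (fun i => r i.succ) (fun i => hr i.succ) R'' hR''S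
    obtain ⟨g₁, g₂, hg₁, hg₂, hg₁sub, hg₂sub, hdisj⟩ := two_ball m (r 0) R'' R (hr 0) hR''0 hR''R
    have hf'cap : ∀ i, f' i '' capBall (m + 1) (r i.succ) ⊆ capBall (m + 1) R'' := fun i =>
      (hf'sub i).trans (openCapBall_subset_capBall _ _)
    have himg : ∀ i : Fin k, (g₂ ∘ f' i) '' capBall (m + 1) (r i.succ) ⊆
        g₂ '' capBall (m + 1) R'' := by
      intro i
      rw [Set.image_comp]
      exact Set.image_mono (hf'cap i)
    obtain ⟨W, hW, hBW, hgs, hgi, hgω⟩ := id hg₂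
    refine ⟨Fin.cons g₁ (fun i => g₂ ∘ f' i), ?_, ?_, ?_⟩
    · intro i
      refine Fin.cases ?_ (fun j => ?_) i
      · simpa using hg₁
      · simpa using (hf'e j).comp hg₂ (hf'cap j)
    · intro i
      refine Fin.cases ?_ (fun j => ?_) i
      · simpa using hg₁sub
      · simpa using (himg j).trans hg₂sub
    · intro i j
      refine Fin.cases ?_ (fun i' => ?_) i <;> refine Fin.cases ?_ (fun j' => ?_) j <;> intro hij
      · exact absurd rfl hij
      · simp only [Fin.cons_zero, Fin.cons_succ]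
        exact Set.disjoint_of_subset_right (himg j') hdisj
      · simp only [Fin.cons_zero, Fin.cons_succ]
        exact (Set.disjoint_of_subset_right (himg i') hdisj).symm
      · simp only [Fin.cons_succ]
        have hne : i' ≠ j' := fun h => hij (by rw [h])
        rw [Set.disjoint_left]
        rintro y ⟨x, hx, rfl⟩ ⟨x', hx', heq⟩
        have hxW : f' i' x ∈ W := hBW (hf'cap i' ⟨x, hx, rfl⟩)
        have hxW' : f' j' x' ∈ W := hBW (hf'cap j' ⟨x', hx', rfl⟩)
        have heq' : f' j' x' = f' i' x := hgi hxW' hxW heq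
        exact Set.disjoint_left.1 (hf'disj i' j' hne) ⟨x, hx, rfl⟩ ⟨x', hx', heq'⟩

end Vale.Agent.Lib.P209
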