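import Vale.Agent.Lib.P209.SqueezeMap
import Vale.Agent.Lib.P209.Pack

open Complex ComplexConjugate Filter Topology

namespace Vale.Agent.Lib.P209

section General

variable {V : Type*} [NormedAddCommGroup V] [InnerProductSpace ℂ V]

/-- The corner map: the squeeze map followed by the chart map centred at infinity. -/
noncomputable def CM (c M ε : ℝ) (e : V) : V → V := GG 0 1 c e ∘ SQ M ε e

theorem SQ_mem_chartDom (c M ε : ℝ) (hε : 0 < ε) (hc : Real.pi⁻¹ * ε + M < c) (e : V)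
    (he : ‖e‖ = 1) (w : V) (hw : ‖w‖ ^ 2 < M) : SQ M ε e w ∈ chartDom 0 1 c e := by
  rw [mem_chartDom_zero_one]
  exact ⟨lt_of_le_of_lt (norm_sq_SQ_le M ε hε e he w hw) hc, inner_e_SQ_ne_zero M ε hε e he w hw⟩

theorem CM_contDiffOn (c M ε : ℝ) (hε : 0 < ε) (hc : Real.pi⁻¹ * ε + M < c) (e : V)
    (he : ‖e‖ = 1) (n : WithTop ℕ∞) :
    ContDiffOn ℝ n (CM c M ε e) {w : V | ‖w‖ ^ 2 < M} :=
  (GG_contDiffOn_gen 0 1 c e n).comp
    (fun w hw => (SQ_contDiffAt M ε hε e he w hw n).contDiffWithinAt)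
    (fun w hw => SQ_mem_chartDom c M ε hε hc e he w hw)

theorem CM_injOn (c M ε : ℝ) (hε : 0 < ε) (hc : Real.pi⁻¹ * ε + M < c) (e : V)
    (he : ‖e‖ = 1) : Set.InjOn (CM c M ε e) {w : V | ‖w‖ ^ 2 < M} :=
  (GG_injOn_gen 0 1 c e he (by norm_num)).comp (SQ_injOn M ε hε e he)
    (fun w hw => SQ_mem_chartDom c M ε hε hc e he w hw)

theorem CM_symplectic (c M ε : ℝ) (hε : 0 < ε) (hc : Real.pi⁻¹ * ε + M < c) (e : V)
    (he : ‖e‖ = 1) (w : V) (hw : ‖w‖ ^ 2 < M) (u v : V) :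
    (inner ℂ (fderiv ℝ (CM c M ε e) w u) (fderiv ℝ (CM c M ε e) w v)).im =
      (inner ℂ u v).im := by
  have hmem := SQ_mem_chartDom c M ε hε hc e he w hw
  have hfd : DifferentiableAt ℝ (SQ M ε e) w :=
    (SQ_contDiffAt M ε hε e he w hw 1).differentiableAt one_ne_zero
  have hgd : DifferentiableAt ℝ (GG 0 1 c e) (SQ M ε e w) :=
    (GG_contDiffAt 0 1 c e _ hmem.1 hmem.2 1).differentiableAt one_ne_zero
  unfold CM
  rw [fderiv_comp w hgd hfd]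
  simp only [ContinuousLinearMap.comp_apply]
  rw [GG_symplectic_gen 0 1 c e he (by norm_num) (chartDom 0 1 c e) (isOpen_chartDom 0 1 c e)
    (fun w hw => hw) _ hmem, SQ_symplectic M ε hε e he w hw]

theorem norm_sq_CM_lt (c M ε : ℝ) (hε : 0 < ε) (hc : Real.pi⁻¹ * ε + M < c) (e : V)
    (he : ‖e‖ = 1) (w : V) (hw : ‖w‖ ^ 2 < M) : ‖CM c M ε e w‖ ^ 2 < c := by
  have hmem := (mem_chartDom_zero_one c e _).1 (SQ_mem_chartDom c M ε hε hc e he w hw)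
  have h1 : ‖CM c M ε e w‖ ^ 2 = c - ‖inner ℂ e (SQ M ε e w)‖ ^ 2 :=
    norm_sq_GG_zero_one c e he _ hmem.1 hmem.2
  have h2 : 0 < ‖inner ℂ e (SQ M ε e w)‖ ^ 2 := pow_pos (norm_pos_iff.2 hmem.2) 2
  linarith

theorem norm_sq_inner_CM_ge (c M ε : ℝ) (hε : 0 < ε) (hc : Real.pi⁻¹ * ε + M < c) (e : V)
    (he : ‖e‖ = 1) (w : V) (hw : ‖w‖ ^ 2 < M) :
    c - (Real.pi⁻¹ * ε + M) ≤ ‖inner ℂ e (CM c M ε e w)‖ ^ 2 := by
  have hmem := (mem_chartDom_zero_one c e _).1 (SQ_mem_chartDom c M ε hε hc e he w hw)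
  have h1 : ‖inner ℂ e (CM c M ε e w)‖ ^ 2 = c - ‖SQ M ε e w‖ ^ 2 :=
    norm_sq_inner_GG_zero_one c e he _ hmem.1 hmem.2
  have h2 := norm_sq_SQ_le M ε hε e he w hw
  linarith

theorem exists_pos_le_of_finite {ι : Type*} [Finite ι] (p : ι → ℝ) (hp : ∀ i, 0 < p i) :
    ∃ δ : ℝ, 0 < δ ∧ ∀ i, δ ≤ p i := by
  rcases isEmpty_or_nonempty ι with h | h
  · exact ⟨1, one_pos, fun i => isEmptyElim i⟩
  · obtain ⟨i₀, hi₀⟩ := Finite.exists_min p
    exact ⟨p i₀, hp i₀, hi₀⟩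

end General

theorem id_isSympBallEmb (n : ℕ) (r : ℝ) : IsSympBallEmb n r id := by
  refine ⟨Set.univ, isOpen_univ, Set.subset_univ _, contDiff_id.contDiffOn,
    Function.injective_id.injOn, ?_⟩
  intro x _ u v
  rw [fderiv_id]
  rfl

theorem CM_isSympBallEmb (n : ℕ) (c M ε : ℝ) (hε : 0 < ε) (hc : Real.pi⁻¹ * ε + M < c)
    (e : EuclideanSpace ℂ (Fin n)) (he : ‖e‖ = 1) (r : ℝ) (hr : r < Real.pi * M) :
    IsSympBallEmb n r (CM c M ε e) := by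
  refine ⟨{w | ‖w‖ ^ 2 < M}, isOpen_lt (continuous_norm.pow 2) continuous_const, ?_,
    CM_contDiffOn c M ε hε hc e he _, CM_injOn c M ε hε hc e he, ?_⟩
  · intro z hz
    rw [mem_capBall] at hz
    have hpi := Real.pi_pos
    simp only [Set.mem_setOf_eq]
    by_contra hcon
    push Not at hcon
    nlinarith
  · intro x hx u v
    rw [omega0_eq, omega0_eq]
    exact CM_symplectic c M ε hε hc e he x hx u v

theorem norm_sq_coord_le (n : ℕ) (y : EuclideanSpace ℂ (Fin n)) (a : Fin n) :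
    ‖y a‖ ^ 2 ≤ ‖y‖ ^ 2 := by
  rw [← sum_norm_sq]
  exact Finset.single_le_sum (f := fun j => ‖y j‖ ^ 2) (fun j _ => sq_nonneg _)
    (Finset.mem_univ a)

theorem norm_sq_coord_add_le (n : ℕ) (y : EuclideanSpace ℂ (Fin n)) (a b : Fin n)
    (hab : a ≠ b) : ‖y a‖ ^ 2 + ‖y b‖ ^ 2 ≤ ‖y‖ ^ 2 := by
  rw [← sum_norm_sq, ← Finset.sum_pair (f := fun j => ‖y j‖ ^ 2) hab]
  exact Finset.sum_le_sum_of_subset_of_nonneg (Finset.subset_univ _) (fun j _ _ => sq_nonneg _)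

theorem inner_single_one (n : ℕ) (a : Fin n) (y : EuclideanSpace ℂ (Fin n)) :
    inner ℂ (EuclideanSpace.single a (1 : ℂ)) y = y a := by
  rw [EuclideanSpace.inner_single_left]
  simp

theorem norm_single_one (n : ℕ) (a : Fin n) :
    ‖(EuclideanSpace.single a (1 : ℂ) : EuclideanSpace ℂ (Fin n))‖ = 1 := by
  rw [EuclideanSpace.norm_single]
  simp

end Vale.Agent.Lib.P209
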