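import Vale.Agent.Lib.P209.Corner

open Complex ComplexConjugate Filter Topology

namespace Vale.Agent.Lib.P209

/-- A uniform gap: if every `r i < R` and every pairwise sum `r i + r j < R`, there is a single
`δ > 0` with `r i + δ ≤ R` and `r i + r j + δ ≤ R`. -/
theorem exists_gap (k : ℕ) (r : Fin k → ℝ) (R : ℝ) (hrR : ∀ i, r i < R)
    (hpair : ∀ i j, i ≠ j → r i + r j < R) :
    ∃ δ : ℝ, 0 < δ ∧ (∀ i, r i + δ ≤ R) ∧ ∀ i j, i ≠ j → r i + r j + δ ≤ R := by
  obtain ⟨δ, hδ, h⟩ := exists_pos_le_of_finite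
    (fun p : Fin k × Fin k => if p.1 = p.2 then R - r p.1 else R - r p.1 - r p.2) (by
      intro p
      by_cases hp : p.1 = p.2
      · simp only [hp, if_true]
        linarith [hrR p.2]
      · simp only [hp, if_false]
        linarith [hpair p.1 p.2 hp])
  refine ⟨δ, hδ, ?_, ?_⟩
  · intro i
    have := h (i, i)
    simp only [if_true] at this
    linarith
  · intro i j hij
    have := h (i, j)
    simp only [hij, if_false] at this
    linarith

/-- Corner packing: in complex dimension `m + 1`, at most `m + 2` closed balls whose capacities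
are pairwise of sum less than `R` (and each less than `R`) pack the open ball of capacity `R`. -/
theorem corner_packing (m k : ℕ) (hk : k ≤ m + 2) (r : Fin k → ℝ) (R : ℝ)
    (hr : ∀ i, 0 < r i) (hrR : ∀ i, r i < R) (hpair : ∀ i j, i ≠ j → r i + r j < R) :
    BallPacking (m + 1) k r R := by
  obtain ⟨δ, hδ, hg1, hg2⟩ := exists_gap k r R hrR hpair
  have hpi := Real.pi_pos
  set c : ℝ := Real.pi⁻¹ * R with hcdef
  set ε : ℝ := δ / 4 with hεdef
  have hε : 0 < ε := by rw [hεdef]; linarith
  set M : Fin k → ℝ := fun i => Real.pi⁻¹ * (r i + δ / 4) with hMdef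
  have hMc : ∀ i, Real.pi⁻¹ * ε + M i < c := by
    intro i
    have h1 : Real.pi⁻¹ * ε + M i = Real.pi⁻¹ * (r i + δ / 2) := by
      rw [hMdef, hεdef]
      ring
    rw [h1, hcdef]
    exact mul_lt_mul_of_pos_left (by linarith [hg1 i]) (inv_pos.2 hpi)
  have hrM : ∀ i, r i < Real.pi * M i := by
    intro i
    have h1 : Real.pi * M i = r i + δ / 4 := by
      rw [hMdef]
      field_simp
    rw [h1]
    linarith
  have hcR : Real.pi * c = R := by
    rw [hcdef]
    field_simp
  set jj : Fin k → Fin (m + 1) := fun i => ⟨i.val - 1, by have := i.isLt; omega⟩ with hjjdef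
  set ee : Fin k → EuclideanSpace ℂ (Fin (m + 1)) :=
    fun i => EuclideanSpace.single (jj i) (1 : ℂ) with heedef
  have hee : ∀ i, ‖ee i‖ = 1 := fun i => norm_single_one (m + 1) (jj i)
  set f : Fin k → EuclideanSpace ℂ (Fin (m + 1)) → EuclideanSpace ℂ (Fin (m + 1)) :=
    fun i => if i.val = 0 then id else CM c (M i) ε (ee i) with hfdef
  have hf0 : ∀ i : Fin k, i.val = 0 → f i = id := by
    intro i hi
    simp only [hfdef, hi, if_true]
  have hf1 : ∀ i : Fin k, i.val ≠ 0 → f i = CM c (M i) ε (ee i) := by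
    intro i hi
    simp only [hfdef, hi, if_false]
  -- membership in the domain of the corner map
  have hdom : ∀ i, ∀ w ∈ capBall (m + 1) (r i), ‖w‖ ^ 2 < M i := by
    intro i w hw
    rw [mem_capBall] at hw
    have h1 := hrM i
    by_contra hcon
    push Not at hcon
    nlinarith
  -- the key estimate for corner images
  have hcorner : ∀ i : Fin k, i.val ≠ 0 → ∀ w ∈ capBall (m + 1) (r i),
      ‖f i w‖ ^ 2 < c ∧ c - Real.pi⁻¹ * (r i + δ / 2) ≤ ‖(f i w) (jj i)‖ ^ 2 := by
    intro i hi w hw
    rw [hf1 i hi]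
    refine ⟨norm_sq_CM_lt c (M i) ε hε (hMc i) (ee i) (hee i) w (hdom i w hw), ?_⟩
    have h1 := norm_sq_inner_CM_ge c (M i) ε hε (hMc i) (ee i) (hee i) w (hdom i w hw)
    rw [inner_single_one] at h1
    have h2 : Real.pi⁻¹ * ε + M i = Real.pi⁻¹ * (r i + δ / 2) := by
      rw [hMdef, hεdef]
      ring
    rw [h2] at h1
    exact h1
  have hcentre : ∀ i : Fin k, i.val = 0 → ∀ w ∈ capBall (m + 1) (r i),
      ‖f i w‖ ^ 2 ≤ Real.pi⁻¹ * r i := by
    intro i hi w hw
    rw [hf0 i hi]
    rw [mem_capBall] at hw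
    rw [id, inv_mul_eq_div, le_div_iff₀ hpi]
    linarith
  -- centre versus corner
  have hcc : ∀ i j : Fin k, i.val = 0 → j.val ≠ 0 →
      Disjoint (f i '' capBall (m + 1) (r i)) (f j '' capBall (m + 1) (r j)) := by
    intro i j hi hj
    rw [Set.disjoint_left]
    rintro y ⟨w, hw, rfl⟩ ⟨w', hw', heq⟩
    have h1 := hcentre i hi w hw
    have h2 := (hcorner j hj w' hw').2
    rw [heq] at h2
    have h3 := norm_sq_coord_le (m + 1) (f i w) (jj j)
    have hij : i ≠ j := by
      intro h
      rw [h] at hi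
      exact hj hi
    have h4 := hg2 i j hij
    have h5 : c - Real.pi⁻¹ * (r j + δ / 2) ≤ Real.pi⁻¹ * r i := by linarith
    have h6 : Real.pi⁻¹ * (R - (r j + δ / 2)) ≤ Real.pi⁻¹ * r i := by
      rw [hcdef] at h5
      linarith
    have h7 := le_of_mul_le_mul_left h6 (inv_pos.2 hpi)
    linarith
  refine ⟨f, ?_, ?_, ?_⟩
  · intro i
    by_cases hi : i.val = 0
    · rw [hf0 i hi]
      exact id_isSympBallEmb (m + 1) (r i)
    · rw [hf1 i hi]
      exact CM_isSympBallEmb (m + 1) c (M i) ε hε (hMc i) (ee i) (hee i) (r i) (hrM i)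
  · intro i
    rintro y ⟨w, hw, rfl⟩
    rw [mem_openCapBall]
    by_cases hi : i.val = 0
    · have h1 := hcentre i hi w hw
      have h2 : Real.pi * ‖f i w‖ ^ 2 ≤ Real.pi * (Real.pi⁻¹ * r i) :=
        mul_le_mul_of_nonneg_left h1 hpi.le
      have h3 : Real.pi * (Real.pi⁻¹ * r i) = r i := by field_simp
      linarith [hrR i]
    · have h1 := (hcorner i hi w hw).1
      have h2 : Real.pi * ‖f i w‖ ^ 2 < Real.pi * c := mul_lt_mul_of_pos_left h1 hpi
      linarith
  · intro i j hij
    by_cases hi : i.val = 0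
    · by_cases hj : j.val = 0
      · exact absurd (Fin.ext (hi.trans hj.symm)) hij
      · exact hcc i j hi hj
    · by_cases hj : j.val = 0
      · exact (hcc j i hj hi).symm
      · rw [Set.disjoint_left]
        rintro y ⟨w, hw, rfl⟩ ⟨w', hw', heq⟩
        have h1 := hcorner i hi w hw
        have h2 := (hcorner j hj w' hw').2
        rw [heq] at h2
        have hjj : jj i ≠ jj j := by
          intro h
          have h' := congrArg Fin.val h
          simp only [hjjdef] at h'
          apply hij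
          apply Fin.ext
          omega
        have h3 := norm_sq_coord_add_le (m + 1) (f i w) (jj i) (jj j) hjj
        have h4 := hg2 i j hij
        have h5 : c < Real.pi⁻¹ * (r i + δ / 2) + Real.pi⁻¹ * (r j + δ / 2) := by linarith [h1.1, h1.2]
        have h6 : Real.pi⁻¹ * R < Real.pi⁻¹ * (r i + r j + δ) := by
          rw [hcdef] at h5
          linarith
        have h7 := lt_of_mul_lt_mul_left h6 (inv_pos.2 hpi).le
        linarith

end Vale.Agent.Lib.P209
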