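import Mathlib

namespace Vale.Agent.Lib.P209

/-- The standard symplectic form on `ℂ^n`, `ω₀ = ∑ dx_j ∧ dy_j`, evaluated on two vectors:
`ω₀(u, v) = ∑ (Re u_j · Im v_j - Im u_j · Re v_j)`. -/
def omega0 (n : ℕ) (u v : EuclideanSpace ℂ (Fin n)) : ℝ :=
  ∑ j, ((u j).re * (v j).im - (u j).im * (v j).re)

/-- The closed ball of capacity `r` in `ℂ^n`: `{z : π ∑ |z_j|² ≤ r}`. -/
def capBall (n : ℕ) (r : ℝ) : Set (EuclideanSpace ℂ (Fin n)) :=
  {z | Real.pi * ∑ j, ‖z j‖ ^ 2 ≤ r}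

/-- The open ball of capacity `r` in `ℂ^n`: `{z : π ∑ |z_j|² < r}`. -/
def openCapBall (n : ℕ) (r : ℝ) : Set (EuclideanSpace ℂ (Fin n)) :=
  {z | Real.pi * ∑ j, ‖z j‖ ^ 2 < r}

/-- `f` is a symplectic embedding of the closed ball of capacity `r`: on some open
neighbourhood `U` of the closed ball, `f` is smooth (infinitely differentiable over `ℝ`),
injective, and its derivative at every point of `U` pulls `ω₀` back to `ω₀`. -/
def IsSympBallEmb (n : ℕ) (r : ℝ) (f : EuclideanSpace ℂ (Fin n) → EuclideanSpace ℂ (Fin n)) :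
    Prop :=
  ∃ U : Set (EuclideanSpace ℂ (Fin n)), IsOpen U ∧ capBall n r ⊆ U ∧
    ContDiffOn ℝ ((⊤ : ℕ∞) : WithTop ℕ∞) f U ∧ Set.InjOn f U ∧
    ∀ x ∈ U, ∀ u v : EuclideanSpace ℂ (Fin n),
      omega0 n (fderiv ℝ f x u) (fderiv ℝ f x v) = omega0 n u v

/-- A symplectic embedding of the disjoint union of the closed balls of capacities
`r 0, …, r (k-1)` into the open ball of capacity `R` in `ℂ^n`: symplectic embeddings of the
individual closed balls whose images are pairwise disjoint and lie in the open ball. -/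
def BallPacking (n k : ℕ) (r : Fin k → ℝ) (R : ℝ) : Prop :=
  ∃ f : Fin k → EuclideanSpace ℂ (Fin n) → EuclideanSpace ℂ (Fin n),
    (∀ i, IsSympBallEmb n (r i) (f i)) ∧
    (∀ i, f i '' capBall n (r i) ⊆ openCapBall n R) ∧
    (∀ i j, i ≠ j → Disjoint (f i '' capBall n (r i)) (f j '' capBall n (r j)))

end Vale.Agent.Lib.P209
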