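import Vale.Agent.Lib.P209.Cell

open Complex ComplexConjugate Filter Topology

namespace Vale.Agent.Lib.P209

theorem cell_coord (n : ℕ) (κ : Fin n → ℝ) (s : ℝ) (σ : Equiv.Perm (Fin n)) (x : Fin n → ℝ)
    (hx : x ∈ Cell n κ s σ) (j : Fin n) : κ j < x j ∧ x j < κ j + s := by
  obtain ⟨h1, _, h3⟩ := hx
  have h1' := h1 (σ.symm j)
  have h3' := h3 (σ.symm j)
  simp only [Equiv.apply_symm_apply] at h1' h3'
  exact ⟨by linarith, by linarith⟩

theorem cell_disjoint_of_sep (n : ℕ) (κ κ' : Fin n → ℝ) (s s' : ℝ) (σ σ' : Equiv.Perm (Fin n))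
    (j : Fin n) (h : κ j + s ≤ κ' j) : Disjoint (Cell n κ s σ) (Cell n κ' s' σ') := by
  rw [Set.disjoint_left]
  intro x hx hx'
  have h1 := (cell_coord n κ s σ x hx j).2
  have h2 := (cell_coord n κ' s' σ' x hx' j).1
  linarith

theorem cell_disjoint_of_perm (n : ℕ) (κ : Fin n → ℝ) (s s' : ℝ) (σ σ' : Equiv.Perm (Fin n))
    (h : σ ≠ σ') : Disjoint (Cell n κ s σ) (Cell n κ s' σ') := by
  rw [Set.disjoint_left]
  intro x hx hx'
  apply h
  obtain ⟨_, h2, _⟩ := hx
  obtain ⟨_, h2', _⟩ := hx'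
  have hτ : StrictMono (fun i => σ'.symm (σ i)) := by
    intro i j hij
    by_contra hcon
    rw [not_lt] at hcon
    rcases hcon.lt_or_eq with hlt | heq
    · have h3 := h2' _ _ hlt
      simp only [Equiv.apply_symm_apply] at h3
      have h4 := h2 i j hij
      simp only at h4
      linarith
    · have h5 : σ j = σ i := by
        have := congrArg σ' heq
        simpa using this
      have h6 := σ.injective h5
      rw [h6] at hij
      exact lt_irrefl _ hij
  ext i : 1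
  have h7 : σ'.symm (σ i) = i := le_antisymm hτ.apply_le hτ.le_apply
  rw [Equiv.symm_apply_eq] at h7
  exact h7

/-- Grid packing: cells with corner `H (a + b / t)` and size `H / t`, indexed by a cube index `a`,
a subdivision number `t`, a position `b` in the subdivided cube and a coordinate order `σ`. -/
theorem grid_packing (n : ℕ) (hn : 0 < n) {ι : Type} (a : ι → Fin n → ℕ) (t : ι → ℕ)
    (b : ι → Fin n → ℕ) (σ : ι → Equiv.Perm (Fin n)) (N : ℕ) (H R : ℝ) (r : ι → ℝ)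
    (hH : 0 < H) (hNH : Real.pi * (N * H) ≤ R)
    (ht : ∀ i, 1 ≤ t i) (hb : ∀ i j, b i j < t i)
    (ha : ∀ i, ∑ j, (a i j + 1) ≤ N)
    (hsep : ∀ i i', i ≠ i' → a i = a i' → t i = t i' ∧ (b i = b i' → σ i ≠ σ i'))
    (hr : ∀ i, r i < Real.pi * (H / t i)) :
    BallPackingOn n ι r R := by
  have htpos : ∀ i, (0 : ℝ) < (t i : ℝ) := fun i => by exact_mod_cast ht i
  have hfrac : ∀ i j, ((b i j : ℝ) + 1) / (t i : ℝ) ≤ 1 := by
    intro i j
    rw [div_le_one (htpos i)]
    exact_mod_cast hb i j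
  have hcorner : ∀ i j, ((a i j : ℝ) + (b i j : ℝ) / (t i : ℝ)) * H + H / (t i : ℝ) ≤
      ((a i j : ℝ) + 1) * H := by
    intro i j
    have h1 : ((a i j : ℝ) + (b i j : ℝ) / (t i : ℝ)) * H + H / (t i : ℝ) =
        ((a i j : ℝ) + ((b i j : ℝ) + 1) / (t i : ℝ)) * H := by
      ring
    rw [h1]
    have h2 := hfrac i j
    nlinarith
  have hbnn : ∀ i j, (0 : ℝ) ≤ (b i j : ℝ) / (t i : ℝ) := fun i j =>
    div_nonneg (Nat.cast_nonneg _) (htpos i).le
  refine packing_of_cells n (fun i j => ((a i j : ℝ) + (b i j : ℝ) / (t i : ℝ)) * H)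
    (fun i => H / (t i : ℝ)) σ r R ?_ hr ?_ ?_
  · intro i j
    have h1 : (0 : ℝ) ≤ (a i j : ℝ) := Nat.cast_nonneg _
    have h2 := hbnn i j
    positivity
  · intro i x hx
    have h1 : ∀ j, x j < ((a i j : ℝ) + 1) * H := by
      intro j
      have h2 := (cell_coord n _ _ _ x hx j).2
      have h3 := hcorner i j
      linarith
    have h4 : ∑ j, x j < ∑ j, ((a i j : ℝ) + 1) * H :=
      Finset.sum_lt_sum_of_nonempty (Finset.univ_nonempty_iff.2 ⟨⟨0, hn⟩⟩) fun j _ => h1 j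
    have h5 : ∑ j, ((a i j : ℝ) + 1) * H ≤ N * H := by
      rw [← Finset.sum_mul]
      have h6 : ∑ j, ((a i j : ℝ) + 1) ≤ (N : ℝ) := by
        exact_mod_cast ha i
      exact mul_le_mul_of_nonneg_right h6 hH.le
    have hpi := Real.pi_pos
    have h7 : Real.pi * ∑ j, x j < Real.pi * (N * H) :=
      mul_lt_mul_of_pos_left (lt_of_lt_of_le h4 h5) hpi
    linarith
  · intro i i' hii'
    by_cases haa : a i = a i'
    · obtain ⟨htt, hbσ⟩ := hsep i i' hii' haa
      by_cases hbb : b i = b i'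
      · have hσ := hbσ hbb
        have hκ : (fun j => ((a i j : ℝ) + (b i j : ℝ) / (t i : ℝ)) * H) =
            (fun j => ((a i' j : ℝ) + (b i' j : ℝ) / (t i' : ℝ)) * H) := by
          rw [haa, hbb, htt]
        show Disjoint (Cell n (fun j => ((a i j : ℝ) + (b i j : ℝ) / (t i : ℝ)) * H) _ _)
          (Cell n (fun j => ((a i' j : ℝ) + (b i' j : ℝ) / (t i' : ℝ)) * H) _ _)
        rw [← hκ]
        exact cell_disjoint_of_perm n _ _ _ _ _ hσ
      · have hex : ∃ j, b i j ≠ b i' j := by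
          by_contra hcon
          push Not at hcon
          exact hbb (funext hcon)
        obtain ⟨j, hj⟩ := hex
        have key : ∀ i₁ i₂ : ι, a i₁ = a i₂ → t i₁ = t i₂ → b i₁ j < b i₂ j →
            ((a i₁ j : ℝ) + (b i₁ j : ℝ) / (t i₁ : ℝ)) * H + H / (t i₁ : ℝ) ≤
              ((a i₂ j : ℝ) + (b i₂ j : ℝ) / (t i₂ : ℝ)) * H := by
          intro i₁ i₂ h1 h2 h3
          have h4 : ((a i₁ j : ℝ) + (b i₁ j : ℝ) / (t i₁ : ℝ)) * H + H / (t i₁ : ℝ) =
              ((a i₁ j : ℝ) + ((b i₁ j : ℝ) + 1) / (t i₁ : ℝ)) * H := by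
            ring
          rw [h4, h1, h2]
          have h5 : ((b i₁ j : ℝ) + 1) / (t i₂ : ℝ) ≤ (b i₂ j : ℝ) / (t i₂ : ℝ) := by
            apply div_le_div_of_nonneg_right _ (htpos i₂).le
            exact_mod_cast h3
          nlinarith
        rcases lt_or_gt_of_ne hj with hlt | hgt
        · exact cell_disjoint_of_sep n _ _ _ _ _ _ j (key i i' haa htt hlt)
        · exact (cell_disjoint_of_sep n _ _ _ _ _ _ j (key i' i haa.symm htt.symm hgt)).symm
    · have hex : ∃ j, a i j ≠ a i' j := by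
        by_contra hcon
        push Not at hcon
        exact haa (funext hcon)
      obtain ⟨j, hj⟩ := hex
      have key : ∀ i₁ i₂ : ι, a i₁ j < a i₂ j →
          ((a i₁ j : ℝ) + (b i₁ j : ℝ) / (t i₁ : ℝ)) * H + H / (t i₁ : ℝ) ≤
            ((a i₂ j : ℝ) + (b i₂ j : ℝ) / (t i₂ : ℝ)) * H := by
        intro i₁ i₂ h3
        have h4 := hcorner i₁ j
        have h5 : ((a i₁ j : ℝ) + 1) ≤ (a i₂ j : ℝ) := by exact_mod_cast h3
        have h6 := hbnn i₂ j
        nlinarith
      rcases lt_or_gt_of_ne hj with hlt | hgt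
      · exact cell_disjoint_of_sep n _ _ _ _ _ _ j (key i i' hlt)
      · exact (cell_disjoint_of_sep n _ _ _ _ _ _ j (key i' i hgt)).symm

end Vale.Agent.Lib.P209
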