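import Vale.Agent.Lib.P209.NestPack

/-!
P209: from a packing theorem with one large ball and many small balls to a packing theorem
with up to `2 ^ n` large balls of capacity below `R / 2` and many small balls.

Each large ball is put at the centre of its own half-size cell, the small balls are distributed
greedily over the `2 ^ n` cells, every cell is packed by the one-large-ball theorem, and the
cells are packed by the pairwise theorem for `2 ^ n` balls.
-/

open Complex ComplexConjugate Filter Topology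

namespace Vale.Agent.Lib.P209

/-- Transport of a packing along a bijection of the index types. -/
theorem BallPackingOn.comp_equiv {n : ℕ} {ι κ : Type} (e : ι ≃ κ) (ρ : κ → ℝ) (R : ℝ)
    (h : BallPackingOn n κ ρ R) : BallPackingOn n ι (fun i => ρ (e i)) R := by
  obtain ⟨f, hf, hsub, hdisj⟩ := h
  exact ⟨fun i => f (e i), fun i => hf (e i), fun i => hsub (e i),
    fun i j hij => hdisj (e i) (e j) (fun hcon => hij (e.injective hcon))⟩

/-- The packing statement with at most `b` large balls: for every `ε > 0` there is `δ > 0`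
such that balls of which all but at most `b` have capacity at most `δ R`, the large ones
having capacities below `R` and pairwise sums below `R`, pack the ball of capacity `R` as soon
as the total volume is at most `1 - ε` times that of the ball. -/
def BigSmallHyp (n b : ℕ) : Prop :=
  ∀ ε : ℝ, 0 < ε → ∃ δ : ℝ, 0 < δ ∧ ∀ (k : ℕ) (r : Fin k → ℝ) (R : ℝ) (B : Finset (Fin k)),
    0 < R → (∀ i, 0 < r i) → B.card ≤ b → (∀ i ∈ B, r i < R) →
    (∀ i ∈ B, ∀ j ∈ B, i ≠ j → r i + r j < R) → (∀ i, i ∉ B → r i ≤ δ * R) →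
    ∑ i, r i ^ n ≤ (1 - ε) * R ^ n → BallPacking n k r R

/-- The statement `BigSmallHyp` for an arbitrary finite index type. -/
theorem bigSmall_on {n b : ℕ} (H : BigSmallHyp n b) (ε : ℝ) (hε : 0 < ε) :
    ∃ δ : ℝ, 0 < δ ∧ ∀ (ι : Type) [Fintype ι] (r : ι → ℝ) (R : ℝ) (B : Finset ι),
      0 < R → (∀ i, 0 < r i) → B.card ≤ b → (∀ i ∈ B, r i < R) →
      (∀ i ∈ B, ∀ j ∈ B, i ≠ j → r i + r j < R) → (∀ i, i ∉ B → r i ≤ δ * R) →
      ∑ i, r i ^ n ≤ (1 - ε) * R ^ n → BallPackingOn n ι r R := by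
  obtain ⟨δ, hδ, h⟩ := H ε hε
  refine ⟨δ, hδ, ?_⟩
  intro ι _ r R B hR hr hB hBR hpair hsmall hvol
  classical
  have key : BallPacking n (Fintype.card ι) (fun j => r ((Fintype.equivFin ι).symm j)) R := by
    refine h (Fintype.card ι) (fun j => r ((Fintype.equivFin ι).symm j)) R
      (B.map (Fintype.equivFin ι).toEmbedding) hR (fun j => hr _) ?_ ?_ ?_ ?_ ?_
    · rw [Finset.card_map]
      exact hB
    · intro j hj
      obtain ⟨i, hi, rfl⟩ := Finset.mem_map.mp hj
      simpa using hBR i hi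
    · intro j hj j' hj' hjj'
      obtain ⟨i, hi, rfl⟩ := Finset.mem_map.mp hj
      obtain ⟨i', hi', rfl⟩ := Finset.mem_map.mp hj'
      have hii' : i ≠ i' := fun hcon => hjj' (by rw [hcon])
      simpa using hpair i hi i' hi' hii'
    · intro j hj
      apply hsmall
      intro hcon
      apply hj
      exact Finset.mem_map.mpr ⟨(Fintype.equivFin ι).symm j, hcon, by simp⟩
    · rw [Equiv.sum_comp (Fintype.equivFin ι).symm (fun i => r i ^ n)]
      exact hvol
  have h2 := BallPackingOn.comp_equiv (Fintype.equivFin ι)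
    (fun j => r ((Fintype.equivFin ι).symm j)) R key
  simpa using h2

/-- Greedy distribution of items of size at most `vmax` into bins: if the total size plus
`vmax` per bin is at most the total budget, every bin budget can be respected. -/
theorem distribute {S G : Type} [Fintype S] [Fintype G] [Nonempty G] [DecidableEq S]
    [DecidableEq G] (v : S → ℝ) (β : G → ℝ) (vmax : ℝ) (hv0 : ∀ i, 0 ≤ v i)
    (hv : ∀ i, v i ≤ vmax) (hβ : ∀ g, 0 ≤ β g)
    (hsum : ∑ i, v i + (Fintype.card G : ℝ) * vmax ≤ ∑ g, β g) :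
    ∃ ψ : S → G, ∀ g, ∑ i, (if ψ i = g then v i else 0) ≤ β g := by
  have main : ∀ A : Finset S, ∃ ψ : S → G,
      ∀ g, ∑ i ∈ A, (if ψ i = g then v i else 0) ≤ β g := by
    intro A
    induction A using Finset.induction_on with
    | empty =>
      refine ⟨fun _ => Classical.arbitrary G, fun g => ?_⟩
      rw [Finset.sum_empty]
      exact hβ g
    | insert a A ha ih =>
      obtain ⟨ψ, hψ⟩ := ih
      have hℓsum : ∑ g, ∑ i ∈ A, (if ψ i = g then v i else 0) = ∑ i ∈ A, v i := by
        rw [Finset.sum_comm]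
        apply Finset.sum_congr rfl
        intro i _
        rw [Finset.sum_ite_eq]
        simp
      have hAle : ∑ i ∈ A, v i + v a ≤ ∑ i, v i := by
        have h1 : ∑ i ∈ insert a A, v i ≤ ∑ i, v i :=
          Finset.sum_le_sum_of_subset_of_nonneg (Finset.subset_univ _) (fun i _ _ => hv0 i)
        rw [Finset.sum_insert ha] at h1
        linarith
      have hex : ∃ g, ∑ i ∈ A, (if ψ i = g then v i else 0) + v a ≤ β g := by
        by_contra hcon
        push Not at hcon
        have h1 : ∑ g, β g < ∑ g, (∑ i ∈ A, (if ψ i = g then v i else 0) + vmax) := by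
          apply Finset.sum_lt_sum_of_nonempty Finset.univ_nonempty
          intro g _
          have h2 := hcon g
          have h3 := hv a
          linarith
        rw [Finset.sum_add_distrib, hℓsum, Finset.sum_const, Finset.card_univ,
          nsmul_eq_mul] at h1
        have h4 := hv0 a
        linarith
      obtain ⟨g0, hg0⟩ := hex
      refine ⟨Function.update ψ a g0, fun g => ?_⟩
      rw [Finset.sum_insert ha, Function.update_self]
      have hrest : ∑ i ∈ A, (if Function.update ψ a g0 i = g then v i else 0) =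
          ∑ i ∈ A, (if ψ i = g then v i else 0) := by
        apply Finset.sum_congr rfl
        intro i hi
        have hia : i ≠ a := fun h => ha (h ▸ hi)
        rw [Function.update_of_ne hia]
      rw [hrest]
      by_cases hg : g0 = g
      · rw [if_pos hg, ← hg]
        linarith
      · rw [if_neg hg, zero_add]
        exact hψ g
  obtain ⟨ψ, hψ⟩ := main Finset.univ
  exact ⟨ψ, hψ⟩

/-- Sum over a subtype as a sum of indicators over the whole type. -/
theorem sum_subtype_ite {α : Type} [Fintype α] (p : α → Prop) [DecidablePred p] (f : α → ℝ) :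
    ∑ i : {i : α // p i}, f i.val = ∑ i, (if p i then f i else 0) := by
  rw [← Finset.sum_filter]
  exact (Finset.sum_subtype (Finset.univ.filter p) (by simp) f).symm

/-- From one large ball to `2 ^ n` large balls below half capacity: if the packing statement
with one large ball holds in complex dimension `n = m + 1`, then for every `ε > 0` there is
`δ > 0` such that balls of which all but at most `2 ^ n` have capacity at most `δ R`, the
large ones having capacity below `R / 2`, pack the ball of capacity `R` as soon as the total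
volume is at most `1 - ε` times that of the ball. -/
theorem half_cells_packing (m : ℕ) (H : BigSmallHyp (m + 1) 1) (ε : ℝ) (hε : 0 < ε) :
    ∃ δ : ℝ, 0 < δ ∧ ∀ (k : ℕ) (r : Fin k → ℝ) (R : ℝ) (B : Finset (Fin k)),
      0 < R → (∀ i, 0 < r i) → B.card ≤ 2 ^ (m + 1) → (∀ i ∈ B, r i < R / 2) →
      (∀ i, i ∉ B → r i ≤ δ * R) → ∑ i, r i ^ (m + 1) ≤ (1 - ε) * R ^ (m + 1) →
      BallPacking (m + 1) k r R := by
  have hε₁pos : 0 < min ε 1 := lt_min hε one_pos
  have hε₁le : min ε 1 ≤ 1 := min_le_right _ _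
  have hε₁ε : min ε 1 ≤ ε := min_le_left _ _
  generalize min ε 1 = ε₁ at hε₁pos hε₁le hε₁ε
  obtain ⟨δ', hδ', hcell⟩ := bigSmall_on H (ε₁ / 3) (by positivity)
  refine ⟨min (δ' / 4) (ε₁ / 6), lt_min (by positivity) (by positivity), ?_⟩
  intro k r R B hR hr hB hBhalf hsmall hvol
  classical
  have hδ1 : min (δ' / 4) (ε₁ / 6) ≤ δ' / 4 := min_le_left _ _
  have hδ2 : min (δ' / 4) (ε₁ / 6) ≤ ε₁ / 6 := min_le_right _ _
  have hδpos : 0 < min (δ' / 4) (ε₁ / 6) := lt_min (by positivity) (by positivity)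
  generalize min (δ' / 4) (ε₁ / 6) = δ at hδ1 hδ2 hδpos hsmall
  have hnpos : (0 : ℝ) < ((m + 1 : ℕ) : ℝ) := by positivity
  have hn1 : (1 : ℝ) ≤ ((m + 1 : ℕ) : ℝ) := by
    exact_mod_cast Nat.succ_le_succ (Nat.zero_le m)
  -- the gap below half capacity
  obtain ⟨η₁, hη₁, hη₁le⟩ := exists_pos_le_of_finite
    (fun i : Fin k => if i ∈ B then (R / 2 - r i) / 2 else 1) (by
      intro i
      by_cases hi : i ∈ B
      · simp only [hi, if_true]
        linarith [hBhalf i hi]
      · simp only [hi, if_false]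
        exact one_pos)
  have hη₀pos : 0 < ε₁ / (6 * ((m + 1 : ℕ) : ℝ)) := by positivity
  have hη₀le : ε₁ / (6 * ((m + 1 : ℕ) : ℝ)) ≤ 1 / 6 := by
    rw [div_le_div_iff₀ (by positivity) (by norm_num)]
    nlinarith
  have hη₀n : ((m + 1 : ℕ) : ℝ) * (2 * (ε₁ / (6 * ((m + 1 : ℕ) : ℝ)))) = ε₁ / 3 := by
    field_simp
    ring
  generalize ε₁ / (6 * ((m + 1 : ℕ) : ℝ)) = η₀ at hη₀pos hη₀le hη₀n
  have hηpos : 0 < min η₁ (η₀ * R) := lt_min hη₁ (by positivity)
  have hη1 : min η₁ (η₀ * R) ≤ η₁ := min_le_left _ _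
  have hη2 : min η₁ (η₀ * R) ≤ η₀ * R := min_le_right _ _
  generalize min η₁ (η₀ * R) = η at hηpos hη1 hη2
  have hBc : ∀ i ∈ B, r i < R / 2 - η := by
    intro i hi
    have h1 := hη₁le i
    simp only [hi, if_true] at h1
    linarith
  have hcR4 : R / 4 ≤ R / 2 - η := by nlinarith
  have hcpos : 0 < R / 2 - η := by linarith
  -- the cells
  have hout : BallPackingOn (m + 1) (Fin (2 ^ (m + 1))) (fun _ => R / 2 - η) R :=
    pow_two_packing m (2 ^ (m + 1)) le_rfl (fun _ => R / 2 - η) R (fun _ => by linarith)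
      (fun _ _ _ => by linarith)
  have hGpos : 0 < 2 ^ (m + 1) := by positivity
  -- the cells of the large balls
  let ê : Fin k → Fin (2 ^ (m + 1)) := fun i =>
    if h : i ∈ B then Fin.castLE hB (B.equivFin ⟨i, h⟩) else ⟨0, hGpos⟩
  have hêinj : ∀ i ∈ B, ∀ j ∈ B, ê i = ê j → i = j := by
    intro i hi j hj hij
    simp only [ê, dif_pos hi, dif_pos hj] at hij
    have h1 := Fin.castLE_injective hB hij
    have h2 := B.equivFin.injective h1
    exact congrArg Subtype.val h2
  -- volumes and budgets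
  have hT0 : 0 ≤ (1 - ε₁ / 3) * (R / 2 - η) ^ (m + 1) := by
    apply mul_nonneg (by linarith) (by positivity)
  have hvpos : ∀ i, 0 < r i ^ (m + 1) := fun i => pow_pos (hr i) _
  have hv0 : ∀ i : Fin k, 0 ≤ (if i ∈ B then (0 : ℝ) else r i ^ (m + 1)) := by
    intro i
    by_cases hi : i ∈ B
    · simp [hi]
    · simp only [hi, if_false]
      exact (hvpos i).le
  have hvmax : ∀ i : Fin k, (if i ∈ B then (0 : ℝ) else r i ^ (m + 1)) ≤ (δ * R) ^ (m + 1) := by
    intro i
    by_cases hi : i ∈ B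
    · simp only [hi, if_true]
      positivity
    · simp only [hi, if_false]
      exact pow_le_pow_left₀ (hr i).le (hsmall i hi) _
  have hWsum : ∑ g : Fin (2 ^ (m + 1)), ∑ i ∈ B, (if ê i = g then r i ^ (m + 1) else 0) =
      ∑ i ∈ B, r i ^ (m + 1) := by
    rw [Finset.sum_comm]
    apply Finset.sum_congr rfl
    intro i _
    rw [Finset.sum_ite_eq]
    simp
  have hvsum : ∑ i : Fin k, (if i ∈ B then (0 : ℝ) else r i ^ (m + 1)) =
      ∑ i, r i ^ (m + 1) - ∑ i ∈ B, r i ^ (m + 1) := by
    have h1 : ∑ i : Fin k, r i ^ (m + 1) =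
        ∑ i : Fin k, ((if i ∈ B then r i ^ (m + 1) else 0) +
          (if i ∈ B then (0 : ℝ) else r i ^ (m + 1))) := by
      apply Finset.sum_congr rfl
      intro i _
      by_cases hi : i ∈ B <;> simp [hi]
    rw [h1, Finset.sum_add_distrib, ← Finset.sum_filter]
    simp
  -- arithmetic of the budgets
  have harith : (1 - ε) * R ^ (m + 1) + (2 : ℝ) ^ (m + 1) * (δ * R) ^ (m + 1) ≤
      (2 : ℝ) ^ (m + 1) * ((1 - ε₁ / 3) * (R / 2 - η) ^ (m + 1)) := by
    have hRn : 0 < R ^ (m + 1) := by positivity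
    have h2δ0 : 0 ≤ 2 * δ := by positivity
    have h2δ1 : 2 * δ ≤ 1 := by linarith
    have h1 : (2 : ℝ) ^ (m + 1) * (δ * R) ^ (m + 1) = (2 * δ) ^ (m + 1) * R ^ (m + 1) := by
      rw [mul_pow, mul_pow]
      ring
    have h2 : (2 * δ) ^ (m + 1) ≤ 2 * δ := pow_le_of_le_one h2δ0 h2δ1 (Nat.succ_ne_zero m)
    have h3 : (2 : ℝ) ^ (m + 1) * ((1 - ε₁ / 3) * (R / 2 - η) ^ (m + 1)) =
        (1 - ε₁ / 3) * (R - 2 * η) ^ (m + 1) := by
      have h4 : R - 2 * η = 2 * (R / 2 - η) := by ring
      rw [h4, mul_pow]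
      ring
    have h5 : ((1 - 2 * η₀) * R) ^ (m + 1) ≤ (R - 2 * η) ^ (m + 1) := by
      apply pow_le_pow_left₀
      · apply mul_nonneg (by linarith) hR.le
      · nlinarith
    have h6 : 1 - ε₁ / 3 ≤ (1 - 2 * η₀) ^ (m + 1) := by
      have h7 := one_add_mul_le_pow (show (-2 : ℝ) ≤ -(2 * η₀) by linarith) (m + 1)
      have h8 : (1 : ℝ) + ((m + 1 : ℕ) : ℝ) * -(2 * η₀) = 1 - ε₁ / 3 := by
        rw [mul_neg, hη₀n]
        ring
      rw [h8] at h7
      have h9 : (1 : ℝ) + -(2 * η₀) = 1 - 2 * η₀ := by ring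
      rw [h9] at h7
      exact h7
    have h10 : (1 - ε₁ / 3) * R ^ (m + 1) ≤ (R - 2 * η) ^ (m + 1) := by
      calc (1 - ε₁ / 3) * R ^ (m + 1) ≤ (1 - 2 * η₀) ^ (m + 1) * R ^ (m + 1) :=
            mul_le_mul_of_nonneg_right h6 hRn.le
        _ = ((1 - 2 * η₀) * R) ^ (m + 1) := by rw [mul_pow]
        _ ≤ (R - 2 * η) ^ (m + 1) := h5
    rw [h1, h3]
    have h11 : (1 - ε₁ / 3) * ((1 - ε₁ / 3) * R ^ (m + 1)) ≤
        (1 - ε₁ / 3) * (R - 2 * η) ^ (m + 1) :=
      mul_le_mul_of_nonneg_left h10 (by linarith)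
    have h12 : (2 * δ) ^ (m + 1) * R ^ (m + 1) ≤ ε₁ / 3 * R ^ (m + 1) :=
      mul_le_mul_of_nonneg_right (by linarith) hRn.le
    have h13 : (1 - ε) * R ^ (m + 1) ≤ (1 - ε₁) * R ^ (m + 1) :=
      mul_le_mul_of_nonneg_right (by linarith) hRn.le
    have h14 : (1 - ε₁) * R ^ (m + 1) + ε₁ / 3 * R ^ (m + 1) ≤
        (1 - ε₁ / 3) * ((1 - ε₁ / 3) * R ^ (m + 1)) := by
      have h15 : 0 ≤ ε₁ ^ 2 * R ^ (m + 1) := mul_nonneg (sq_nonneg ε₁) hRn.le
      nlinarith
    linarith
  have hbud : ∑ i : Fin k, (if i ∈ B then (0 : ℝ) else r i ^ (m + 1)) +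
      (Fintype.card (Fin (2 ^ (m + 1))) : ℝ) * (δ * R) ^ (m + 1) ≤
      ∑ g : Fin (2 ^ (m + 1)), max 0 ((1 - ε₁ / 3) * (R / 2 - η) ^ (m + 1) -
        ∑ i ∈ B, (if ê i = g then r i ^ (m + 1) else 0)) := by
    have h1 : ∑ g : Fin (2 ^ (m + 1)), ((1 - ε₁ / 3) * (R / 2 - η) ^ (m + 1) -
        ∑ i ∈ B, (if ê i = g then r i ^ (m + 1) else 0)) ≤
        ∑ g : Fin (2 ^ (m + 1)), max 0 ((1 - ε₁ / 3) * (R / 2 - η) ^ (m + 1) -
          ∑ i ∈ B, (if ê i = g then r i ^ (m + 1) else 0)) :=
      Finset.sum_le_sum fun g _ => le_max_right _ _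
    rw [Finset.sum_sub_distrib, hWsum, Finset.sum_const, Finset.card_univ, nsmul_eq_mul] at h1
    rw [hvsum]
    have h2 : (Fintype.card (Fin (2 ^ (m + 1))) : ℝ) = (2 : ℝ) ^ (m + 1) := by
      rw [Fintype.card_fin]
      push_cast
      ring
    rw [h2] at h1 ⊢
    linarith
  have hGne : Nonempty (Fin (2 ^ (m + 1))) := ⟨⟨0, hGpos⟩⟩
  obtain ⟨ψ, hψ⟩ := distribute (fun i : Fin k => if i ∈ B then (0 : ℝ) else r i ^ (m + 1))
    (fun g : Fin (2 ^ (m + 1)) => max 0 ((1 - ε₁ / 3) * (R / 2 - η) ^ (m + 1) -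
      ∑ i ∈ B, (if ê i = g then r i ^ (m + 1) else 0)))
    ((δ * R) ^ (m + 1)) hv0 hvmax (fun g => le_max_left _ _) hbud
  -- the assignment of the balls to the cells
  refine BallPackingOn.nest (fun i => if i ∈ B then ê i else ψ i) r (fun _ => R / 2 - η) R
    hout ?_
  intro g
  -- the volume in the cell `g`
  have hfib : ∑ i : {i : Fin k // (if i ∈ B then ê i else ψ i) = g}, r i.val ^ (m + 1) =
      ∑ i ∈ B, (if ê i = g then r i ^ (m + 1) else 0) +
        ∑ i : Fin k, (if ψ i = g then (if i ∈ B then (0 : ℝ) else r i ^ (m + 1)) else 0) := by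
    rw [sum_subtype_ite (fun i : Fin k => (if i ∈ B then ê i else ψ i) = g)
      (fun i => r i ^ (m + 1))]
    have h1 : ∑ i ∈ B, (if ê i = g then r i ^ (m + 1) else 0) =
        ∑ i : Fin k, (if i ∈ B then (if ê i = g then r i ^ (m + 1) else 0) else 0) := by
      rw [Finset.sum_ite_mem, Finset.univ_inter]
    rw [h1, ← Finset.sum_add_distrib]
    apply Finset.sum_congr rfl
    intro i _
    by_cases hi : i ∈ B
    · simp [hi]
    · simp [hi]
  by_cases hW : (1 - ε₁ / 3) * (R / 2 - η) ^ (m + 1) <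
      ∑ i ∈ B, (if ê i = g then r i ^ (m + 1) else 0)
  · -- the large ball nearly fills the cell: it is alone
    have hβ0 : max 0 ((1 - ε₁ / 3) * (R / 2 - η) ^ (m + 1) -
        ∑ i ∈ B, (if ê i = g then r i ^ (m + 1) else 0)) = 0 :=
      max_eq_left (by linarith)
    have hz := hψ g
    rw [hβ0] at hz
    have hz0 : ∀ i : Fin k,
        (if ψ i = g then (if i ∈ B then (0 : ℝ) else r i ^ (m + 1)) else 0) = 0 := by
      have h1 := (Finset.sum_eq_zero_iff_of_nonneg (fun i _ => by
        by_cases hi : ψ i = g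
        · simp only [hi, if_true]
          exact hv0 i
        · simp [hi])).mp (le_antisymm hz (Finset.sum_nonneg fun i _ => by
        by_cases hi : ψ i = g
        · simp only [hi, if_true]
          exact hv0 i
        · simp [hi]))
      intro i
      exact h1 i (Finset.mem_univ i)
    have hmemB : ∀ i : {i : Fin k // (if i ∈ B then ê i else ψ i) = g}, i.val ∈ B := by
      intro i
      by_contra hi
      have h1 := i.property
      simp only [hi, if_false] at h1
      have h2 := hz0 i.val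
      simp only [h1, hi, if_true, if_false] at h2
      exact absurd h2 (hvpos i.val).ne'
    have hsub : Subsingleton {i : Fin k // (if i ∈ B then ê i else ψ i) = g} := by
      refine ⟨fun i j => ?_⟩
      have hi := i.property
      have hj := j.property
      simp only [hmemB i, hmemB j, if_true] at hi hj
      exact Subtype.ext (hêinj i.val (hmemB i) j.val (hmemB j) (hi.trans hj.symm))
    exact ballPackingOn_of_subsingleton (m + 1) _ (fun i => r i.val) (R / 2 - η)
      (fun i => hBc i.val (hmemB i))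
  · -- the general cell: one large ball at most, and small balls within the budget
    push Not at hW
    have hβ : max 0 ((1 - ε₁ / 3) * (R / 2 - η) ^ (m + 1) -
        ∑ i ∈ B, (if ê i = g then r i ^ (m + 1) else 0)) =
        (1 - ε₁ / 3) * (R / 2 - η) ^ (m + 1) -
          ∑ i ∈ B, (if ê i = g then r i ^ (m + 1) else 0) :=
      max_eq_right (by linarith)
    have hz := hψ g
    rw [hβ] at hz
    refine hcell {i : Fin k // (if i ∈ B then ê i else ψ i) = g} (fun i => r i.val)
      (R / 2 - η) (Finset.univ.filter fun i => i.val ∈ B) hcpos (fun i => hr i.val) ?_ ?_ ?_ ?_ ?_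
    · rw [Finset.card_le_one]
      intro i hi j hj
      have hiB : i.val ∈ B := (Finset.mem_filter.mp hi).2
      have hjB : j.val ∈ B := (Finset.mem_filter.mp hj).2
      have hi' := i.property
      have hj' := j.property
      simp only [hiB, hjB, if_true] at hi' hj'
      exact Subtype.ext (hêinj i.val hiB j.val hjB (hi'.trans hj'.symm))
    · intro i hi
      exact hBc i.val (Finset.mem_filter.mp hi).2
    · intro i hi j hj hij
      exfalso
      apply hij
      have hiB : i.val ∈ B := (Finset.mem_filter.mp hi).2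
      have hjB : j.val ∈ B := (Finset.mem_filter.mp hj).2
      have hi' := i.property
      have hj' := j.property
      simp only [hiB, hjB, if_true] at hi' hj'
      exact Subtype.ext (hêinj i.val hiB j.val hjB (hi'.trans hj'.symm))
    · intro i hi
      have hiB : i.val ∉ B := fun h => hi (Finset.mem_filter.mpr ⟨Finset.mem_univ _, h⟩)
      have h1 := hsmall i.val hiB
      nlinarith
    · rw [hfib]
      linarith

/-- The packing statement is monotone in the number of large balls allowed. -/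
theorem BigSmallHyp.mono {n b b' : ℕ} (h : b' ≤ b) (H : BigSmallHyp n b) : BigSmallHyp n b' := by
  intro ε hε
  obtain ⟨δ, hδ, hH⟩ := H ε hε
  exact ⟨δ, hδ, fun k r R B hR hr hB => hH k r R B hR hr (hB.trans h)⟩

/-- The two cases together: all but at most `n + 1` balls small (the large ones with pairwise
sums below `R`), or all but at most `2 ^ n` balls small (the large ones below `R / 2`). -/
theorem combined_packing (m : ℕ) (H : BigSmallHyp (m + 1) (m + 2)) (ε : ℝ) (hε : 0 < ε) :
    ∃ δ : ℝ, 0 < δ ∧ ∀ (k : ℕ) (r : Fin k → ℝ) (R : ℝ) (B : Finset (Fin k)),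
      0 < R → (∀ i, 0 < r i) → (∀ i, i ∉ B → r i ≤ δ * R) →
      ∑ i, r i ^ (m + 1) ≤ (1 - ε) * R ^ (m + 1) →
      ((B.card ≤ m + 2 ∧ (∀ i ∈ B, r i < R) ∧ ∀ i ∈ B, ∀ j ∈ B, i ≠ j → r i + r j < R) ∨
        (B.card ≤ 2 ^ (m + 1) ∧ ∀ i ∈ B, r i < R / 2)) →
      BallPacking (m + 1) k r R := by
  obtain ⟨δa, hδa, ha⟩ := H ε hε
  obtain ⟨δb, hδb, hb⟩ := half_cells_packing m (H.mono (by omega)) ε hε
  refine ⟨min δa δb, lt_min hδa hδb, ?_⟩
  intro k r R B hR hr hsmall hvol hcase
  rcases hcase with ⟨hB, hBR, hpair⟩ | ⟨hB, hBhalf⟩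
  · refine ha k r R B hR hr hB hBR hpair (fun i hi => ?_) hvol
    have h1 := hsmall i hi
    have h2 : min δa δb * R ≤ δa * R := mul_le_mul_of_nonneg_right (min_le_left _ _) hR.le
    linarith
  · refine hb k r R B hR hr hB hBhalf (fun i hi => ?_) hvol
    have h1 := hsmall i hi
    have h2 : min δa δb * R ≤ δb * R := mul_le_mul_of_nonneg_right (min_le_right _ _) hR.le
    linarith

end Vale.Agent.Lib.P209
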