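import Vale.Agent.Lib.P209.SympOn

open Complex ComplexConjugate Filter Topology

namespace Vale.Agent.Lib.P209

/-- The coordinate projection onto the coordinates with index at least `d`, as a linear map. -/
noncomputable def QgeL (n d : ℕ) : EuclideanSpace ℂ (Fin n) →ₗ[ℂ] EuclideanSpace ℂ (Fin n) where
  toFun w := WithLp.toLp 2 (fun i : Fin n => if d ≤ i.val then w i else 0)
  map_add' := by
    intro x y
    ext i
    simp only [PiLp.add_apply]
    split_ifs <;> simp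
  map_smul' := by
    intro a x
    ext i
    simp only [PiLp.smul_apply, RingHom.id_apply]
    split_ifs <;> simp

/-- The coordinate projection onto the coordinates with index at least `d`. -/
noncomputable def Qge (n d : ℕ) : EuclideanSpace ℂ (Fin n) →L[ℂ] EuclideanSpace ℂ (Fin n) :=
  LinearMap.toContinuousLinearMap (QgeL n d)

theorem Qge_apply (n d : ℕ) (w : EuclideanSpace ℂ (Fin n)) (i : Fin n) :
    Qge n d w i = if d ≤ i.val then w i else 0 := rfl

theorem Qge_selfAdjoint (n d : ℕ) (u v : EuclideanSpace ℂ (Fin n)) :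
    inner ℂ (Qge n d u) v = inner ℂ u (Qge n d v) := by
  rw [PiLp.inner_apply, PiLp.inner_apply]
  refine Finset.sum_congr rfl fun i _ => ?_
  rw [Qge_apply, Qge_apply]
  split_ifs <;> simp

theorem Qge_idem (n d : ℕ) (u : EuclideanSpace ℂ (Fin n)) : Qge n d (Qge n d u) = Qge n d u := by
  ext i
  rw [Qge_apply, Qge_apply]
  split_ifs <;> rfl

theorem Qge_single (n d : ℕ) (j : Fin n) (hj : j.val < d) :
    Qge n d (EuclideanSpace.single j (1 : ℂ)) = 0 := by
  ext i
  rw [Qge_apply]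
  split_ifs with h
  · have : i ≠ j := by
      intro hij
      rw [hij] at h
      omega
    simp [this]
  · rfl

theorem Qge_single_self (n d : ℕ) (j : Fin n) (hj : d ≤ j.val) :
    Qge n d (EuclideanSpace.single j (1 : ℂ)) = EuclideanSpace.single j (1 : ℂ) := by
  ext i
  rw [Qge_apply]
  split_ifs with h
  · rfl
  · have : i ≠ j := by
      intro hij
      rw [hij] at h
      omega
    simp [this]

theorem norm_sq_Qge (n d : ℕ) (w : EuclideanSpace ℂ (Fin n)) :
    ‖Qge n d w‖ ^ 2 = ∑ i : Fin n, if d ≤ i.val then ‖w i‖ ^ 2 else 0 := by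
  rw [EuclideanSpace.norm_sq_eq]
  refine Finset.sum_congr rfl fun i _ => ?_
  rw [Qge_apply]
  split_ifs <;> simp

theorem norm_sq_Qge_succ (n d : ℕ) (h : d < n) (w : EuclideanSpace ℂ (Fin n)) :
    ‖Qge n d w‖ ^ 2 = ‖Qge n (d + 1) w‖ ^ 2 + ‖w ⟨d, h⟩‖ ^ 2 := by
  rw [norm_sq_Qge, norm_sq_Qge]
  have h1 : ∀ i : Fin n, (if d ≤ i.val then ‖w i‖ ^ 2 else 0) =
      (if d + 1 ≤ i.val then ‖w i‖ ^ 2 else 0) + (if i = ⟨d, h⟩ then ‖w ⟨d, h⟩‖ ^ 2 else 0) := by
    intro i
    by_cases hi : i = ⟨d, h⟩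
    · subst hi
      simp
    · have hne : i.val ≠ d := fun hv => hi (Fin.ext hv)
      by_cases h2 : d ≤ i.val
      · have h3 : d + 1 ≤ i.val := by omega
        simp [h2, h3, hi]
      · have h3 : ¬ d + 1 ≤ i.val := by omega
        simp [h2, h3, hi]
  rw [Finset.sum_congr rfl fun i _ => h1 i, Finset.sum_add_distrib, Finset.sum_ite_eq']
  simp

theorem Qge_zero (n : ℕ) (w : EuclideanSpace ℂ (Fin n)) : Qge n 0 w = w := by
  ext i
  rw [Qge_apply]
  simp

theorem Qge_top (n : ℕ) (w : EuclideanSpace ℂ (Fin n)) : Qge n n w = 0 := by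
  ext i
  rw [Qge_apply]
  have : ¬ n ≤ i.val := by have := i.isLt; omega
  simp [this]

theorem norm_Qge_le (n d : ℕ) (w : EuclideanSpace ℂ (Fin n)) : ‖Qge n d w‖ ^ 2 ≤ ‖w‖ ^ 2 := by
  rw [norm_sq_Qge, EuclideanSpace.norm_sq_eq]
  refine Finset.sum_le_sum fun i _ => ?_
  split_ifs
  · exact le_rfl
  · exact sq_nonneg _

theorem isProjPerp_Qge (n d : ℕ) (h : d < n) :
    IsProjPerp (Qge n (d + 1)) (EuclideanSpace.single (⟨d, h⟩ : Fin n) (1 : ℂ)) :=
  ⟨Qge_selfAdjoint n (d + 1), Qge_idem n (d + 1), Qge_single n (d + 1) ⟨d, h⟩ (Nat.lt_succ_self d)⟩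

theorem norm_sq_Qge_anti (n d d' : ℕ) (h : d ≤ d') (w : EuclideanSpace ℂ (Fin n)) :
    ‖Qge n d' w‖ ^ 2 ≤ ‖Qge n d w‖ ^ 2 := by
  rw [norm_sq_Qge, norm_sq_Qge]
  refine Finset.sum_le_sum fun i _ => ?_
  by_cases h1 : d' ≤ i.val
  · have h2 : d ≤ i.val := le_trans h h1
    simp [h1, h2]
  · by_cases h2 : d ≤ i.val
    · simp [h1, h2]
    · simp [h1, h2]

/-- The level set: all coordinates nonzero and the weighted norm (coordinates of index at least
`d` counted twice) below `c`. -/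
def Lev (n : ℕ) (c : ℝ) (d : ℕ) : Set (EuclideanSpace ℂ (Fin n)) :=
  {w | (∀ i, w i ≠ 0) ∧ ‖w‖ ^ 2 + ‖Qge n d w‖ ^ 2 < c}

theorem isOpen_nonzero (n : ℕ) : IsOpen {w : EuclideanSpace ℂ (Fin n) | ∀ i, w i ≠ 0} := by
  have h : {w : EuclideanSpace ℂ (Fin n) | ∀ i, w i ≠ 0} =
      ⋂ i : Fin n, {w : EuclideanSpace ℂ (Fin n) | w i ≠ 0} := by
    ext w
    simp
  rw [h]
  exact isOpen_iInter_of_finite fun i =>
    isOpen_ne_fun (PiLp.continuous_apply 2 _ i) continuous_const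

theorem isOpen_Lev (n : ℕ) (c : ℝ) (d : ℕ) : IsOpen (Lev n c d) := by
  have h2 : IsOpen {w : EuclideanSpace ℂ (Fin n) | ‖w‖ ^ 2 + ‖Qge n d w‖ ^ 2 < c} :=
    isOpen_lt ((continuous_norm.pow 2).add ((continuous_norm.comp (Qge n d).continuous).pow 2))
      continuous_const
  exact (isOpen_nonzero n).inter h2

theorem Lev_subset_succ (n : ℕ) (c : ℝ) (d : ℕ) : Lev n c d ⊆ Lev n c (d + 1) := by
  intro w hw
  refine ⟨hw.1, ?_⟩
  have := norm_sq_Qge_anti n d (d + 1) (Nat.le_succ d) w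
  linarith [hw.2]

/-- One stage of the halving construction. -/
noncomputable def stage (n : ℕ) (c : ℝ) (d : ℕ) (b : Bool) :
    EuclideanSpace ℂ (Fin n) → EuclideanSpace ℂ (Fin n) :=
  if h : d < n then
    (if b = true then WG c (Qge n (d + 1)) (EuclideanSpace.single (⟨d, h⟩ : Fin n) (1 : ℂ))
      else id)
  else id

theorem stage_false (n : ℕ) (c : ℝ) (d : ℕ) : stage n c d false = id := by
  unfold stage
  by_cases h : d < n
  · simp [h]
  · simp [h]

theorem stage_true (n : ℕ) (c : ℝ) (d : ℕ) (h : d < n) :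
    stage n c d true = WG c (Qge n (d + 1)) (EuclideanSpace.single (⟨d, h⟩ : Fin n) (1 : ℂ)) := by
  unfold stage
  simp [h]

theorem Lev_subset_wDom (n : ℕ) (c : ℝ) (d : ℕ) (h : d < n) :
    Lev n c (d + 1) ⊆ wDom c (Qge n (d + 1)) (EuclideanSpace.single (⟨d, h⟩ : Fin n) (1 : ℂ)) := by
  intro w hw
  refine ⟨?_, hw.2⟩
  rw [inner_single_one]
  exact hw.1 _

theorem WG_coord_ne_zero (n : ℕ) (c : ℝ) (d : ℕ) (h : d < n) (w : EuclideanSpace ℂ (Fin n))
    (hw : w ∈ Lev n c (d + 1)) (i : Fin n) :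
    (WG c (Qge n (d + 1)) (EuclideanSpace.single (⟨d, h⟩ : Fin n) (1 : ℂ)) w) i ≠ 0 := by
  have hdom := Lev_subset_wDom n c d h hw
  have hQ := isProjPerp_Qge n d h
  have he := norm_single_one n (⟨d, h⟩ : Fin n)
  have hg := wg_ne_zero (EuclideanSpace.single (⟨d, h⟩ : Fin n) (1 : ℂ)) w hdom.1
  rw [← inner_single_one n i]
  rcases lt_trichotomy i.val d with hlt | heq | hgt
  · have hfe : inner ℂ (EuclideanSpace.single i (1 : ℂ))
        (EuclideanSpace.single (⟨d, h⟩ : Fin n) (1 : ℂ)) = 0 := by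
      rw [inner_single_one]
      have : (⟨d, h⟩ : Fin n) ≠ i := by
        intro hij
        rw [← hij] at hlt
        exact lt_irrefl _ hlt
      simp [this]
    rw [inner_WG_of_Q_eq_zero c hQ w _ (Qge_single n (d + 1) i (by omega)) hfe, inner_single_one]
    exact mul_ne_zero hg (hw.1 i)
  · have hi : i = ⟨d, h⟩ := Fin.ext heq
    rw [hi]
    exact inner_e_WG_ne_zero c he hQ w hdom
  · rw [inner_WG_of_Q_eq c hQ w _ (Qge_single_self n (d + 1) i (by omega)), inner_single_one]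
    exact mul_ne_zero (mul_ne_zero hg hg) (hw.1 i)

theorem WG_mem_Lev (n : ℕ) (c : ℝ) (d : ℕ) (h : d < n) (w : EuclideanSpace ℂ (Fin n))
    (hw : w ∈ Lev n c (d + 1)) :
    WG c (Qge n (d + 1)) (EuclideanSpace.single (⟨d, h⟩ : Fin n) (1 : ℂ)) w ∈ Lev n c (d + 1) := by
  have hdom := Lev_subset_wDom n c d h hw
  have hQ := isProjPerp_Qge n d h
  have he := norm_single_one n (⟨d, h⟩ : Fin n)
  refine ⟨WG_coord_ne_zero n c d h w hw, ?_⟩
  rw [norm_sq_WG c he hQ w hdom, norm_Q_WG c hQ w hdom.1]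
  have hpos : 0 < ‖inner ℂ (EuclideanSpace.single (⟨d, h⟩ : Fin n) (1 : ℂ)) w‖ ^ 2 :=
    pow_pos (norm_pos_iff.2 hdom.1) 2
  linarith

/-- The weighted norm one level down is reflected by the chart map. -/
theorem Nst_WG (n : ℕ) (c : ℝ) (d : ℕ) (h : d < n) (w : EuclideanSpace ℂ (Fin n))
    (hw : w ∈ Lev n c (d + 1)) :
    ‖WG c (Qge n (d + 1)) (EuclideanSpace.single (⟨d, h⟩ : Fin n) (1 : ℂ)) w‖ ^ 2 +
      ‖Qge n d (WG c (Qge n (d + 1)) (EuclideanSpace.single (⟨d, h⟩ : Fin n) (1 : ℂ)) w)‖ ^ 2 =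
      2 * c - (‖w‖ ^ 2 + ‖Qge n d w‖ ^ 2) := by
  have hdom := Lev_subset_wDom n c d h hw
  have hQ := isProjPerp_Qge n d h
  have he := norm_single_one n (⟨d, h⟩ : Fin n)
  rw [norm_sq_Qge_succ n d h, norm_sq_Qge_succ n d h w, norm_sq_WG c he hQ w hdom,
    norm_Q_WG c hQ w hdom.1, ← inner_single_one n (⟨d, h⟩ : Fin n),
    norm_sq_inner_e_WG c he hQ w hdom, inner_single_one]
  ring

theorem stage_mapsTo (n : ℕ) (c : ℝ) (d : ℕ) (b : Bool) :
    Set.MapsTo (stage n c d b) (Lev n c (d + 1)) (Lev n c (d + 1)) := by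
  intro w hw
  by_cases h : d < n
  · cases b
    · rw [stage_false]
      exact hw
    · rw [stage_true n c d h]
      exact WG_mem_Lev n c d h w hw
  · unfold stage
    simp only [h, dif_neg, not_false_eq_true]
    exact hw

theorem stage_sympOn (n : ℕ) (c : ℝ) (d : ℕ) (b : Bool) :
    SympOn (stage n c d b) (Lev n c (d + 1)) := by
  by_cases h : d < n
  · cases b
    · rw [stage_false]
      exact sympOn_id (isOpen_Lev n c (d + 1))
    · rw [stage_true n c d h]
      exact (WG_sympOn c (Qge n (d + 1)) _ (norm_single_one n _) (isProjPerp_Qge n d h)).mono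
        (isOpen_Lev n c (d + 1)) (Lev_subset_wDom n c d h)
  · unfold stage
    simp only [h, dif_neg, not_false_eq_true]
    exact sympOn_id (isOpen_Lev n c (d + 1))

/-- The composite of the first `m` stages, with choices given by `b`. -/
noncomputable def GH (n : ℕ) (c : ℝ) (b : ℕ → Bool) :
    ℕ → EuclideanSpace ℂ (Fin n) → EuclideanSpace ℂ (Fin n)
  | 0 => id
  | m + 1 => stage n c m (b m) ∘ GH n c b m

theorem GH_props (n : ℕ) (c : ℝ) (b : ℕ → Bool) : ∀ m : ℕ,
    SympOn (GH n c b m) (Lev n c 0) ∧ Set.MapsTo (GH n c b m) (Lev n c 0) (Lev n c m) := by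
  intro m
  induction m with
  | zero => exact ⟨sympOn_id (isOpen_Lev n c 0), fun w hw => hw⟩
  | succ m ih =>
    have hmaps : Set.MapsTo (GH n c b m) (Lev n c 0) (Lev n c (m + 1)) := fun w hw =>
      Lev_subset_succ n c m (ih.2 hw)
    refine ⟨ih.1.comp (stage_sympOn n c m (b m)) hmaps, ?_⟩
    intro w hw
    exact stage_mapsTo n c m (b m) (hmaps hw)

theorem GH_disjoint (n : ℕ) (c : ℝ) : ∀ m : ℕ, m ≤ n → ∀ b b' : ℕ → Bool,
    (∃ d, d < m ∧ b d ≠ b' d) → ∀ w ∈ Lev n c 0, ∀ w' ∈ Lev n c 0,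
      GH n c b m w ≠ GH n c b' m w' := by
  intro m
  induction m with
  | zero =>
    intro _ b b' hd
    obtain ⟨d, hd, -⟩ := hd
    exact absurd hd (Nat.not_lt_zero d)
  | succ m ih =>
    intro hm b b' hd w hw w' hw'
    have hmn : m < n := hm
    have hx := (GH_props n c b m).2 hw
    have hx' := (GH_props n c b' m).2 hw'
    have key : ∀ (x x' : EuclideanSpace ℂ (Fin n)), x ∈ Lev n c m → x' ∈ Lev n c m →
        stage n c m true x ≠ stage n c m false x' := by
      intro x x' hx hx' heq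
      rw [stage_false, stage_true n c m hmn] at heq
      have h1 := Nst_WG n c m hmn x (Lev_subset_succ n c m hx)
      rw [heq] at h1
      simp only [id] at h1
      linarith [hx.2, hx'.2]
    show stage n c m (b m) (GH n c b m w) ≠ stage n c m (b' m) (GH n c b' m w')
    by_cases hbm : b m = b' m
    · have hd' : ∃ d, d < m ∧ b d ≠ b' d := by
        obtain ⟨d, hd1, hd2⟩ := hd
        refine ⟨d, ?_, hd2⟩
        rcases Nat.lt_succ_iff_lt_or_eq.1 hd1 with h | h
        · exact h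
        · rw [h] at hd2
          exact absurd hbm hd2
      have hne := ih (le_of_lt hmn) b b' hd' w hw w' hw'
      rw [← hbm]
      intro heq
      exact hne ((stage_sympOn n c m (b m)).2.2.1 (Lev_subset_succ n c m hx)
        (Lev_subset_succ n c m hx') heq)
    · cases hb : b m <;> cases hb' : b' m
      · rw [hb, hb'] at hbm
        exact absurd rfl hbm
      · exact (key _ _ hx' hx).symm
      · exact key _ _ hx hx'
      · rw [hb, hb'] at hbm
        exact absurd rfl hbm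

theorem GH_far (n : ℕ) (c : ℝ) : ∀ m : ℕ, m ≤ n → ∀ b : ℕ → Bool,
    (∃ d, d < m ∧ b d = true) → ∀ w ∈ Lev n c 0, c / 2 < ‖GH n c b m w‖ ^ 2 := by
  intro m
  induction m with
  | zero =>
    intro _ b hd
    obtain ⟨d, hd, -⟩ := hd
    exact absurd hd (Nat.not_lt_zero d)
  | succ m ih =>
    intro hm b hd w hw
    have hmn : m < n := hm
    have hx := (GH_props n c b m).2 hw
    show c / 2 < ‖stage n c m (b m) (GH n c b m w)‖ ^ 2
    cases hb : b m
    · rw [stage_false]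
      have hd' : ∃ d, d < m ∧ b d = true := by
        obtain ⟨d, hd1, hd2⟩ := hd
        refine ⟨d, ?_, hd2⟩
        rcases Nat.lt_succ_iff_lt_or_eq.1 hd1 with h | h
        · exact h
        · rw [h, hb] at hd2
          exact absurd hd2 (by simp)
      exact ih (le_of_lt hmn) b hd' w hw
    · rw [stage_true n c m hmn]
      have h1 := Nst_WG n c m hmn _ (Lev_subset_succ n c m hx)
      have h2 := norm_Qge_le n m
        (WG c (Qge n (m + 1)) (EuclideanSpace.single (⟨m, hmn⟩ : Fin n) (1 : ℂ)) (GH n c b m w))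
      linarith [hx.2]

theorem GH_norm_lt (n : ℕ) (c : ℝ) (b : ℕ → Bool) (w : EuclideanSpace ℂ (Fin n))
    (hw : w ∈ Lev n c 0) : ‖GH n c b n w‖ ^ 2 < c := by
  have h := ((GH_props n c b n).2 hw).2
  rw [Qge_top] at h
  simpa using h

theorem GH_coord_ne_zero (n : ℕ) (c : ℝ) (b : ℕ → Bool) (w : EuclideanSpace ℂ (Fin n))
    (hw : w ∈ Lev n c 0) (i : Fin n) : (GH n c b n w) i ≠ 0 :=
  ((GH_props n c b n).2 hw).1 i

theorem mem_Lev_zero (n : ℕ) (c : ℝ) (w : EuclideanSpace ℂ (Fin n)) (h0 : ∀ i, w i ≠ 0)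
    (hw : ‖w‖ ^ 2 < c / 2) : w ∈ Lev n c 0 := by
  refine ⟨h0, ?_⟩
  rw [Qge_zero]
  linarith

end Vale.Agent.Lib.P209
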