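import Vale.Agent.Lib.P209.MultiSq

open Complex ComplexConjugate Filter Topology

namespace Vale.Agent.Lib.P209

/-- Extension of a bit string on `Fin n` to all natural numbers (by `false`). -/
def extBits (n : ℕ) (β : Fin n → Bool) : ℕ → Bool :=
  fun j => if h : j < n then β ⟨j, h⟩ else false

theorem extBits_apply (n : ℕ) (β : Fin n → Bool) (j : Fin n) : extBits n β j.val = β j := by
  unfold extBits
  simp [j.isLt]

theorem extBits_ne (n : ℕ) (β β' : Fin n → Bool) (h : β ≠ β') :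
    ∃ d, d < n ∧ extBits n β d ≠ extBits n β' d := by
  have h1 : ∃ j : Fin n, β j ≠ β' j := by
    by_contra hcon
    push Not at hcon
    exact h (funext hcon)
  obtain ⟨j, hj⟩ := h1
  exact ⟨j.val, j.isLt, by rw [extBits_apply, extBits_apply]; exact hj⟩

theorem extBits_true (n : ℕ) (β : Fin n → Bool) (h : β ≠ fun _ => false) :
    ∃ d, d < n ∧ extBits n β d = true := by
  have h1 : ∃ j : Fin n, β j ≠ false := by
    by_contra hcon
    push Not at hcon
    exact h (funext hcon)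
  obtain ⟨j, hj⟩ := h1
  refine ⟨j.val, j.isLt, ?_⟩
  rw [extBits_apply]
  simpa using hj

theorem exists_bits (n k : ℕ) (hk : k ≤ 2 ^ n) :
    ∃ ι : Fin k → (Fin n → Bool), Function.Injective ι := by
  have hcard : Fintype.card (Fin k) ≤ Fintype.card (Fin n → Bool) := by
    simp only [Fintype.card_fin, Fintype.card_pi, Fintype.card_bool, Finset.prod_const,
      Finset.card_univ]
    exact hk
  obtain ⟨f⟩ := Function.Embedding.nonempty_of_card_le hcard
  exact ⟨f, f.injective⟩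

theorem exists_bits_pointed (n k : ℕ) (hk : k ≤ 2 ^ n) (i0 : Fin k) :
    ∃ ι : Fin k → (Fin n → Bool), Function.Injective ι ∧ ι i0 = fun _ => false := by
  obtain ⟨ι, hι⟩ := exists_bits n k hk
  refine ⟨fun i => Equiv.swap (ι i0) (fun _ => false) (ι i), ?_, ?_⟩
  · exact (Equiv.swap (ι i0) (fun _ => false)).injective.comp hι
  · exact Equiv.swap_apply_left _ _

/-- Halving packing: in complex dimension `n`, at most `2 ^ n` closed balls of capacities less
than `R / 2` pack the open ball of capacity `R`. -/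
theorem halving_packing (n k : ℕ) (hk : k ≤ 2 ^ n) (r : Fin k → ℝ) (R : ℝ)
    (hr : ∀ i, r i < R / 2) : BallPacking n k r R := by
  have hpi := Real.pi_pos
  set c : ℝ := Real.pi⁻¹ * R with hc
  have hcR : Real.pi * c = R := by
    rw [hc]
    field_simp
  obtain ⟨ι, hι⟩ := exists_bits n k hk
  have hpiece : ∀ i, ∃ (f : EuclideanSpace ℂ (Fin n) → EuclideanSpace ℂ (Fin n))
      (U : Set (EuclideanSpace ℂ (Fin n))),
      SympOn f U ∧ capBall n (r i) ⊆ U ∧ Set.MapsTo f U (Lev n c 0) := by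
    intro i
    refine exists_piece n c (r i) ?_
    have : Real.pi * (c / 2) = R / 2 := by rw [← hcR]; ring
    rw [this]
    exact hr i
  choose p U hp hU hmaps using hpiece
  refine ⟨fun i => GH n c (extBits n (ι i)) n ∘ p i, ?_, ?_, ?_⟩
  · intro i
    exact ((hp i).comp (GH_props n c _ n).1 (hmaps i)).isSympBallEmb (hU i)
  · intro i
    rintro y ⟨z, hz, rfl⟩
    rw [mem_openCapBall]
    have h1 := GH_norm_lt n c (extBits n (ι i)) (p i z) (hmaps i (hU i hz))
    have h2 : Real.pi * ‖GH n c (extBits n (ι i)) n (p i z)‖ ^ 2 < Real.pi * c :=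
      mul_lt_mul_of_pos_left h1 hpi
    rw [hcR] at h2
    exact h2
  · intro i j hij
    rw [Set.disjoint_left]
    rintro y ⟨z, hz, rfl⟩ ⟨z', hz', heq⟩
    exact GH_disjoint n c n le_rfl _ _ (extBits_ne n _ _ (hι.ne hij)) _ (hmaps i (hU i hz)) _
      (hmaps j (hU j hz')) heq.symm

/-- The two charts at infinity (of the ball of squared radius `c₂`, then of squared radius
`cR`) applied in succession: a symplectic map that moves the shell `c₂/2 < ‖y‖² < c₂` to the
outer shell `cR - c₂/2 < ‖·‖² < cR`. -/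
theorem outer_props (m : ℕ) (c₂ cR : ℝ) (h : c₂ ≤ cR) :
    SympOn (GG 0 1 cR (EuclideanSpace.single (0 : Fin (m + 1)) (1 : ℂ)) ∘
        GG 0 1 c₂ (EuclideanSpace.single (0 : Fin (m + 1)) (1 : ℂ))) (Lev (m + 1) c₂ (m + 1)) ∧
      ∀ y ∈ Lev (m + 1) c₂ (m + 1),
        ‖GG 0 1 cR (EuclideanSpace.single (0 : Fin (m + 1)) (1 : ℂ))
          (GG 0 1 c₂ (EuclideanSpace.single (0 : Fin (m + 1)) (1 : ℂ)) y)‖ ^ 2 =
            cR - c₂ + ‖y‖ ^ 2 := by
  set e : EuclideanSpace ℂ (Fin (m + 1)) := EuclideanSpace.single (0 : Fin (m + 1)) (1 : ℂ)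
    with he_def
  have he : ‖e‖ = 1 := norm_single_one (m + 1) 0
  have hmem : ∀ y ∈ Lev (m + 1) c₂ (m + 1), ‖y‖ ^ 2 < c₂ ∧ inner ℂ e y ≠ 0 := by
    intro y hy
    have h1 := hy.2
    rw [Qge_top] at h1
    refine ⟨by simpa using h1, ?_⟩
    rw [he_def, inner_single_one]
    exact hy.1 0
  have hmem2 : ∀ y ∈ Lev (m + 1) c₂ (m + 1),
      ‖GG 0 1 c₂ e y‖ ^ 2 < cR ∧ inner ℂ e (GG 0 1 c₂ e y) ≠ 0 := by
    intro y hy
    obtain ⟨h1, h2⟩ := hmem y hy
    have h3 := norm_sq_GG_zero_one c₂ e he y h1 h2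
    have h4 := norm_sq_inner_GG_zero_one c₂ e he y h1 h2
    have h5 : 0 < ‖inner ℂ e y‖ ^ 2 := pow_pos (norm_pos_iff.2 h2) 2
    refine ⟨by linarith, ?_⟩
    intro h0
    rw [h0, norm_zero] at h4
    have : (0 : ℝ) ^ 2 = 0 := by norm_num
    linarith
  have hmaps1 : Set.MapsTo (id : EuclideanSpace ℂ (Fin (m + 1)) → _) (Lev (m + 1) c₂ (m + 1))
      (chartDom 0 1 c₂ e) := by
    intro y hy
    exact (mem_chartDom_zero_one c₂ e y).2 (hmem y hy)
  have hmaps2 : Set.MapsTo (GG 0 1 c₂ e) (Lev (m + 1) c₂ (m + 1)) (chartDom 0 1 cR e) := by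
    intro y hy
    exact (mem_chartDom_zero_one cR e _).2 (hmem2 y hy)
  have hs1 : SympOn (GG 0 1 c₂ e) (Lev (m + 1) c₂ (m + 1)) :=
    (GG_sympOn c₂ e he).mono (isOpen_Lev (m + 1) c₂ (m + 1)) (fun y hy => hmaps1 hy)
  refine ⟨hs1.comp (GG_sympOn cR e he) hmaps2, ?_⟩
  intro y hy
  obtain ⟨h1, h2⟩ := hmem y hy
  obtain ⟨h3, h4⟩ := hmem2 y hy
  rw [norm_sq_GG_zero_one cR e he _ h3 h4, norm_sq_inner_GG_zero_one c₂ e he y h1 h2]
  ring

/-- One big ball: if `R / 2 ≤ r i₀ < R` and every other capacity is less than `R - r i₀`,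
then at most `2 ^ (m + 1)` closed balls pack the open ball of capacity `R` in complex
dimension `m + 1`. -/
theorem bigball_packing (m k : ℕ) (hk : k ≤ 2 ^ (m + 1)) (r : Fin k → ℝ) (R : ℝ) (i0 : Fin k)
    (h0 : R / 2 ≤ r i0) (h0R : r i0 < R) (hsmall : ∀ j, j ≠ i0 → r j < R - r i0) :
    BallPacking (m + 1) k r R := by
  have hpi := Real.pi_pos
  set s : ℝ := R - r i0 with hs
  have hs0 : 0 < s := by rw [hs]; linarith
  set c₂ : ℝ := Real.pi⁻¹ * (2 * s) with hc₂
  set cR : ℝ := Real.pi⁻¹ * R with hcR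
  have hpicR : Real.pi * cR = R := by
    rw [hcR]
    field_simp
  have hpic₂ : Real.pi * (c₂ / 2) = s := by
    rw [hc₂]
    field_simp
  have hle : c₂ ≤ cR := by
    rw [hc₂, hcR]
    exact mul_le_mul_of_nonneg_left (by rw [hs]; linarith) (inv_pos.2 hpi).le
  have hshell : Real.pi * (cR - c₂ / 2) = r i0 := by
    have : Real.pi * (cR - c₂ / 2) = Real.pi * cR - Real.pi * (c₂ / 2) := by ring
    rw [this, hpicR, hpic₂, hs]
    ring
  obtain ⟨ι, hι, hι0⟩ := exists_bits_pointed (m + 1) k hk i0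
  have hpiece : ∀ i, ∃ (f : EuclideanSpace ℂ (Fin (m + 1)) → EuclideanSpace ℂ (Fin (m + 1)))
      (U : Set (EuclideanSpace ℂ (Fin (m + 1)))), i ≠ i0 →
      (SympOn f U ∧ capBall (m + 1) (r i) ⊆ U ∧ Set.MapsTo f U (Lev (m + 1) c₂ 0)) := by
    intro i
    by_cases hi : i = i0
    · exact ⟨id, Set.univ, fun h => absurd hi h⟩
    · obtain ⟨f, U, hf⟩ := exists_piece (m + 1) c₂ (r i) (by rw [hpic₂]; exact hsmall i hi)
      exact ⟨f, U, fun _ => hf⟩
  choose p U hpU using hpiece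
  set Ω : EuclideanSpace ℂ (Fin (m + 1)) → EuclideanSpace ℂ (Fin (m + 1)) :=
    GG 0 1 cR (EuclideanSpace.single (0 : Fin (m + 1)) (1 : ℂ)) ∘
      GG 0 1 c₂ (EuclideanSpace.single (0 : Fin (m + 1)) (1 : ℂ)) with hΩ
  obtain ⟨hΩs, hΩn⟩ := outer_props m c₂ cR hle
  set g : Fin k → EuclideanSpace ℂ (Fin (m + 1)) → EuclideanSpace ℂ (Fin (m + 1)) :=
    fun i => GH (m + 1) c₂ (extBits (m + 1) (ι i)) (m + 1) ∘ p i with hg
  -- facts about the inner points
  have hmid : ∀ i, i ≠ i0 → ∀ z ∈ capBall (m + 1) (r i),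
      g i z ∈ Lev (m + 1) c₂ (m + 1) ∧ c₂ / 2 < ‖g i z‖ ^ 2 ∧ ‖g i z‖ ^ 2 < c₂ := by
    intro i hi z hz
    obtain ⟨-, hU, hmaps⟩ := hpU i hi
    have hw := hmaps (hU hz)
    refine ⟨(GH_props (m + 1) c₂ _ (m + 1)).2 hw, ?_, GH_norm_lt (m + 1) c₂ _ _ hw⟩
    refine GH_far (m + 1) c₂ (m + 1) le_rfl _ (extBits_true (m + 1) (ι i) ?_) _ hw
    intro hcon
    exact hi (hι (hcon.trans hι0.symm))
  have hnorm : ∀ i, i ≠ i0 → ∀ z ∈ capBall (m + 1) (r i),
      cR - c₂ / 2 < ‖Ω (g i z)‖ ^ 2 ∧ ‖Ω (g i z)‖ ^ 2 < cR := by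
    intro i hi z hz
    obtain ⟨h1, h2, h3⟩ := hmid i hi z hz
    have h4 := hΩn (g i z) h1
    have h5 : ‖Ω (g i z)‖ ^ 2 = cR - c₂ + ‖g i z‖ ^ 2 := h4
    constructor <;> linarith
  refine ⟨fun i => if i = i0 then id else Ω ∘ g i, ?_, ?_, ?_⟩
  · intro i
    by_cases hi : i = i0
    · simp only [hi, if_true]
      exact id_isSympBallEmb (m + 1) (r i0)
    · simp only [hi, if_false]
      obtain ⟨hp, hU, hmaps⟩ := hpU i hi
      have hs1 : SympOn (g i) (U i) := hp.comp (GH_props (m + 1) c₂ _ (m + 1)).1 hmaps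
      have hm1 : Set.MapsTo (g i) (U i) (Lev (m + 1) c₂ (m + 1)) := fun z hz =>
        (GH_props (m + 1) c₂ _ (m + 1)).2 (hmaps hz)
      exact (hs1.comp hΩs hm1).isSympBallEmb hU
  · intro i
    rintro y ⟨z, hz, rfl⟩
    rw [mem_openCapBall]
    by_cases hi : i = i0
    · simp only [hi, if_true, id]
      rw [hi, mem_capBall] at hz
      linarith
    · simp only [hi, if_false, Function.comp_apply]
      have h1 := (hnorm i hi z hz).2
      have h2 : Real.pi * ‖Ω (g i z)‖ ^ 2 < Real.pi * cR := mul_lt_mul_of_pos_left h1 hpi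
      rw [hpicR] at h2
      exact h2
  · have hcross : ∀ j, j ≠ i0 → ∀ z ∈ capBall (m + 1) (r i0), ∀ z' ∈ capBall (m + 1) (r j),
        z ≠ Ω (g j z') := by
      intro j hj z hz z' hz' heq
      have h1 := (hnorm j hj z' hz').1
      rw [← heq] at h1
      rw [mem_capBall] at hz
      have h2 : Real.pi * (cR - c₂ / 2) < Real.pi * ‖z‖ ^ 2 := mul_lt_mul_of_pos_left h1 hpi
      rw [hshell] at h2
      linarith
    intro i j hij
    rw [Set.disjoint_left]
    rintro y ⟨z, hz, rfl⟩ ⟨z', hz', heq⟩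
    by_cases hi : i = i0
    · have hj : j ≠ i0 := fun hj => hij (hi.trans hj.symm)
      simp only [hi, if_true, id, hj, if_false, Function.comp_apply] at heq
      rw [hi] at hz
      exact hcross j hj z hz z' hz' heq.symm
    · by_cases hj : j = i0
      · simp only [hi, if_false, hj, if_true, id, Function.comp_apply] at heq
        rw [hj] at hz'
        exact hcross i hi z' hz' z hz heq
      · simp only [hi, if_false, hj, Function.comp_apply] at heq
        obtain ⟨-, hU, hmaps⟩ := hpU i hi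
        obtain ⟨-, hU', hmaps'⟩ := hpU j hj
        have h1 := (hmid i hi z hz).1
        have h2 := (hmid j hj z' hz').1
        have h3 : g j z' = g i z := hΩs.2.2.1 h2 h1 heq
        exact GH_disjoint (m + 1) c₂ (m + 1) le_rfl _ _ (extBits_ne (m + 1) _ _ (hι.ne hij)) _
          (hmaps (hU hz)) _ (hmaps' (hU' hz')) h3.symm

/-- Conjecture A sufficiency for at most `2 ^ n` balls: in complex dimension `m + 1`, at most
`2 ^ (m + 1)` closed balls whose capacities are less than `R` and pairwise of sum less than `R`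
pack the open ball of capacity `R`. -/
theorem pow_two_packing (m k : ℕ) (hk : k ≤ 2 ^ (m + 1)) (r : Fin k → ℝ) (R : ℝ)
    (hrR : ∀ i, r i < R) (hpair : ∀ i j, i ≠ j → r i + r j < R) :
    BallPacking (m + 1) k r R := by
  by_cases h : ∀ i, r i < R / 2
  · exact halving_packing (m + 1) k hk r R h
  · push Not at h
    obtain ⟨i0, hi0⟩ := h
    exact bigball_packing m k hk r R i0 hi0 (hrR i0) (fun j hj => by
      have := hpair j i0 hj
      linarith)

end Vale.Agent.Lib.P209
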