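import Vale.Agent.Lib.P209.Halving

open Complex ComplexConjugate Filter Topology

namespace Vale.Agent.Lib.P209

/-- One squeeze stage, in the coordinate direction `m` (the identity if `m ≥ n`). -/
noncomputable def sqStage (n : ℕ) (M ε : ℝ) (m : ℕ) :
    EuclideanSpace ℂ (Fin n) → EuclideanSpace ℂ (Fin n) :=
  if h : m < n then SQ M ε (EuclideanSpace.single (⟨m, h⟩ : Fin n) (1 : ℂ)) else id

/-- The radius bound after `m` squeeze stages. -/
noncomputable def msM (M η : ℝ) (m : ℕ) : ℝ := M + 2 * (m : ℝ) * η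

/-- The composite of the first `m` squeeze stages. -/
noncomputable def MS (n : ℕ) (M η : ℝ) :
    ℕ → EuclideanSpace ℂ (Fin n) → EuclideanSpace ℂ (Fin n)
  | 0 => id
  | m + 1 => sqStage n (msM M η m) (Real.pi * η) m ∘ MS n M η m

/-- After `m` squeeze stages: bounded norm and the first `m` coordinates nonzero. -/
def msSet (n : ℕ) (M η : ℝ) (m : ℕ) : Set (EuclideanSpace ℂ (Fin n)) :=
  {w | ‖w‖ ^ 2 < msM M η m ∧ ∀ i : Fin n, i.val < m → w i ≠ 0}

theorem msM_succ (M η : ℝ) (m : ℕ) : msM M η (m + 1) = msM M η m + 2 * η := by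
  unfold msM
  push_cast
  ring

theorem sqStage_sympOn (n : ℕ) (M ε : ℝ) (hε : 0 < ε) (m : ℕ) :
    SympOn (sqStage n M ε m) {w : EuclideanSpace ℂ (Fin n) | ‖w‖ ^ 2 < M} := by
  unfold sqStage
  by_cases h : m < n
  · simp only [h, dif_pos]
    exact SQ_sympOn M ε hε _ (norm_single_one n _)
  · simp only [h, dif_neg, not_false_eq_true]
    exact sympOn_id (isOpen_lt (continuous_norm.pow 2) continuous_const)

theorem sqStage_mapsTo (n : ℕ) (M η : ℝ) (hη : 0 < η) (m : ℕ) :
    Set.MapsTo (sqStage n (msM M η m) (Real.pi * η) m) (msSet n M η m) (msSet n M η (m + 1)) := by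
  intro w hw
  have hpi := Real.pi_pos
  have hε : 0 < Real.pi * η := mul_pos hpi hη
  unfold sqStage
  by_cases h : m < n
  · simp only [h, dif_pos]
    have he := norm_single_one n (⟨m, h⟩ : Fin n)
    refine ⟨?_, ?_⟩
    · have h1 := norm_sq_SQ_le (msM M η m) (Real.pi * η) hε _ he w hw.1
      have h2 : Real.pi⁻¹ * (Real.pi * η) = η := by field_simp
      rw [msM_succ]
      linarith
    · intro i hi
      rw [← inner_single_one n i]
      rcases Nat.lt_succ_iff_lt_or_eq.1 hi with hlt | heq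
      · have hfe : inner ℂ (EuclideanSpace.single i (1 : ℂ))
            (EuclideanSpace.single (⟨m, h⟩ : Fin n) (1 : ℂ)) = 0 := by
          rw [inner_single_one]
          have : (⟨m, h⟩ : Fin n) ≠ i := by
            intro hij
            rw [← hij] at hlt
            exact lt_irrefl _ hlt
          simp [this]
        rw [inner_SQ_of_orth _ _ _ _ _ hfe, inner_single_one]
        exact mul_ne_zero (Complex.exp_ne_zero _) (hw.2 i hlt)
      · have hi' : i = ⟨m, h⟩ := Fin.ext heq
        rw [hi']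
        exact inner_e_SQ_ne_zero (msM M η m) (Real.pi * η) hε _ he w hw.1
  · simp only [h, dif_neg, not_false_eq_true, id]
    refine ⟨?_, ?_⟩
    · rw [msM_succ]
      linarith [hw.1]
    · intro i _
      exact hw.2 i (by have := i.isLt; omega)

theorem MS_props (n : ℕ) (M η : ℝ) (hη : 0 < η) : ∀ m : ℕ,
    SympOn (MS n M η m) {w : EuclideanSpace ℂ (Fin n) | ‖w‖ ^ 2 < M} ∧
      Set.MapsTo (MS n M η m) {w : EuclideanSpace ℂ (Fin n) | ‖w‖ ^ 2 < M} (msSet n M η m) := by
  intro m
  induction m with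
  | zero =>
    refine ⟨sympOn_id (isOpen_lt (continuous_norm.pow 2) continuous_const), ?_⟩
    intro w hw
    refine ⟨?_, fun i hi => absurd hi (Nat.not_lt_zero _)⟩
    have h0 : MS n M η 0 w = w := rfl
    have h1 : msM M η 0 = M := by
      unfold msM
      simp
    rw [h0, h1]
    exact hw
  | succ m ih =>
    have hmaps : Set.MapsTo (MS n M η m) {w : EuclideanSpace ℂ (Fin n) | ‖w‖ ^ 2 < M}
        {w : EuclideanSpace ℂ (Fin n) | ‖w‖ ^ 2 < msM M η m} := fun w hw => (ih.2 hw).1
    refine ⟨ih.1.comp (sqStage_sympOn n (msM M η m) (Real.pi * η) (mul_pos Real.pi_pos hη) m)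
      hmaps, ?_⟩
    intro w hw
    exact sqStage_mapsTo n M η hη m (ih.2 hw)

/-- A closed ball of capacity `r < π c / 2` embeds symplectically into the set of points with
all coordinates nonzero and squared norm below `c / 2`. -/
theorem exists_piece (n : ℕ) (c r : ℝ) (hr : r < Real.pi * (c / 2)) :
    ∃ (f : EuclideanSpace ℂ (Fin n) → EuclideanSpace ℂ (Fin n))
      (U : Set (EuclideanSpace ℂ (Fin n))),
      SympOn f U ∧ capBall n r ⊆ U ∧ Set.MapsTo f U (Lev n c 0) := by
  have hpi := Real.pi_pos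
  have h1 : Real.pi⁻¹ * r < c / 2 := by
    rw [inv_mul_lt_iff₀ hpi]
    exact hr
  set M : ℝ := (Real.pi⁻¹ * r + c / 2) / 2 with hM
  have hM1 : Real.pi⁻¹ * r < M := by rw [hM]; linarith
  have hM2 : M < c / 2 := by rw [hM]; linarith
  set η : ℝ := (c / 2 - M) / (2 * (n : ℝ) + 2) with hη
  have hn0 : (0 : ℝ) ≤ (n : ℝ) := Nat.cast_nonneg n
  have hηpos : 0 < η := by
    rw [hη]
    exact div_pos (by linarith) (by linarith)
  have hbound : msM M η n < c / 2 := by
    unfold msM
    have h2 : 2 * (n : ℝ) * η = (c / 2 - M) * (2 * (n : ℝ) / (2 * (n : ℝ) + 2)) := by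
      rw [hη]
      field_simp
    have h3 : 2 * (n : ℝ) / (2 * (n : ℝ) + 2) < 1 := by
      rw [div_lt_one (by linarith)]
      linarith
    have h4 : (c / 2 - M) * (2 * (n : ℝ) / (2 * (n : ℝ) + 2)) < (c / 2 - M) * 1 :=
      mul_lt_mul_of_pos_left h3 (by linarith)
    linarith
  obtain ⟨hs, hm⟩ := MS_props n M η hηpos n
  refine ⟨MS n M η n, {w | ‖w‖ ^ 2 < M}, hs, ?_, ?_⟩
  · intro z hz
    rw [mem_capBall] at hz
    simp only [Set.mem_setOf_eq]
    have h5 : ‖z‖ ^ 2 ≤ Real.pi⁻¹ * r := by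
      rw [le_inv_mul_iff₀ hpi]
      exact hz
    linarith
  · intro w hw
    obtain ⟨h6, h7⟩ := hm hw
    exact mem_Lev_zero n c _ (fun i => h7 i i.isLt) (lt_trans h6 hbound)

end Vale.Agent.Lib.P209
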