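import Vale.Agent.Lib.P209.AsympFinal

open Complex ComplexConjugate Filter Topology

namespace Vale.Agent.Lib.P209.H80

open Vale.Agent.Lib.P209

/-- The shell cells: for `R / 2 ≤ ρ₀ < R` and `c < R - ρ₀` there are `2 ^ n - 1` symplectic
embeddings of the closed ball of capacity `c` (complex dimension `n = m + 1`), indexed by the
nonzero bit strings, with pairwise disjoint images inside the shell between the balls of
capacities `ρ₀` and `R`, on which the squared modulus of the coordinate `0`, times `π`,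
is at least `2 ρ₀ - R`. -/
theorem shell_maps (m : ℕ) (R ρ₀ c : ℝ) (hρ : R / 2 ≤ ρ₀) (hρR : ρ₀ < R) (hc : c < R - ρ₀) :
    ∃ F : {β : Fin (m + 1) → Bool // β ≠ fun _ => false} →
        EuclideanSpace ℂ (Fin (m + 1)) → EuclideanSpace ℂ (Fin (m + 1)),
      (∀ β, IsSympBallEmb (m + 1) c (F β)) ∧
      (∀ β, ∀ z ∈ capBall (m + 1) c, ρ₀ < Real.pi * ‖F β z‖ ^ 2 ∧
        Real.pi * ‖F β z‖ ^ 2 < R ∧ 2 * ρ₀ - R ≤ Real.pi * ‖F β z 0‖ ^ 2) ∧
      (∀ β β', β ≠ β' →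
        Disjoint (F β '' capBall (m + 1) c) (F β' '' capBall (m + 1) c)) := by
  have hpi := Real.pi_pos
  set s : ℝ := R - ρ₀ with hs
  have hs0 : 0 < s := by rw [hs]; linarith
  set c₂ : ℝ := Real.pi⁻¹ * (2 * s) with hc₂
  set cR : ℝ := Real.pi⁻¹ * R with hcR
  have hpicR : Real.pi * cR = R := by
    rw [hcR]
    field_simp
  have hpic₂ : Real.pi * (c₂ / 2) = s := by
    rw [hc₂]
    field_simp
  have hpic₂' : Real.pi * c₂ = 2 * s := by
    rw [hc₂]
    field_simp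
  have hle : c₂ ≤ cR := by
    rw [hc₂, hcR]
    exact mul_le_mul_of_nonneg_left (by rw [hs]; linarith) (inv_pos.2 hpi).le
  set e : EuclideanSpace ℂ (Fin (m + 1)) := EuclideanSpace.single (0 : Fin (m + 1)) (1 : ℂ)
    with he_def
  have he : ‖e‖ = 1 := norm_single_one (m + 1) 0
  obtain ⟨p, U, hp, hU, hmaps⟩ := exists_piece (m + 1) c₂ c (by rw [hpic₂]; exact hc)
  set Ω : EuclideanSpace ℂ (Fin (m + 1)) → EuclideanSpace ℂ (Fin (m + 1)) :=
    GG 0 1 cR e ∘ GG 0 1 c₂ e with hΩ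
  obtain ⟨hΩs, hΩn⟩ := outer_props m c₂ cR hle
  set g : {β : Fin (m + 1) → Bool // β ≠ fun _ => false} →
      EuclideanSpace ℂ (Fin (m + 1)) → EuclideanSpace ℂ (Fin (m + 1)) :=
    fun β => GH (m + 1) c₂ (extBits (m + 1) β.1) (m + 1) ∘ p with hg
  have hmid : ∀ β, ∀ z ∈ capBall (m + 1) c,
      g β z ∈ Lev (m + 1) c₂ (m + 1) ∧ c₂ / 2 < ‖g β z‖ ^ 2 ∧ ‖g β z‖ ^ 2 < c₂ := by
    intro β z hz
    have hw := hmaps (hU hz)
    exact ⟨(GH_props (m + 1) c₂ _ (m + 1)).2 hw,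
      GH_far (m + 1) c₂ (m + 1) le_rfl _ (extBits_true (m + 1) β.1 β.2) _ hw,
      GH_norm_lt (m + 1) c₂ _ _ hw⟩
  have hcoord : ∀ y ∈ Lev (m + 1) c₂ (m + 1), cR - c₂ ≤ ‖Ω y 0‖ ^ 2 := by
    intro y hy
    have h1 : ‖y‖ ^ 2 < c₂ := by
      have h := hy.2
      rw [Qge_top] at h
      simpa using h
    have h2 : inner ℂ e y ≠ 0 := by
      rw [he_def, inner_single_one]
      exact hy.1 0
    have h3 := norm_sq_GG_zero_one c₂ e he y h1 h2
    have h4 := norm_sq_inner_GG_zero_one c₂ e he y h1 h2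
    have h5 : 0 < ‖inner ℂ e y‖ ^ 2 := pow_pos (norm_pos_iff.2 h2) 2
    have h6 : ‖GG 0 1 c₂ e y‖ ^ 2 < cR := by linarith
    have h7 : inner ℂ e (GG 0 1 c₂ e y) ≠ 0 := by
      intro h0
      rw [h0, norm_zero] at h4
      have : (0 : ℝ) ^ 2 = 0 := by norm_num
      linarith
    have h8 := norm_sq_inner_GG_zero_one cR e he _ h6 h7
    have h9 : inner ℂ e (Ω y) = Ω y 0 := by rw [he_def, inner_single_one]
    have h10 : ‖Ω y 0‖ ^ 2 = cR - ‖GG 0 1 c₂ e y‖ ^ 2 := by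
      rw [← h9]
      exact h8
    rw [h10, h3]
    linarith
  have hnorm : ∀ β, ∀ z ∈ capBall (m + 1) c,
      cR - c₂ / 2 < ‖Ω (g β z)‖ ^ 2 ∧ ‖Ω (g β z)‖ ^ 2 < cR := by
    intro β z hz
    obtain ⟨h1, h2, h3⟩ := hmid β z hz
    have h5 : ‖Ω (g β z)‖ ^ 2 = cR - c₂ + ‖g β z‖ ^ 2 := hΩn (g β z) h1
    constructor <;> linarith
  refine ⟨fun β => Ω ∘ g β, ?_, ?_, ?_⟩
  · intro β
    have hs1 : SympOn (g β) U := hp.comp (GH_props (m + 1) c₂ _ (m + 1)).1 hmaps
    have hm1 : Set.MapsTo (g β) U (Lev (m + 1) c₂ (m + 1)) := fun z hz =>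
      (GH_props (m + 1) c₂ _ (m + 1)).2 (hmaps hz)
    exact (hs1.comp hΩs hm1).isSympBallEmb hU
  · intro β z hz
    obtain ⟨h1, h2⟩ := hnorm β z hz
    have h3 := hcoord (g β z) (hmid β z hz).1
    have e1 : Real.pi * (cR - c₂ / 2) = ρ₀ := by
      have : Real.pi * (cR - c₂ / 2) = Real.pi * cR - Real.pi * (c₂ / 2) := by ring
      rw [this, hpicR, hpic₂, hs]
      ring
    have e2 : Real.pi * (cR - c₂) = 2 * ρ₀ - R := by
      have : Real.pi * (cR - c₂) = Real.pi * cR - Real.pi * c₂ := by ring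
      rw [this, hpicR, hpic₂', hs]
      ring
    refine ⟨?_, ?_, ?_⟩
    · have := mul_lt_mul_of_pos_left h1 hpi
      rw [e1] at this
      exact this
    · have := mul_lt_mul_of_pos_left h2 hpi
      rw [hpicR] at this
      exact this
    · have := mul_le_mul_of_nonneg_left h3 hpi.le
      rw [e2] at this
      exact this
  · intro β β' hne
    rw [Set.disjoint_left]
    rintro y ⟨z, hz, rfl⟩ ⟨z', hz', heq⟩
    have h1 := (hmid β z hz).1
    have h2 := (hmid β' z' hz').1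
    have h3 : g β' z' = g β z := hΩs.2.2.1 h2 h1 heq
    have hne' : β.1 ≠ β'.1 := fun h => hne (Subtype.ext h)
    exact GH_disjoint (m + 1) c₂ (m + 1) le_rfl _ _ (extBits_ne (m + 1) _ _ hne') _
      (hmaps (hU hz)) _ (hmaps (hU hz')) h3.symm

/-- Pairwise disjoint cells inside the simplex, together with a family of further embedded
balls whose moment images miss the cells, give a ball packing. -/
theorem packing_cells_big (n : ℕ) {β ι : Type} (ρ : β → ℝ) (R : ℝ)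
    (F : β → EuclideanSpace ℂ (Fin n) → EuclideanSpace ℂ (Fin n))
    (hF : ∀ b, IsSympBallEmb n (ρ b) (F b))
    (hFin : ∀ b, F b '' capBall n (ρ b) ⊆ openCapBall n R)
    (hFd : ∀ b b', b ≠ b' → Disjoint (F b '' capBall n (ρ b)) (F b' '' capBall n (ρ b')))
    (κ : ι → Fin n → ℝ) (s : ι → ℝ) (σ : ι → Equiv.Perm (Fin n)) (r : ι → ℝ)
    (hκ : ∀ i j, 0 ≤ κ i j) (hr : ∀ i, r i < Real.pi * s i)
    (hin : ∀ i, ∀ x ∈ Cell n (κ i) (s i) (σ i), Real.pi * ∑ j, x j < R)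
    (hdisj : ∀ i i', i ≠ i' →
      Disjoint (Cell n (κ i) (s i) (σ i)) (Cell n (κ i') (s i') (σ i')))
    (hsep : ∀ b i, ∀ z ∈ capBall n (ρ b),
      (fun j => ‖F b z j‖ ^ 2) ∉ Cell n (κ i) (s i) (σ i)) :
    BallPackingOn n (β ⊕ ι) (Sum.elim ρ r) R := by
  choose f U hs hcap hcell using fun i =>
    exists_cell_emb n (κ i) (hκ i) (s i) (σ i) (r i) (hr i)
  have hcross : ∀ b i, Disjoint (F b '' capBall n (ρ b)) (f i '' capBall n (r i)) := by
    intro b i
    rw [Set.disjoint_left]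
    rintro y ⟨z, hz, rfl⟩ ⟨z', hz', hzz'⟩
    have h1 := hcell i z' (hcap i hz')
    rw [hzz'] at h1
    exact hsep b i z hz h1
  refine ⟨Sum.elim F f, ?_, ?_, ?_⟩
  · rintro (b | i)
    · exact hF b
    · exact (hs i).isSympBallEmb (hcap i)
  · rintro (b | i)
    · exact hFin b
    · rintro y ⟨z, hz, rfl⟩
      exact hin i _ (hcell i z (hcap i hz))
  · rintro (b | i) (b' | i') hne
    · exact hFd b b' (fun h => hne (congrArg Sum.inl h))
    · exact hcross b i'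
    · exact (hcross b' i).symm
    · have hii' : i ≠ i' := fun h => hne (congrArg Sum.inr h)
      rw [Set.disjoint_left]
      rintro y ⟨z, hz, rfl⟩ ⟨z', hz', hzz'⟩
      have h1 := hcell i z (hcap i hz)
      have h2 := hcell i' z' (hcap i' hz')
      have hzz'' : f i' z' = f i z := hzz'
      rw [hzz''] at h2
      exact Set.disjoint_left.1 (hdisj i i' hii') h1 h2

/-- Grid packing together with a family of further embedded balls whose moment images miss the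
open cubes of the grid cells. -/
theorem grid_packing_big (n : ℕ) (hn : 0 < n) {β ι : Type} (ρ : β → ℝ) (R : ℝ)
    (F : β → EuclideanSpace ℂ (Fin n) → EuclideanSpace ℂ (Fin n))
    (hF : ∀ b, IsSympBallEmb n (ρ b) (F b))
    (hFin : ∀ b, F b '' capBall n (ρ b) ⊆ openCapBall n R)
    (hFd : ∀ b b', b ≠ b' → Disjoint (F b '' capBall n (ρ b)) (F b' '' capBall n (ρ b')))
    (a : ι → Fin n → ℕ) (t : ι → ℕ)
    (b : ι → Fin n → ℕ) (σ : ι → Equiv.Perm (Fin n)) (N : ℕ) (H : ℝ) (r : ι → ℝ)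
    (hH : 0 < H) (hNH : Real.pi * (N * H) ≤ R)
    (ht : ∀ i, 1 ≤ t i) (hb : ∀ i j, b i j < t i)
    (ha : ∀ i, ∑ j, (a i j + 1) ≤ N)
    (hsep : ∀ i i', i ≠ i' → a i = a i' → t i = t i' ∧ (b i = b i' → σ i ≠ σ i'))
    (hr : ∀ i, r i < Real.pi * (H / t i))
    (hbig : ∀ bb i, ∀ z ∈ capBall n (ρ bb),
      ¬ ∀ j, (a i j : ℝ) * H < ‖F bb z j‖ ^ 2 ∧ ‖F bb z j‖ ^ 2 < ((a i j : ℝ) + 1) * H) :
    BallPackingOn n (β ⊕ ι) (Sum.elim ρ r) R := by
  have htpos : ∀ i, (0 : ℝ) < (t i : ℝ) := fun i => by exact_mod_cast ht i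
  have hfrac : ∀ i j, ((b i j : ℝ) + 1) / (t i : ℝ) ≤ 1 := by
    intro i j
    rw [div_le_one (htpos i)]
    exact_mod_cast hb i j
  have hcorner : ∀ i j, ((a i j : ℝ) + (b i j : ℝ) / (t i : ℝ)) * H + H / (t i : ℝ) ≤
      ((a i j : ℝ) + 1) * H := by
    intro i j
    have h1 : ((a i j : ℝ) + (b i j : ℝ) / (t i : ℝ)) * H + H / (t i : ℝ) =
        ((a i j : ℝ) + ((b i j : ℝ) + 1) / (t i : ℝ)) * H := by
      ring
    rw [h1]
    have h2 := hfrac i j
    nlinarith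
  have hbnn : ∀ i j, (0 : ℝ) ≤ (b i j : ℝ) / (t i : ℝ) := fun i j =>
    div_nonneg (Nat.cast_nonneg _) (htpos i).le
  refine packing_cells_big n ρ R F hF hFin hFd
    (fun i j => ((a i j : ℝ) + (b i j : ℝ) / (t i : ℝ)) * H)
    (fun i => H / (t i : ℝ)) σ r ?_ hr ?_ ?_ ?_
  · intro i j
    have h1 : (0 : ℝ) ≤ (a i j : ℝ) := Nat.cast_nonneg _
    have h2 := hbnn i j
    positivity
  · intro i x hx
    have h1 : ∀ j, x j < ((a i j : ℝ) + 1) * H := by
      intro j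
      have h2 := (cell_coord n _ _ _ x hx j).2
      have h3 := hcorner i j
      linarith
    have h4 : ∑ j, x j < ∑ j, ((a i j : ℝ) + 1) * H :=
      Finset.sum_lt_sum_of_nonempty (Finset.univ_nonempty_iff.2 ⟨⟨0, hn⟩⟩) fun j _ => h1 j
    have h5 : ∑ j, ((a i j : ℝ) + 1) * H ≤ N * H := by
      rw [← Finset.sum_mul]
      have h6 : ∑ j, ((a i j : ℝ) + 1) ≤ (N : ℝ) := by
        exact_mod_cast ha i
      exact mul_le_mul_of_nonneg_right h6 hH.le
    have hpi := Real.pi_pos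
    have h7 : Real.pi * ∑ j, x j < Real.pi * (N * H) :=
      mul_lt_mul_of_pos_left (lt_of_lt_of_le h4 h5) hpi
    linarith
  · intro i i' hii'
    by_cases haa : a i = a i'
    · obtain ⟨htt, hbσ⟩ := hsep i i' hii' haa
      by_cases hbb : b i = b i'
      · have hσ := hbσ hbb
        have hκ : (fun j => ((a i j : ℝ) + (b i j : ℝ) / (t i : ℝ)) * H) =
            (fun j => ((a i' j : ℝ) + (b i' j : ℝ) / (t i' : ℝ)) * H) := by
          rw [haa, hbb, htt]
        show Disjoint (Cell n (fun j => ((a i j : ℝ) + (b i j : ℝ) / (t i : ℝ)) * H) _ _)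
          (Cell n (fun j => ((a i' j : ℝ) + (b i' j : ℝ) / (t i' : ℝ)) * H) _ _)
        rw [← hκ]
        exact cell_disjoint_of_perm n _ _ _ _ _ hσ
      · have hex : ∃ j, b i j ≠ b i' j := by
          by_contra hcon
          push Not at hcon
          exact hbb (funext hcon)
        obtain ⟨j, hj⟩ := hex
        have key : ∀ i₁ i₂ : ι, a i₁ = a i₂ → t i₁ = t i₂ → b i₁ j < b i₂ j →
            ((a i₁ j : ℝ) + (b i₁ j : ℝ) / (t i₁ : ℝ)) * H + H / (t i₁ : ℝ) ≤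
              ((a i₂ j : ℝ) + (b i₂ j : ℝ) / (t i₂ : ℝ)) * H := by
          intro i₁ i₂ h1 h2 h3
          have h4 : ((a i₁ j : ℝ) + (b i₁ j : ℝ) / (t i₁ : ℝ)) * H + H / (t i₁ : ℝ) =
              ((a i₁ j : ℝ) + ((b i₁ j : ℝ) + 1) / (t i₁ : ℝ)) * H := by
            ring
          rw [h4, h1, h2]
          have h5 : ((b i₁ j : ℝ) + 1) / (t i₂ : ℝ) ≤ (b i₂ j : ℝ) / (t i₂ : ℝ) := by
            apply div_le_div_of_nonneg_right _ (htpos i₂).le
            exact_mod_cast h3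
          nlinarith
        rcases lt_or_gt_of_ne hj with hlt | hgt
        · exact cell_disjoint_of_sep n _ _ _ _ _ _ j (key i i' haa htt hlt)
        · exact (cell_disjoint_of_sep n _ _ _ _ _ _ j (key i' i haa.symm htt.symm hgt)).symm
    · have hex : ∃ j, a i j ≠ a i' j := by
        by_contra hcon
        push Not at hcon
        exact haa (funext hcon)
      obtain ⟨j, hj⟩ := hex
      have key : ∀ i₁ i₂ : ι, a i₁ j < a i₂ j →
          ((a i₁ j : ℝ) + (b i₁ j : ℝ) / (t i₁ : ℝ)) * H + H / (t i₁ : ℝ) ≤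
            ((a i₂ j : ℝ) + (b i₂ j : ℝ) / (t i₂ : ℝ)) * H := by
        intro i₁ i₂ h3
        have h4 := hcorner i₁ j
        have h5 : ((a i₁ j : ℝ) + 1) ≤ (a i₂ j : ℝ) := by exact_mod_cast h3
        have h6 := hbnn i₂ j
        nlinarith
      rcases lt_or_gt_of_ne hj with hlt | hgt
      · exact cell_disjoint_of_sep n _ _ _ _ _ _ j (key i i' hlt)
      · exact (cell_disjoint_of_sep n _ _ _ _ _ _ j (key i' i hgt)).symm
  · intro bb i z hz hmem
    apply hbig bb i z hz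
    intro j
    have h2 := cell_coord n _ _ _ _ hmem j
    have h3 := hcorner i j
    have h4 := hbnn i j
    have h5 : (a i j : ℝ) * H ≤ ((a i j : ℝ) + (b i j : ℝ) / (t i : ℝ)) * H := by
      have := mul_nonneg h4 hH.le
      nlinarith
    constructor
    · exact lt_of_le_of_lt h5 h2.1
    · exact lt_of_lt_of_le h2.2 h3

/-- The grid of cells of `outer_grid` together with a family of further embedded balls whose
moment images miss the open cubes used by the grid. -/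
theorem outer_grid_big (m M K : ℕ) (hM : 1 ≤ M) (mτ : Fin M → ℕ)
    (ψ : (Σ τ : Fin M, Fin (mτ τ)) ↪ Sym (Fin (m + 1 + 1)) K) (ρ : Fin M → ℝ) (R : ℝ)
    (hR : 0 < R)
    (hρ : ∀ τ : Fin M, ρ τ < R / (((K + (m + 1) : ℕ) : ℝ) * ((M + τ.val : ℕ) : ℝ)))
    {β : Type} (ρb : β → ℝ)
    (F : β → EuclideanSpace ℂ (Fin (m + 1)) → EuclideanSpace ℂ (Fin (m + 1)))
    (hF : ∀ b, IsSympBallEmb (m + 1) (ρb b) (F b))
    (hFin : ∀ b, F b '' capBall (m + 1) (ρb b) ⊆ openCapBall (m + 1) R)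
    (hFd : ∀ b b', b ≠ b' →
      Disjoint (F b '' capBall (m + 1) (ρb b)) (F b' '' capBall (m + 1) (ρb b')))
    (hbig : ∀ bb (x : Σ τ : Fin M, Fin (mτ τ)), ∀ z ∈ capBall (m + 1) (ρb bb),
      ¬ ∀ j, (cubeOf (m + 1) K (ψ x) j : ℝ) * (R / (Real.pi * ((K + (m + 1) : ℕ) : ℝ))) <
            ‖F bb z j‖ ^ 2 ∧
          ‖F bb z j‖ ^ 2 <
            ((cubeOf (m + 1) K (ψ x) j : ℝ) + 1) * (R / (Real.pi * ((K + (m + 1) : ℕ) : ℝ)))) :
    BallPackingOn (m + 1) (β ⊕ Σ τ : Fin M, GBin (m + 1) M mτ τ)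
      (Sum.elim ρb (fun g => ρ g.1)) R := by
  have hpi := Real.pi_pos
  set N : ℕ := K + (m + 1) with hN
  have hN0 : (0 : ℝ) < (N : ℝ) := by exact_mod_cast (by omega : 0 < N)
  set H : ℝ := R / (Real.pi * N) with hH
  have hHpos : 0 < H := by rw [hH]; positivity
  refine grid_packing_big (m + 1) (Nat.succ_pos m) (ι := Σ τ : Fin M, GBin (m + 1) M mτ τ)
    ρb R F hF hFin hFd
    (fun g => cubeOf (m + 1) K (ψ ⟨g.1, g.2.1⟩)) (fun g => M + g.1.val)
    (fun g j => (g.2.2.1 j).val) (fun g => g.2.2.2) N H (fun g => ρ g.1) hHpos ?_ ?_ ?_ ?_ ?_ ?_ ?_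
  · have h1 : Real.pi * ((N : ℝ) * H) = R := by
      rw [hH]
      field_simp
    rw [h1]
  · intro g
    omega
  · intro g j
    exact (g.2.2.1 j).isLt
  · intro g
    exact cubeOf_sum_le (m + 1) K _
  · rintro ⟨τ, c, b, σ⟩ ⟨τ', c', b', σ'⟩ hne hag
    have h1 := ψ.injective (cubeOf_injective (m + 1) K hag)
    have h2 : τ = τ' := congrArg Sigma.fst h1
    subst h2
    have h3 : c = c' := eq_of_heq (Sigma.mk.inj_iff.1 h1).2
    subst h3
    refine ⟨rfl, fun hbb hσ => hne ?_⟩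
    have h4 : b = b' := funext fun j => Fin.ext (congrFun hbb j)
    have h5 : σ = σ' := hσ
    rw [h4, h5]
  · intro g
    have h1 := hρ g.1
    have hpos : (0 : ℝ) < ((M + g.1.val : ℕ) : ℝ) := by
      exact_mod_cast (by omega : 0 < M + g.1.val)
    have h2 : Real.pi * (H / ((M + g.1.val : ℕ) : ℝ)) =
        R / ((N : ℝ) * ((M + g.1.val : ℕ) : ℝ)) := by
      rw [hH]
      field_simp
    rw [h2]
    exact h1
  · intro bb g z hz
    exact hbig bb ⟨g.1, g.2.1⟩ z hz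

end Vale.Agent.Lib.P209.H80
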