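import Vale.Agent.Lib.P209.ShellCore
import Vale.Agent.Lib.P209.HalfCells
import Vale.Agent.Lib.P209.helper33.ParamsBig

open Complex ComplexConjugate Filter Topology

namespace Vale.Agent.Lib.P209.H80

open Vale.Agent.Lib.P209

theorem not_mem_capBall_neg (n : ℕ) (z : EuclideanSpace ℂ (Fin n)) : z ∉ capBall n (-1) := by
  intro hz
  rw [mem_capBall] at hz
  have h1 : 0 ≤ Real.pi * ‖z‖ ^ 2 := mul_nonneg Real.pi_pos.le (sq_nonneg _)
  linarith

/-- The outer packing for one big ball of capacity `ρ₀ ≥ R / 2`: the closed ball of capacity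
`ρ₀`, the shell cells of capacity `c`, and containers for the small balls of the set `A`,
whose total volume is at most the volume left outside the big ball and the shell corner,
up to the factor `1 - ε`. -/
theorem shell_outer (m M K : ℕ) (hM : 1 ≤ M) (ε : ℝ)
    (hP : (M : ℝ) * ((m + 1).factorial : ℝ) +
        ((((K + (m + 1) : ℕ) : ℝ) * (1 + 1 / (M : ℝ))) ^ (m + 1)) * (1 - ε) +
        3 * ((((K + (m + 1) : ℕ) : ℝ) + ((m : ℝ) + 1)) ^ (m + 1) -
          ((K + (m + 1) : ℕ) : ℝ) ^ (m + 1)) ≤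
      ((K : ℝ) + 1) ^ (m + 1))
    (R ρ₀ c : ℝ) (hR : 0 < R) (hρ : R / 2 ≤ ρ₀) (hρR : ρ₀ < R) (hc : c < R - ρ₀)
    (k : ℕ) (r : Fin k → ℝ) (A : Finset (Fin k)) (hr : ∀ i ∈ A, 0 < r i)
    (hsmall : ∀ i ∈ A, r i < R / (((K + (m + 1) : ℕ) : ℝ) * (M : ℝ)))
    (hV : ∑ i ∈ A, r i ^ (m + 1) ≤ max 0 ((1 - ε) * R ^ (m + 1) - ρ₀ ^ (m + 1) -
      ((2 : ℝ) ^ (m + 1) - 1) * (R - ρ₀) ^ (m + 1))) :
    ∃ (κ₂ : Type) (ρ₂ : κ₂ → ℝ) (Φ : Fin k → κ₂),
      BallPackingOn (m + 1) (Option (SCell m) ⊕ κ₂)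
        (Sum.elim (fun o => Option.elim o ρ₀ (fun _ => c)) ρ₂) R ∧
      ∀ g : κ₂, BallPackingOn (m + 1) {i : Fin k // i ∈ A ∧ Φ i = g}
        (fun i => r i.val) (ρ₂ g) := by
  classical
  rcases A.eq_empty_or_nonempty with hA | hA
  · -- no small ball: only the big family
    obtain ⟨F, hFe, hFin, hFd, -⟩ := shell_family m K R ρ₀ c hR hρ hρR hc
    refine ⟨Unit, fun _ => -1, fun _ => (), ?_, ?_⟩
    · refine ⟨Sum.elim F (fun _ => id), ?_, ?_, ?_⟩
      · rintro (b | u)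
        · exact hFe b
        · exact id_isSympBallEmb (m + 1) (-1)
      · rintro (b | u)
        · exact hFin b
        · rintro y ⟨z, hz, rfl⟩
          exact absurd hz (not_mem_capBall_neg (m + 1) z)
      · rintro (b | u) (b' | u') hne
        · exact hFd b b' (fun h => hne (congrArg Sum.inl h))
        · rw [Set.disjoint_left]
          rintro y _ ⟨z, hz, _⟩
          exact absurd hz (not_mem_capBall_neg (m + 1) z)
        · rw [Set.disjoint_left]
          rintro y ⟨z, hz, _⟩ _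
          exact absurd hz (not_mem_capBall_neg (m + 1) z)
        · exact absurd rfl hne
    · intro g
      have hemp : IsEmpty {i : Fin k // i ∈ A ∧ (fun _ : Fin k => ()) i = g} :=
        ⟨fun i => by
          have h : i.val ∈ A := i.2.1
          have h2 : i.val ∈ (∅ : Finset (Fin k)) := hA ▸ h
          exact absurd h2 (Finset.notMem_empty _)⟩
      exact ballPackingOn_of_subsingleton (m + 1) _ _ _ (fun i => isEmptyElim i)
  · -- transport to an enumeration of `A`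
    obtain ⟨i₁, hi₁⟩ := hA
    have hpos : 0 < ∑ i ∈ A, r i ^ (m + 1) :=
      Finset.sum_pos (fun i hi => pow_pos (hr i hi) _) ⟨i₁, hi₁⟩
    have hV' : ρ₀ ^ (m + 1) + ((2 : ℝ) ^ (m + 1) - 1) * (R - ρ₀) ^ (m + 1) +
        ∑ i ∈ A, r i ^ (m + 1) ≤ (1 - ε) * R ^ (m + 1) := by
      rcases le_max_iff.1 hV with h | h
      · linarith
      · linarith
    set e : {x // x ∈ A} ≃ Fin A.card := A.equivFin with he
    set r' : Fin A.card → ℝ := fun j => r (e.symm j).val with hr'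
    have hsum : ∑ j, r' j ^ (m + 1) = ∑ i ∈ A, r i ^ (m + 1) := by
      rw [← Finset.sum_coe_sort A (fun i => r i ^ (m + 1))]
      exact Equiv.sum_comp e.symm (fun i : {x // x ∈ A} => r i.val ^ (m + 1))
    obtain ⟨κ₂, ρ₂, Φ', hout, hin⟩ := shell_core m M K hM ε hP R ρ₀ c hR hρ hρR hc A.card r'
      (fun j => hr _ (e.symm j).2) (fun j => hsmall _ (e.symm j).2) (by rw [hsum]; exact hV')
    refine ⟨κ₂, ρ₂, fun i => if h : i ∈ A then Φ' (e ⟨i, h⟩) else Φ' (e ⟨i₁, hi₁⟩), hout, ?_⟩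
    intro g
    let E : {i : Fin k // i ∈ A ∧
        (if h : i ∈ A then Φ' (e ⟨i, h⟩) else Φ' (e ⟨i₁, hi₁⟩)) = g} ≃
        {j : Fin A.card // Φ' j = g} :=
      { toFun := fun i => ⟨e ⟨i.val, i.2.1⟩, by
          have h := i.2.2
          rw [dif_pos i.2.1] at h
          exact h⟩
        invFun := fun j => ⟨(e.symm j.val).val, (e.symm j.val).2, by
          rw [dif_pos (e.symm j.val).2]
          simp only [Subtype.coe_eta, Equiv.apply_symm_apply]
          exact j.2⟩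
        left_inv := fun i => by
          apply Subtype.ext
          simp
        right_inv := fun j => by
          apply Subtype.ext
          simp }
    have h1 := BallPackingOn.comp_equiv E (fun j => r' j.val) (ρ₂ g) (hin g)
    have hfun : (fun i : {i : Fin k // i ∈ A ∧
        (if h : i ∈ A then Φ' (e ⟨i, h⟩) else Φ' (e ⟨i₁, hi₁⟩)) = g} => r' (E i).val) =
        fun i => r i.val := by
      funext i
      show r (e.symm (e ⟨i.val, i.2.1⟩)).val = r i.val
      rw [Equiv.symm_apply_apply]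
    rw [hfun] at h1
    exact h1

/-- A difference of powers: `a ^ (n + 1) - b ^ (n + 1) ≤ (n + 1) (a - b) T ^ n` for
`0 ≤ b ≤ a ≤ T`. -/
theorem pow_succ_sub_le (a b T : ℝ) (hb : 0 ≤ b) (hba : b ≤ a) (haT : a ≤ T) : ∀ n : ℕ,
    a ^ (n + 1) - b ^ (n + 1) ≤ ((n : ℝ) + 1) * (a - b) * T ^ n := by
  intro n
  induction n with
  | zero => simp
  | succ n ih =>
    have ha : 0 ≤ a := hb.trans hba
    have hT : 0 ≤ T := ha.trans haT
    have hab : 0 ≤ a - b := by linarith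
    have h1 : b ^ (n + 1) ≤ T ^ (n + 1) := pow_le_pow_left₀ hb (hba.trans haT) _
    have h2 : a * (a ^ (n + 1) - b ^ (n + 1)) ≤ T * (((n : ℝ) + 1) * (a - b) * T ^ n) := by
      have h3 : 0 ≤ ((n : ℝ) + 1) * (a - b) * T ^ n := by positivity
      calc a * (a ^ (n + 1) - b ^ (n + 1)) ≤ a * (((n : ℝ) + 1) * (a - b) * T ^ n) :=
            mul_le_mul_of_nonneg_left ih ha
        _ ≤ T * (((n : ℝ) + 1) * (a - b) * T ^ n) := mul_le_mul_of_nonneg_right haT h3
    have h4 : (a - b) * b ^ (n + 1) ≤ (a - b) * T ^ (n + 1) :=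
      mul_le_mul_of_nonneg_left h1 hab
    have e1 : a ^ (n + 1 + 1) - b ^ (n + 1 + 1) =
        a * (a ^ (n + 1) - b ^ (n + 1)) + (a - b) * b ^ (n + 1) := by ring
    have e2 : (((n + 1 : ℕ) : ℝ) + 1) * (a - b) * T ^ (n + 1) =
        T * (((n : ℝ) + 1) * (a - b) * T ^ n) + (a - b) * T ^ (n + 1) := by
      push_cast
      ring
    rw [e1, e2]
    linarith

/-- The number of shell cells. -/
theorem card_SCell (m : ℕ) : Fintype.card (SCell m) = 2 ^ (m + 1) - 1 := by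
  classical
  have h1 : Fintype.card (SCell m) =
      Fintype.card (Fin (m + 1) → Bool) -
        Fintype.card {β : Fin (m + 1) → Bool // β = fun _ => false} :=
    Fintype.card_subtype_compl (fun β : Fin (m + 1) → Bool => β = fun _ => false)
  rw [h1, Fintype.card_subtype_eq]
  simp

/-- Comparison of the error terms of the two numerical conditions. -/
theorem three_E_le (m : ℕ) (x : ℝ) (hx : 0 ≤ x) :
    3 * ((x + ((m : ℝ) + 1)) ^ (m + 1) - x ^ (m + 1)) ≤
      (((m : ℝ) + 1) + 1) * ((x + (((m : ℝ) + 1) + 1)) ^ (m + 1) - x ^ (m + 1)) := by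
  have hm0 : (0 : ℝ) ≤ (m : ℝ) := Nat.cast_nonneg m
  have h1 : (x + ((m : ℝ) + 1)) ^ (m + 1) ≤ (x + (((m : ℝ) + 1) + 1)) ^ (m + 1) :=
    pow_le_pow_left₀ (by linarith) (by linarith) _
  have h2 : x ^ (m + 1) ≤ (x + ((m : ℝ) + 1)) ^ (m + 1) :=
    pow_le_pow_left₀ hx (by linarith) _
  rcases Nat.eq_zero_or_pos m with hm | hm
  · subst hm
    norm_num
  · have hm1 : (1 : ℝ) ≤ (m : ℝ) := by exact_mod_cast hm
    have h3 : 0 ≤ (x + (((m : ℝ) + 1) + 1)) ^ (m + 1) - x ^ (m + 1) := by linarith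
    nlinarith

/-- Filling one cell: at most one large ball and small balls within the budget of the
cell. -/
theorem cell_fill (m : ℕ) (ε₂ δ' : ℝ)
    (hcell : ∀ (ι : Type) [Fintype ι] (r : ι → ℝ) (R : ℝ) (B : Finset ι),
      0 < R → (∀ i, 0 < r i) → B.card ≤ 1 → (∀ i ∈ B, r i < R) →
      (∀ i ∈ B, ∀ j ∈ B, i ≠ j → r i + r j < R) → (∀ i, i ∉ B → r i ≤ δ' * R) →
      ∑ i, r i ^ (m + 1) ≤ (1 - ε₂) * R ^ (m + 1) → BallPackingOn (m + 1) ι r R)
    (ι : Type) [Fintype ι] [DecidableEq ι] (r : ι → ℝ) (c : ℝ) (hc : 0 < c)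
    (hr : ∀ i, 0 < r i)
    (Lg : Finset ι) (hL1 : Lg.card ≤ 1) (hLc : ∀ i ∈ Lg, r i < c)
    (hS : ∀ i, i ∉ Lg → r i ≤ δ' * c)
    (hvol : ∑ i, (if i ∈ Lg then (0 : ℝ) else r i ^ (m + 1)) ≤
      max 0 ((1 - ε₂) * c ^ (m + 1) - ∑ i ∈ Lg, r i ^ (m + 1))) :
    BallPackingOn (m + 1) ι r c := by
  have hsplit : ∑ i, r i ^ (m + 1) =
      ∑ i ∈ Lg, r i ^ (m + 1) + ∑ i, (if i ∈ Lg then (0 : ℝ) else r i ^ (m + 1)) := by
    have h1 : ∑ i ∈ Lg, r i ^ (m + 1) = ∑ i, (if i ∈ Lg then r i ^ (m + 1) else 0) := by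
      rw [Finset.sum_ite_mem, Finset.univ_inter]
    rw [h1, ← Finset.sum_add_distrib]
    apply Finset.sum_congr rfl
    intro i _
    by_cases hi : i ∈ Lg <;> simp [hi]
  have hpair : ∀ i ∈ Lg, ∀ j ∈ Lg, i ≠ j → r i + r j < c := by
    intro i hi j hj hij
    exact absurd (Finset.card_le_one.1 hL1 i hi j hj) hij
  by_cases hW : (1 - ε₂) * c ^ (m + 1) < ∑ i ∈ Lg, r i ^ (m + 1)
  · -- the large ball nearly fills the cell: it is alone
    have hβ0 : max 0 ((1 - ε₂) * c ^ (m + 1) - ∑ i ∈ Lg, r i ^ (m + 1)) = 0 :=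
      max_eq_left (by linarith)
    rw [hβ0] at hvol
    have hnn : ∀ i ∈ (Finset.univ : Finset ι),
        0 ≤ (if i ∈ Lg then (0 : ℝ) else r i ^ (m + 1)) := by
      intro i _
      by_cases hi : i ∈ Lg
      · simp [hi]
      · simp only [hi, if_false]
        exact (pow_pos (hr i) _).le
    have hz := (Finset.sum_eq_zero_iff_of_nonneg hnn).mp
      (le_antisymm hvol (Finset.sum_nonneg hnn))
    have hall : ∀ i, i ∈ Lg := by
      intro i
      by_contra hi
      have h2 := hz i (Finset.mem_univ i)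
      simp only [hi, if_false] at h2
      exact absurd h2 (pow_pos (hr i) _).ne'
    have hsub : Subsingleton ι :=
      ⟨fun i j => Finset.card_le_one.1 hL1 i (hall i) j (hall j)⟩
    exact ballPackingOn_of_subsingleton (m + 1) ι r c (fun i => hLc i (hall i))
  · push Not at hW
    have hβ : max 0 ((1 - ε₂) * c ^ (m + 1) - ∑ i ∈ Lg, r i ^ (m + 1)) =
        (1 - ε₂) * c ^ (m + 1) - ∑ i ∈ Lg, r i ^ (m + 1) :=
      max_eq_right (by linarith)
    rw [hβ] at hvol
    exact hcell ι r c Lg hc hr hL1 hLc hpair hS (by rw [hsplit]; linarith)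

/-- The arithmetic of the budgets in the case of one big ball. -/
theorem shell_arith (m : ℕ) (ε₁ δ R ρ₀ η : ℝ) (hR : 0 < R) (hε₁ : 0 < ε₁) (hδ0 : 0 ≤ δ)
    (hδ : 2 * δ ≤ ε₁ / 6) (hε₁1 : ε₁ ≤ 1) (hρ : R / 2 ≤ ρ₀) (hη0 : 0 < η)
    (hη1 : ((m : ℝ) + 1) * η ≤ ε₁ / 18 * R) (hη2 : 8 * η ≤ R - ρ₀) :
    (1 - ε₁) * R ^ (m + 1) - ρ₀ ^ (m + 1) + (2 : ℝ) ^ (m + 1) * (δ * R) ^ (m + 1) ≤
      (1 - ε₁ / 3) * R ^ (m + 1) - (ρ₀ + η) ^ (m + 1) -
        ((2 : ℝ) ^ (m + 1) - 1) * (R - (ρ₀ + η)) ^ (m + 1) +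
        ((2 : ℝ) ^ (m + 1) - 1) * ((1 - ε₁ / 3) * (R - ρ₀ - 2 * η) ^ (m + 1)) := by
  have hρ0 : 0 ≤ ρ₀ := by linarith
  have hRn : 0 < R ^ (m + 1) := by positivity
  have hRm : 0 ≤ R ^ m := by positivity
  have hm0 : (0 : ℝ) ≤ (m : ℝ) := Nat.cast_nonneg m
  have hQ1 : (1 : ℝ) ≤ 2 ^ (m + 1) := one_le_pow₀ (by norm_num)
  have hη1' : ((m : ℝ) + 1) * η * R ^ m ≤ ε₁ / 18 * R ^ (m + 1) := by
    have h2 : ((m : ℝ) + 1) * η * R ^ m ≤ ε₁ / 18 * R * R ^ m :=
      mul_le_mul_of_nonneg_right hη1 hRm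
    have e2 : ε₁ / 18 * R * R ^ m = ε₁ / 18 * R ^ (m + 1) := by ring
    linarith
  have hP1 : (ρ₀ + η) ^ (m + 1) - ρ₀ ^ (m + 1) ≤ ε₁ / 18 * R ^ (m + 1) := by
    have hP1a := pow_succ_sub_le (ρ₀ + η) ρ₀ R hρ0 (by linarith) (by linarith) m
    have e : ρ₀ + η - ρ₀ = η := by ring
    rw [e] at hP1a
    linarith
  have hc0 : 0 ≤ R - ρ₀ - 2 * η := by linarith
  have hhalf : (2 : ℝ) ^ (m + 1) * (R / 2) ^ m = 2 * R ^ m := by
    rw [pow_succ, div_pow]
    field_simp
  have hP2 : ((2 : ℝ) ^ (m + 1) - 1) *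
      ((R - (ρ₀ + η)) ^ (m + 1) - (R - ρ₀ - 2 * η) ^ (m + 1)) ≤ ε₁ / 9 * R ^ (m + 1) := by
    have hP2a := pow_succ_sub_le (R - (ρ₀ + η)) (R - ρ₀ - 2 * η) (R / 2) hc0 (by linarith)
      (by linarith) m
    have e : R - (ρ₀ + η) - (R - ρ₀ - 2 * η) = η := by ring
    rw [e] at hP2a
    have h0 : 0 ≤ ((m : ℝ) + 1) * η * (R / 2) ^ m := by positivity
    have h1 : ((2 : ℝ) ^ (m + 1) - 1) *
        ((R - (ρ₀ + η)) ^ (m + 1) - (R - ρ₀ - 2 * η) ^ (m + 1)) ≤
        (2 : ℝ) ^ (m + 1) * (((m : ℝ) + 1) * η * (R / 2) ^ m) :=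
      calc ((2 : ℝ) ^ (m + 1) - 1) *
            ((R - (ρ₀ + η)) ^ (m + 1) - (R - ρ₀ - 2 * η) ^ (m + 1))
          ≤ ((2 : ℝ) ^ (m + 1) - 1) * (((m : ℝ) + 1) * η * (R / 2) ^ m) :=
            mul_le_mul_of_nonneg_left hP2a (by linarith)
        _ ≤ (2 : ℝ) ^ (m + 1) * (((m : ℝ) + 1) * η * (R / 2) ^ m) :=
            mul_le_mul_of_nonneg_right (by linarith) h0
    have e3 : (2 : ℝ) ^ (m + 1) * (((m : ℝ) + 1) * η * (R / 2) ^ m) =
        2 * (((m : ℝ) + 1) * η * R ^ m) :=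
      calc (2 : ℝ) ^ (m + 1) * (((m : ℝ) + 1) * η * (R / 2) ^ m)
          = ((2 : ℝ) ^ (m + 1) * (R / 2) ^ m) * (((m : ℝ) + 1) * η) := by ring
        _ = 2 * R ^ m * (((m : ℝ) + 1) * η) := by rw [hhalf]
        _ = 2 * (((m : ℝ) + 1) * η * R ^ m) := by ring
    linarith
  have hP3 : ((2 : ℝ) ^ (m + 1) - 1) * (R - ρ₀ - 2 * η) ^ (m + 1) ≤ R ^ (m + 1) := by
    have h1 : (R - ρ₀ - 2 * η) ^ (m + 1) ≤ (R / 2) ^ (m + 1) :=
      pow_le_pow_left₀ hc0 (by linarith) _
    have h2 : (2 : ℝ) ^ (m + 1) * (R / 2) ^ (m + 1) = R ^ (m + 1) := by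
      rw [← mul_pow]
      congr 1
      ring
    have h3 : 0 ≤ (R / 2) ^ (m + 1) := by positivity
    calc ((2 : ℝ) ^ (m + 1) - 1) * (R - ρ₀ - 2 * η) ^ (m + 1)
        ≤ ((2 : ℝ) ^ (m + 1) - 1) * (R / 2) ^ (m + 1) :=
          mul_le_mul_of_nonneg_left h1 (by linarith)
      _ ≤ (2 : ℝ) ^ (m + 1) * (R / 2) ^ (m + 1) := mul_le_mul_of_nonneg_right (by linarith) h3
      _ = R ^ (m + 1) := h2
  have hP4 : (2 : ℝ) ^ (m + 1) * (δ * R) ^ (m + 1) ≤ ε₁ / 6 * R ^ (m + 1) := by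
    have h1 : (2 : ℝ) ^ (m + 1) * (δ * R) ^ (m + 1) = (2 * δ) ^ (m + 1) * R ^ (m + 1) := by
      rw [mul_pow, mul_pow]
      ring
    have h2 : (2 * δ) ^ (m + 1) ≤ 2 * δ :=
      pow_le_of_le_one (by positivity) (by linarith) (Nat.succ_ne_zero m)
    rw [h1]
    exact mul_le_mul_of_nonneg_right (by linarith) hRn.le
  have hP3' : ε₁ / 3 * (((2 : ℝ) ^ (m + 1) - 1) * (R - ρ₀ - 2 * η) ^ (m + 1)) ≤
      ε₁ / 3 * R ^ (m + 1) :=
    mul_le_mul_of_nonneg_left hP3 (by positivity)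
  have e4 : ((2 : ℝ) ^ (m + 1) - 1) * ((1 - ε₁ / 3) * (R - ρ₀ - 2 * η) ^ (m + 1)) =
      ((2 : ℝ) ^ (m + 1) - 1) * (R - ρ₀ - 2 * η) ^ (m + 1) -
        ε₁ / 3 * (((2 : ℝ) ^ (m + 1) - 1) * (R - ρ₀ - 2 * η) ^ (m + 1)) := by ring
  have e5 : ((2 : ℝ) ^ (m + 1) - 1) *
      ((R - (ρ₀ + η)) ^ (m + 1) - (R - ρ₀ - 2 * η) ^ (m + 1)) =
      ((2 : ℝ) ^ (m + 1) - 1) * (R - (ρ₀ + η)) ^ (m + 1) -
        ((2 : ℝ) ^ (m + 1) - 1) * (R - ρ₀ - 2 * η) ^ (m + 1) := by ring
  rw [e4]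
  rw [e5] at hP2
  linarith

/-- The nesting step in the case of one big ball: the big ball alone in its container, each
shell cell filled with at most one large ball and small balls, the other small balls in the
containers of the outer packing. -/
theorem shell_assemble (m : ℕ) (ε₂ δ' : ℝ)
    (hcell : ∀ (ι : Type) [Fintype ι] (r : ι → ℝ) (R : ℝ) (B : Finset ι),
      0 < R → (∀ i, 0 < r i) → B.card ≤ 1 → (∀ i ∈ B, r i < R) →
      (∀ i ∈ B, ∀ j ∈ B, i ≠ j → r i + r j < R) → (∀ i, i ∉ B → r i ≤ δ' * R) →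
      ∑ i, r i ^ (m + 1) ≤ (1 - ε₂) * R ^ (m + 1) → BallPackingOn (m + 1) ι r R)
    (k : ℕ) (r : Fin k → ℝ) (R : ℝ) (hr : ∀ i, 0 < r i) (B : Finset (Fin k)) (i0 : Fin k)
    (ρ₀' c : ℝ) (hc : 0 < c) (hi0 : r i0 < ρ₀')
    (cB : Fin k → Option (SCell m)) (hcB0 : cB i0 = none)
    (hcBnone : ∀ i ∈ B, cB i = none → i = i0)
    (hcBinj : ∀ i ∈ B, ∀ j ∈ B, ∀ g, cB i = some g → cB j = some g → i = j)
    (hBc : ∀ i ∈ B, i ≠ i0 → r i < c)
    (hSc : ∀ i, i ∉ B → r i ≤ δ' * c)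
    (ψ : Fin k → Option (SCell m))
    (hψ : ∀ g : SCell m,
      ∑ i, (if ψ i = some g then (if i ∈ B then (0 : ℝ) else r i ^ (m + 1)) else 0) ≤
        max 0 ((1 - ε₂) * c ^ (m + 1) -
          ∑ i ∈ B, (if cB i = some g then r i ^ (m + 1) else 0)))
    (κ₂ : Type) (ρ₂ : κ₂ → ℝ) (Φ : Fin k → κ₂)
    (hout : BallPackingOn (m + 1) (Option (SCell m) ⊕ κ₂)
      (Sum.elim (fun o => Option.elim o ρ₀' (fun _ => c)) ρ₂) R)
    (hinner : ∀ g : κ₂, BallPackingOn (m + 1)
      {i : Fin k // i ∈ Finset.univ.filter (fun i => i ∉ B ∧ ψ i = none) ∧ Φ i = g}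
      (fun i => r i.val) (ρ₂ g)) :
    BallPacking (m + 1) k r R := by
  classical
  set φ : Fin k → Option (SCell m) ⊕ κ₂ := fun i =>
    if i ∈ B then Sum.inl (cB i)
    else Option.elim (ψ i) (Sum.inr (Φ i)) (fun g => Sum.inl (some g)) with hφ
  have hφB : ∀ i ∈ B, φ i = Sum.inl (cB i) := by
    intro i hi
    show (if i ∈ B then _ else _) = _
    rw [if_pos hi]
  have hφS : ∀ i, i ∉ B →
      φ i = Option.elim (ψ i) (Sum.inr (Φ i)) (fun g => Sum.inl (some g)) := by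
    intro i hi
    show (if i ∈ B then _ else _) = _
    rw [if_neg hi]
  refine BallPackingOn.nest φ r (Sum.elim (fun o => Option.elim o ρ₀' (fun _ => c)) ρ₂) R
    hout ?_
  rintro ((_ | g) | g₂)
  · -- the container of the big ball
    have hmem : ∀ i : {i : Fin k // φ i = Sum.inl none}, i.val = i0 := by
      intro i
      have h := i.property
      by_cases hi : i.val ∈ B
      · rw [hφB _ hi] at h
        exact hcBnone _ hi (Sum.inl.inj h)
      · rw [hφS _ hi] at h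
        cases hψi : ψ i.val with
        | none =>
          rw [hψi] at h
          exact absurd h (by simp)
        | some g' =>
          rw [hψi] at h
          exact absurd h (by simp)
    have hsub : Subsingleton {i : Fin k // φ i = Sum.inl none} :=
      ⟨fun i j => Subtype.ext ((hmem i).trans (hmem j).symm)⟩
    refine ballPackingOn_of_subsingleton (m + 1) _ _ _ (fun i => ?_)
    show r i.val < ρ₀'
    rw [hmem i]
    exact hi0
  · -- a shell cell
    refine cell_fill m ε₂ δ' hcell {i : Fin k // φ i = Sum.inl (some g)} (fun i => r i.val) c hc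
      (fun i => hr i.val) (Finset.univ.filter fun i => i.val ∈ B) ?_ ?_ ?_ ?_
    · rw [Finset.card_le_one]
      intro i hi j hj
      have hiB := (Finset.mem_filter.mp hi).2
      have hjB := (Finset.mem_filter.mp hj).2
      have hi' := i.property
      rw [hφB _ hiB] at hi'
      have hj' := j.property
      rw [hφB _ hjB] at hj'
      exact Subtype.ext (hcBinj _ hiB _ hjB g (Sum.inl.inj hi') (Sum.inl.inj hj'))
    · intro i hi
      have hiB := (Finset.mem_filter.mp hi).2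
      have hi' := i.property
      rw [hφB _ hiB] at hi'
      have hne : i.val ≠ i0 := by
        intro h
        rw [h, hcB0] at hi'
        exact absurd hi' (by simp)
      exact hBc _ hiB hne
    · intro i hi
      have hiB : i.val ∉ B := fun h => hi (Finset.mem_filter.mpr ⟨Finset.mem_univ _, h⟩)
      exact hSc _ hiB
    · have h1 : ∑ i : {i : Fin k // φ i = Sum.inl (some g)},
          (if i ∈ Finset.univ.filter
              (fun i : {i : Fin k // φ i = Sum.inl (some g)} => i.val ∈ B)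
            then (0 : ℝ) else r i.val ^ (m + 1)) =
          ∑ i, (if ψ i = some g then (if i ∈ B then (0 : ℝ) else r i ^ (m + 1)) else 0) := by
        have e1 : ∀ i : {i : Fin k // φ i = Sum.inl (some g)},
            (if i ∈ Finset.univ.filter
                (fun i : {i : Fin k // φ i = Sum.inl (some g)} => i.val ∈ B)
              then (0 : ℝ) else r i.val ^ (m + 1)) =
            (fun j : Fin k => if j ∈ B then (0 : ℝ) else r j ^ (m + 1)) i.val := by
          intro i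
          simp [Finset.mem_filter]
        rw [Finset.sum_congr rfl (fun i _ => e1 i),
          sum_subtype_ite (fun i : Fin k => φ i = Sum.inl (some g))
            (fun j => if j ∈ B then (0 : ℝ) else r j ^ (m + 1))]
        apply Finset.sum_congr rfl
        intro i _
        by_cases hi : i ∈ B
        · simp [hi]
        · rw [hφS i hi]
          cases hψi : ψ i with
          | none => simp
          | some g' => simp [hi]
      have h2 : ∑ i ∈ Finset.univ.filter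
            (fun i : {i : Fin k // φ i = Sum.inl (some g)} => i.val ∈ B), r i.val ^ (m + 1) =
          ∑ i ∈ B, (if cB i = some g then r i ^ (m + 1) else 0) := by
        rw [Finset.sum_filter,
          sum_subtype_ite (fun i : Fin k => φ i = Sum.inl (some g))
            (fun j => if j ∈ B then r j ^ (m + 1) else 0)]
        have h3 : ∑ i ∈ B, (if cB i = some g then r i ^ (m + 1) else 0) =
            ∑ i : Fin k, (if i ∈ B then (if cB i = some g then r i ^ (m + 1) else 0) else 0) := by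
          rw [Finset.sum_ite_mem, Finset.univ_inter]
        rw [h3]
        apply Finset.sum_congr rfl
        intro i _
        by_cases hi : i ∈ B
        · rw [hφB i hi]
          simp [hi]
        · simp [hi]
      rw [h1, h2]
      exact hψ g
  · -- a container of the outer grid
    have hiff : ∀ i : Fin k, φ i = Sum.inr g₂ ↔
        (i ∈ Finset.univ.filter (fun i => i ∉ B ∧ ψ i = none) ∧ Φ i = g₂) := by
      intro i
      constructor
      · intro h
        by_cases hi : i ∈ B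
        · rw [hφB i hi] at h
          exact absurd h (by simp)
        · rw [hφS i hi] at h
          cases hψi : ψ i with
          | none =>
            rw [hψi] at h
            exact ⟨Finset.mem_filter.mpr ⟨Finset.mem_univ _, hi, hψi⟩, Sum.inr.inj h⟩
          | some g' =>
            rw [hψi] at h
            exact absurd h (by simp)
      · rintro ⟨hmem, hΦ⟩
        obtain ⟨-, hi, hψi⟩ := Finset.mem_filter.mp hmem
        rw [hφS i hi, hψi, ← hΦ]
        rfl
    exact BallPackingOn.comp_equiv (Equiv.subtypeEquivRight hiff) (fun i => r i.val) (ρ₂ g₂)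
      (hinner g₂)

/-- The shell cell of a large ball, read off from a labelling of the large balls by bit
strings: no cell for the zero string. -/
noncomputable def cellBits (m : ℕ) {k : ℕ} (B : Finset (Fin k))
    (bits : Fin B.card → (Fin (m + 1) → Bool)) (i : Fin k) : Option (SCell m) :=
  if h : i ∈ B then
    (if hb : bits (B.equivFin ⟨i, h⟩) = (fun _ => false) then none
      else some (⟨bits (B.equivFin ⟨i, h⟩), hb⟩ : SCell m))
  else none

theorem cellBits_zero (m : ℕ) {k : ℕ} (B : Finset (Fin k))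
    (bits : Fin B.card → (Fin (m + 1) → Bool)) (i : Fin k) (hi : i ∈ B)
    (hb : bits (B.equivFin ⟨i, hi⟩) = (fun _ => false)) : cellBits m B bits i = none := by
  unfold cellBits
  rw [dif_pos hi, dif_pos hb]

theorem cellBits_none (m : ℕ) {k : ℕ} (B : Finset (Fin k))
    (bits : Fin B.card → (Fin (m + 1) → Bool)) (i : Fin k) (hi : i ∈ B)
    (h : cellBits m B bits i = none) : bits (B.equivFin ⟨i, hi⟩) = (fun _ => false) := by
  unfold cellBits at h
  rw [dif_pos hi] at h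
  by_cases hb : bits (B.equivFin ⟨i, hi⟩) = (fun _ => false)
  · exact hb
  · rw [dif_neg hb] at h
    exact absurd h (by simp)

theorem cellBits_some (m : ℕ) {k : ℕ} (B : Finset (Fin k))
    (bits : Fin B.card → (Fin (m + 1) → Bool)) (i : Fin k) (hi : i ∈ B) (g : SCell m)
    (h : cellBits m B bits i = some g) : bits (B.equivFin ⟨i, hi⟩) = g.val := by
  unfold cellBits at h
  rw [dif_pos hi] at h
  by_cases hb : bits (B.equivFin ⟨i, hi⟩) = (fun _ => false)
  · rw [dif_pos hb] at h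
    exact absurd h (by simp)
  · rw [dif_neg hb] at h
    have h2 := Option.some.inj h
    rw [← h2]

/-- The case of one big ball of capacity at least `R / 2`, for fixed parameters: the small
balls are distributed over the shell cells and the region outside the big ball and the shell
corner. -/
theorem shell_case_core (m : ℕ) (ε₁ ε δ' δ : ℝ) (hε₁ : 0 < ε₁) (hε₁1 : ε₁ ≤ 1) (hε₁ε : ε₁ ≤ ε)
    (hcell : ∀ (ι : Type) [Fintype ι] (r : ι → ℝ) (R : ℝ) (B : Finset ι),
      0 < R → (∀ i, 0 < r i) → B.card ≤ 1 → (∀ i ∈ B, r i < R) →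
      (∀ i ∈ B, ∀ j ∈ B, i ≠ j → r i + r j < R) → (∀ i, i ∉ B → r i ≤ δ' * R) →
      ∑ i, r i ^ (m + 1) ≤ (1 - ε₁ / 3) * R ^ (m + 1) → BallPackingOn (m + 1) ι r R)
    (hδ' : 0 < δ') (M K : ℕ) (hM : 1 ≤ M)
    (hP : (M : ℝ) * ((m + 1).factorial : ℝ) +
        ((((K + (m + 1) : ℕ) : ℝ) * (1 + 1 / (M : ℝ))) ^ (m + 1)) * (1 - ε₁ / 3) +
        3 * ((((K + (m + 1) : ℕ) : ℝ) + ((m : ℝ) + 1)) ^ (m + 1) -
          ((K + (m + 1) : ℕ) : ℝ) ^ (m + 1)) ≤
      ((K : ℝ) + 1) ^ (m + 1))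
    (hδ0 : 0 < δ) (hδε : 2 * δ ≤ ε₁ / 6)
    (k : ℕ) (r : Fin k → ℝ) (R : ℝ) (B : Finset (Fin k)) (i0 : Fin k)
    (hR : 0 < R) (hr : ∀ i, 0 < r i) (hB : B.card ≤ 2 ^ (m + 1)) (hi0 : i0 ∈ B)
    (h0 : R / 2 ≤ r i0) (h0R : r i0 < R)
    (hBs : ∀ i ∈ B, i ≠ i0 → r i < R - r i0)
    (hsmallL : ∀ i, i ∉ B → r i < R / (((K + (m + 1) : ℕ) : ℝ) * (M : ℝ)))
    (hsmallC : ∀ i, i ∉ B → r i ≤ δ' * ((R - r i0) / 2))
    (hsmallV : ∀ i, i ∉ B → r i ≤ δ * R)
    (hvol : ∑ i, r i ^ (m + 1) ≤ (1 - ε) * R ^ (m + 1)) :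
    BallPacking (m + 1) k r R := by
  classical
  have hs0 : 0 < R - r i0 := by linarith
  have hm0 : (0 : ℝ) ≤ (m : ℝ) := Nat.cast_nonneg m
  -- the gap below the shell width
  obtain ⟨g₁, hg₁, hg₁le⟩ := exists_pos_le_of_finite
    (fun i : Fin k => if i ∈ B ∧ i ≠ i0 then (R - r i0 - r i) / 3 else 1) (by
      intro i
      by_cases hi : i ∈ B ∧ i ≠ i0
      · rw [if_pos hi]
        linarith [hBs i hi.1 hi.2]
      · rw [if_neg hi]
        exact one_pos)
  have hη₀pos : 0 < ε₁ / (18 * ((m : ℝ) + 1)) := by positivity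
  have hη₀n : ((m : ℝ) + 1) * (ε₁ / (18 * ((m : ℝ) + 1))) = ε₁ / 18 := by
    field_simp
  generalize ε₁ / (18 * ((m : ℝ) + 1)) = η₀ at hη₀pos hη₀n
  have hηpos : 0 < min g₁ (min (η₀ * R) ((R - r i0) / 8)) :=
    lt_min hg₁ (lt_min (by positivity) (by linarith))
  have hη1 : min g₁ (min (η₀ * R) ((R - r i0) / 8)) ≤ g₁ := min_le_left _ _
  have hη2 : min g₁ (min (η₀ * R) ((R - r i0) / 8)) ≤ η₀ * R :=
    (min_le_right _ _).trans (min_le_left _ _)
  have hη3 : min g₁ (min (η₀ * R) ((R - r i0) / 8)) ≤ (R - r i0) / 8 :=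
    (min_le_right _ _).trans (min_le_right _ _)
  generalize min g₁ (min (η₀ * R) ((R - r i0) / 8)) = η at hηpos hη1 hη2 hη3
  have hηn : ((m : ℝ) + 1) * η ≤ ε₁ / 18 * R := by
    have h1 : ((m : ℝ) + 1) * η ≤ ((m : ℝ) + 1) * (η₀ * R) :=
      mul_le_mul_of_nonneg_left hη2 (by linarith)
    have h2 : ((m : ℝ) + 1) * (η₀ * R) = ε₁ / 18 * R := by rw [← mul_assoc, hη₀n]
    linarith
  have hc : 0 < R - r i0 - 2 * η := by linarith
  have hBc : ∀ i ∈ B, i ≠ i0 → r i < R - r i0 - 2 * η := by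
    intro i hi hne
    have h1 := hg₁le i
    rw [if_pos ⟨hi, hne⟩] at h1
    linarith
  have hSc : ∀ i, i ∉ B → r i ≤ δ' * (R - r i0 - 2 * η) := by
    intro i hi
    have h1 := hsmallC i hi
    have h2 : δ' * ((R - r i0) / 2) ≤ δ' * (R - r i0 - 2 * η) :=
      mul_le_mul_of_nonneg_left (by linarith) hδ'.le
    linarith
  -- the cells of the large balls
  obtain ⟨bits, hbinj, hb0⟩ := exists_bits_pointed (m + 1) B.card hB (B.equivFin ⟨i0, hi0⟩)
  set cB : Fin k → Option (SCell m) := cellBits m B bits with hcB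
  have hcB0 : cB i0 = none := cellBits_zero m B bits i0 hi0 hb0
  have hcBnone : ∀ i ∈ B, cB i = none → i = i0 := by
    intro i hi hg
    have hb := cellBits_none m B bits i hi hg
    have h1 := hbinj (hb.trans hb0.symm)
    have h2 := B.equivFin.injective h1
    exact congrArg Subtype.val h2
  have hcBinj : ∀ i ∈ B, ∀ j ∈ B, ∀ g, cB i = some g → cB j = some g → i = j := by
    intro i hi j hj g hgi hgj
    have h1 := hbinj ((cellBits_some m B bits i hi g hgi).trans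
      (cellBits_some m B bits j hj g hgj).symm)
    have h2 := B.equivFin.injective h1
    exact congrArg Subtype.val h2
  -- volumes of the large balls in the cells
  have hvpos : ∀ i, 0 < r i ^ (m + 1) := fun i => pow_pos (hr i) _
  have hWsum : ∑ g : SCell m, ∑ i ∈ B, (if cB i = some g then r i ^ (m + 1) else 0) =
      ∑ i ∈ B, r i ^ (m + 1) - r i0 ^ (m + 1) := by
    rw [Finset.sum_comm]
    have h1 : ∀ i ∈ B, ∑ g : SCell m, (if cB i = some g then r i ^ (m + 1) else 0) =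
        r i ^ (m + 1) - (if i = i0 then r i ^ (m + 1) else 0) := by
      intro i hi
      cases hci : cB i with
      | none =>
        have h2 := hcBnone i hi hci
        simp [h2]
      | some g' =>
        have hne : i ≠ i0 := by
          intro h
          rw [h, hcB0] at hci
          exact absurd hci (by simp)
        simp [hne]
    rw [Finset.sum_congr rfl h1, Finset.sum_sub_distrib, Finset.sum_ite_eq' B i0]
    simp [hi0]
  have hv0 : ∀ i : Fin k, 0 ≤ (if i ∈ B then (0 : ℝ) else r i ^ (m + 1)) := by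
    intro i
    by_cases hi : i ∈ B
    · simp [hi]
    · simp only [hi, if_false]
      exact (hvpos i).le
  have hvmax : ∀ i : Fin k, (if i ∈ B then (0 : ℝ) else r i ^ (m + 1)) ≤ (δ * R) ^ (m + 1) := by
    intro i
    by_cases hi : i ∈ B
    · simp only [hi, if_true]
      positivity
    · simp only [hi, if_false]
      exact pow_le_pow_left₀ (hr i).le (hsmallV i hi) _
  have hvsum : ∑ i : Fin k, (if i ∈ B then (0 : ℝ) else r i ^ (m + 1)) =
      ∑ i, r i ^ (m + 1) - ∑ i ∈ B, r i ^ (m + 1) := by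
    have h1 : ∑ i : Fin k, r i ^ (m + 1) =
        ∑ i : Fin k, ((if i ∈ B then r i ^ (m + 1) else 0) +
          (if i ∈ B then (0 : ℝ) else r i ^ (m + 1))) := by
      apply Finset.sum_congr rfl
      intro i _
      by_cases hi : i ∈ B <;> simp [hi]
    rw [h1, Finset.sum_add_distrib, ← Finset.sum_filter]
    simp
  -- the budgets
  set β : Option (SCell m) → ℝ := fun o => Option.elim o
    (max 0 ((1 - ε₁ / 3) * R ^ (m + 1) - (r i0 + η) ^ (m + 1) -
      ((2 : ℝ) ^ (m + 1) - 1) * (R - (r i0 + η)) ^ (m + 1)))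
    (fun g => max 0 ((1 - ε₁ / 3) * (R - r i0 - 2 * η) ^ (m + 1) -
      ∑ i ∈ B, (if cB i = some g then r i ^ (m + 1) else 0))) with hβ
  have hβ0 : ∀ o, 0 ≤ β o := by
    rintro (_ | g)
    · exact le_max_left _ _
    · exact le_max_left _ _
  have hcardS : (Fintype.card (SCell m) : ℝ) = (2 : ℝ) ^ (m + 1) - 1 := by
    rw [card_SCell]
    have h1 : 1 ≤ 2 ^ (m + 1) := Nat.one_le_two_pow
    rw [Nat.cast_sub h1]
    push_cast
    ring
  have hcardO : (Fintype.card (Option (SCell m)) : ℝ) = (2 : ℝ) ^ (m + 1) := by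
    rw [Fintype.card_option]
    push_cast
    rw [hcardS]
    ring
  have hbud : ∑ i : Fin k, (if i ∈ B then (0 : ℝ) else r i ^ (m + 1)) +
      (Fintype.card (Option (SCell m)) : ℝ) * (δ * R) ^ (m + 1) ≤ ∑ o, β o := by
    rw [Fintype.sum_option, hcardO, hvsum]
    have h1 : ∑ g : SCell m, ((1 - ε₁ / 3) * (R - r i0 - 2 * η) ^ (m + 1) -
        ∑ i ∈ B, (if cB i = some g then r i ^ (m + 1) else 0)) ≤ ∑ g : SCell m, β (some g) :=
      Finset.sum_le_sum fun g _ => le_max_right _ _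
    rw [Finset.sum_sub_distrib, hWsum, Finset.sum_const, Finset.card_univ, nsmul_eq_mul,
      hcardS] at h1
    have h2 : (1 - ε₁ / 3) * R ^ (m + 1) - (r i0 + η) ^ (m + 1) -
        ((2 : ℝ) ^ (m + 1) - 1) * (R - (r i0 + η)) ^ (m + 1) ≤ β none := le_max_right _ _
    have h3 := shell_arith m ε₁ δ R (r i0) η hR hε₁ hδ0.le hδε hε₁1 h0 hηpos hηn (by linarith)
    have hRn : 0 ≤ R ^ (m + 1) := by positivity
    have h4 : (1 - ε) * R ^ (m + 1) ≤ (1 - ε₁) * R ^ (m + 1) :=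
      mul_le_mul_of_nonneg_right (by linarith) hRn
    linarith
  obtain ⟨ψ, hψ⟩ := distribute (fun i : Fin k => if i ∈ B then (0 : ℝ) else r i ^ (m + 1))
    β ((δ * R) ^ (m + 1)) hv0 hvmax hβ0 hbud
  -- the outer packing
  have hVA : ∑ i ∈ Finset.univ.filter (fun i => i ∉ B ∧ ψ i = none), r i ^ (m + 1) ≤
      max 0 ((1 - ε₁ / 3) * R ^ (m + 1) - (r i0 + η) ^ (m + 1) -
        ((2 : ℝ) ^ (m + 1) - 1) * (R - (r i0 + η)) ^ (m + 1)) := by
    have h1 := hψ none
    have h2 : ∑ i ∈ Finset.univ.filter (fun i => i ∉ B ∧ ψ i = none), r i ^ (m + 1) =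
        ∑ i, (if ψ i = none then (if i ∈ B then (0 : ℝ) else r i ^ (m + 1)) else 0) := by
      rw [Finset.sum_filter]
      apply Finset.sum_congr rfl
      intro i _
      by_cases hi : i ∈ B <;> by_cases hp : ψ i = none <;> simp [hi, hp]
    rw [h2]
    exact h1
  obtain ⟨κ₂, ρ₂, Φ, hout, hinner⟩ := shell_outer m M K hM (ε₁ / 3) hP R (r i0 + η)
    (R - r i0 - 2 * η) hR (by linarith) (by linarith) (by linarith) k r
    (Finset.univ.filter (fun i => i ∉ B ∧ ψ i = none)) (fun i _ => hr i)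
    (fun i hi => hsmallL i (Finset.mem_filter.mp hi).2.1) hVA
  exact shell_assemble m (ε₁ / 3) δ' hcell k r R hr B i0 (r i0 + η) (R - r i0 - 2 * η) hc
    (by linarith) cB hcB0 hcBnone hcBinj hBc hSc ψ (fun g => hψ (some g)) κ₂ ρ₂ Φ hout hinner

/-- The case of one big ball of capacity at least `R / 2`: if the packing statement with one
large ball holds in complex dimension `n = m + 1`, then for every `ε > 0` there is `δ > 0`
such that balls of which all but at most `2 ^ n` have capacity at most `δ R`, one large ball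
`i0` having capacity in `[R / 2, R)` and the other large ones capacity below `R - r i0`, pack
the ball of capacity `R` as soon as the total volume is at most `1 - ε` times that of the
ball. -/
theorem shell_case (m : ℕ) (H : BigSmallHyp (m + 1) 1) (ε : ℝ) (hε : 0 < ε) :
    ∃ δ : ℝ, 0 < δ ∧ ∀ (k : ℕ) (r : Fin k → ℝ) (R : ℝ) (B : Finset (Fin k)) (i0 : Fin k),
      0 < R → (∀ i, 0 < r i) → B.card ≤ 2 ^ (m + 1) → i0 ∈ B → R / 2 ≤ r i0 → r i0 < R →
      (∀ i ∈ B, i ≠ i0 → r i < R - r i0) → (∀ i, i ∉ B → r i ≤ δ * R) →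
      ∑ i, r i ^ (m + 1) ≤ (1 - ε) * R ^ (m + 1) → BallPacking (m + 1) k r R := by
  have hε₁pos : 0 < min ε 1 := lt_min hε one_pos
  have hε₁le : min ε 1 ≤ 1 := min_le_right _ _
  have hε₁ε : min ε 1 ≤ ε := min_le_left _ _
  generalize min ε 1 = ε₁ at hε₁pos hε₁le hε₁ε
  obtain ⟨δ₁, hδ₁, hH⟩ := H ε hε
  obtain ⟨δ', hδ', hcell⟩ := bigSmall_on H (ε₁ / 3) (by positivity)
  obtain ⟨M, K, hM, hK, hPbig⟩ := H49.exists_params_big (m + 1) (Nat.succ_pos m) (ε₁ / 3)
    (by positivity) (by linarith)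
  have e1 : ((m + 1 : ℕ) : ℝ) = (m : ℝ) + 1 := by
    push_cast
    ring
  have e2 : ((K + (m + 1) : ℕ) : ℝ) = (K : ℝ) + ((m : ℝ) + 1) := by
    push_cast
    ring
  have hm0 : (0 : ℝ) ≤ (m : ℝ) := Nat.cast_nonneg m
  have hK0 : (0 : ℝ) ≤ (K : ℝ) := Nat.cast_nonneg K
  have hP : (M : ℝ) * ((m + 1).factorial : ℝ) +
      ((((K + (m + 1) : ℕ) : ℝ) * (1 + 1 / (M : ℝ))) ^ (m + 1)) * (1 - ε₁ / 3) +
      3 * ((((K + (m + 1) : ℕ) : ℝ) + ((m : ℝ) + 1)) ^ (m + 1) -
        ((K + (m + 1) : ℕ) : ℝ) ^ (m + 1)) ≤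
      ((K : ℝ) + 1) ^ (m + 1) := by
    rw [e2]
    rw [e1] at hPbig
    have h3 := three_E_le m ((K : ℝ) + ((m : ℝ) + 1)) (by linarith)
    linarith
  have hN0 : (0 : ℝ) < ((K + (m + 1) : ℕ) : ℝ) := by
    exact_mod_cast (by omega : 0 < K + (m + 1))
  have hM0 : (0 : ℝ) < (M : ℝ) := by exact_mod_cast hM
  have hNM : (0 : ℝ) < ((K + (m + 1) : ℕ) : ℝ) * (M : ℝ) := mul_pos hN0 hM0
  have hd1 : min (min δ₁ (δ' * δ₁ / 2))
      (min (1 / (2 * (((K + (m + 1) : ℕ) : ℝ) * (M : ℝ)))) (ε₁ / 12)) ≤ δ₁ :=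
    (min_le_left _ _).trans (min_le_left _ _)
  have hd2 : min (min δ₁ (δ' * δ₁ / 2))
      (min (1 / (2 * (((K + (m + 1) : ℕ) : ℝ) * (M : ℝ)))) (ε₁ / 12)) ≤ δ' * δ₁ / 2 :=
    (min_le_left _ _).trans (min_le_right _ _)
  have hd3 : min (min δ₁ (δ' * δ₁ / 2))
      (min (1 / (2 * (((K + (m + 1) : ℕ) : ℝ) * (M : ℝ)))) (ε₁ / 12)) ≤
      1 / (2 * (((K + (m + 1) : ℕ) : ℝ) * (M : ℝ))) :=
    (min_le_right _ _).trans (min_le_left _ _)
  have hd4 : min (min δ₁ (δ' * δ₁ / 2))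
      (min (1 / (2 * (((K + (m + 1) : ℕ) : ℝ) * (M : ℝ)))) (ε₁ / 12)) ≤ ε₁ / 12 :=
    (min_le_right _ _).trans (min_le_right _ _)
  have hdpos : 0 < min (min δ₁ (δ' * δ₁ / 2))
      (min (1 / (2 * (((K + (m + 1) : ℕ) : ℝ) * (M : ℝ)))) (ε₁ / 12)) :=
    lt_min (lt_min hδ₁ (by positivity)) (lt_min (by positivity) (by positivity))
  refine ⟨min (min δ₁ (δ' * δ₁ / 2))
    (min (1 / (2 * (((K + (m + 1) : ℕ) : ℝ) * (M : ℝ)))) (ε₁ / 12)), hdpos, ?_⟩
  generalize min (min δ₁ (δ' * δ₁ / 2))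
    (min (1 / (2 * (((K + (m + 1) : ℕ) : ℝ) * (M : ℝ)))) (ε₁ / 12)) = δ at hd1 hd2 hd3 hd4 hdpos
  intro k r R B i0 hR hr hB hi0 h0 h0R hBs hsmall hvol
  by_cases hs : R - r i0 ≤ δ₁ * R
  · -- every other ball is small: one large ball
    refine hH k r R {i0} hR hr (by simp) ?_ ?_ ?_ hvol
    · intro i hi
      rw [Finset.mem_singleton] at hi
      rw [hi]
      exact h0R
    · intro i hi j hj hij
      rw [Finset.mem_singleton] at hi hj
      exact absurd (hi.trans hj.symm) hij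
    · intro i hi
      rw [Finset.mem_singleton] at hi
      by_cases hiB : i ∈ B
      · have := hBs i hiB hi
        linarith
      · have h1 := hsmall i hiB
        have h2 : δ * R ≤ δ₁ * R := mul_le_mul_of_nonneg_right hd1 hR.le
        linarith
  · push Not at hs
    refine shell_case_core m ε₁ ε δ' δ hε₁pos hε₁le hε₁ε hcell hδ' M K hM hP hdpos (by linarith)
      k r R B i0 hR hr hB hi0 h0 h0R hBs ?_ ?_ hsmall hvol
    · intro i hi
      have h1 := hsmall i hi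
      have h2 : δ * R ≤ 1 / (2 * (((K + (m + 1) : ℕ) : ℝ) * (M : ℝ))) * R :=
        mul_le_mul_of_nonneg_right hd3 hR.le
      have h3 : 1 / (2 * (((K + (m + 1) : ℕ) : ℝ) * (M : ℝ))) * R <
          R / (((K + (m + 1) : ℕ) : ℝ) * (M : ℝ)) := by
        rw [div_mul_eq_mul_div, one_mul, div_lt_div_iff₀ (by positivity) hNM]
        nlinarith
      linarith
    · intro i hi
      have h1 := hsmall i hi
      have h2 : δ * R ≤ δ' * δ₁ / 2 * R := mul_le_mul_of_nonneg_right hd2 hR.le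
      have h3 : δ' * δ₁ / 2 * R = δ' * ((δ₁ * R) / 2) := by ring
      have h4 : δ' * ((δ₁ * R) / 2) ≤ δ' * ((R - r i0) / 2) :=
        mul_le_mul_of_nonneg_left (by linarith) hδ'.le
      linarith

/-- The unified statement: if the packing statement with one large ball holds in complex
dimension `n = m + 1`, then it holds with at most `2 ^ n` large balls: for every `ε > 0`
there is `δ > 0` such that balls of which all but at most `2 ^ n` have capacity at most
`δ R`, the large ones having capacities below `R` and pairwise sums below `R`, pack the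
ball of capacity `R` as soon as the total volume is at most `1 - ε` times that of the ball. -/
theorem unified_packing (m : ℕ) (H : BigSmallHyp (m + 1) 1) :
    BigSmallHyp (m + 1) (2 ^ (m + 1)) := by
  intro ε hε
  obtain ⟨δa, hδa, ha⟩ := half_cells_packing m H ε hε
  obtain ⟨δb, hδb, hb⟩ := shell_case m H ε hε
  refine ⟨min δa δb, lt_min hδa hδb, ?_⟩
  intro k r R B hR hr hB hBR hpair hsmall hvol
  by_cases h : ∀ i ∈ B, r i < R / 2
  · refine ha k r R B hR hr hB h (fun i hi => ?_) hvol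
    have h1 := hsmall i hi
    have h2 : min δa δb * R ≤ δa * R := mul_le_mul_of_nonneg_right (min_le_left _ _) hR.le
    linarith
  · push Not at h
    obtain ⟨i0, hi0, h0⟩ := h
    refine hb k r R B i0 hR hr hB hi0 h0 (hBR i0 hi0) (fun i hi hne => ?_) (fun i hi => ?_) hvol
    · have := hpair i hi i0 hi0 hne
      linarith
    · have h1 := hsmall i hi
      have h2 : min δa δb * R ≤ δb * R := mul_le_mul_of_nonneg_right (min_le_right _ _) hR.le
      linarith

end Vale.Agent.Lib.P209.H80
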