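import Vale.Agent.Lib.P209.helper80.SymCount

namespace Vale.Agent.Lib.P209.H80

open Vale.Agent.Lib.P209.H49

/-- Multisets of size `K` containing the letter `l₀` at least `T₀` times and the letter `l₁`
at least `T₁` times are at least as many as the multisets of size `K - T₀ - T₁`. -/
theorem card_both_ge (α : Type) [Fintype α] [DecidableEq α] (K T₀ T₁ : ℕ) (l₀ l₁ : α)
    (hT : T₀ + T₁ ≤ K) :
    Fintype.card (Sym α (K - T₀ - T₁)) ≤
      (Finset.univ.filter (fun s : Sym α K =>
        T₀ ≤ Multiset.count l₀ s.1 ∧ T₁ ≤ Multiset.count l₁ s.1)).card := by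
  classical
  rw [← Fintype.card_subtype]
  refine Fintype.card_le_of_injective (fun s : Sym α (K - T₀ - T₁) =>
    (⟨⟨s.1 + Multiset.replicate T₀ l₀ + Multiset.replicate T₁ l₁, by
        rw [Multiset.card_add, Multiset.card_add, Multiset.card_replicate,
          Multiset.card_replicate, s.2]
        omega⟩, by
        constructor
        · show T₀ ≤ Multiset.count l₀
            ((s.1 : Multiset α) + Multiset.replicate T₀ l₀ + Multiset.replicate T₁ l₁)
          rw [Multiset.count_add, Multiset.count_add, Multiset.count_replicate_self]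
          omega
        · show T₁ ≤ Multiset.count l₁
            ((s.1 : Multiset α) + Multiset.replicate T₀ l₀ + Multiset.replicate T₁ l₁)
          rw [Multiset.count_add, Multiset.count_add, Multiset.count_replicate_self]
          omega⟩ :
      {s : Sym α K // T₀ ≤ Multiset.count l₀ s.1 ∧ T₁ ≤ Multiset.count l₁ s.1})) ?_
  intro s s' h
  have h1 : (s.1 : Multiset α) + Multiset.replicate T₀ l₀ + Multiset.replicate T₁ l₁ =
      (s'.1 : Multiset α) + Multiset.replicate T₀ l₀ + Multiset.replicate T₁ l₁ :=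
    congrArg (fun x => (x.1.1 : Multiset α)) h
  exact Subtype.ext (add_right_cancel (add_right_cancel h1))

/-- Two-threshold count with inclusion and exclusion: the multisets of size `K` with fewer than
`T₀` letters `l₀` and fewer than `T₁` letters `l₁`. The correction term is present when
`T₀ + T₁ ≤ K`. -/
theorem card_good2_ge (α : Type) [Fintype α] [DecidableEq α] (K T₀ T₁ : ℕ) (l₀ l₁ : α) :
    Fintype.card (Sym α K) +
        (if T₀ + T₁ ≤ K then Fintype.card (Sym α (K - T₀ - T₁)) else 0) ≤
      Fintype.card {s : Sym α K // Multiset.count l₀ s.1 < T₀ ∧ Multiset.count l₁ s.1 < T₁} +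
        Fintype.card (Sym α (K - T₀)) + Fintype.card (Sym α (K - T₁)) := by
  classical
  set A₀ : Finset (Sym α K) := Finset.univ.filter (fun s : Sym α K => T₀ ≤ Multiset.count l₀ s.1)
    with hA₀
  set A₁ : Finset (Sym α K) := Finset.univ.filter (fun s : Sym α K => T₁ ≤ Multiset.count l₁ s.1)
    with hA₁
  have h1 : Fintype.card (Sym α K)
      = Fintype.card {s : Sym α K // Multiset.count l₀ s.1 < T₀ ∧ Multiset.count l₁ s.1 < T₁}
        + (Finset.univ.filter (fun s : Sym α K =>
            ¬ (Multiset.count l₀ s.1 < T₀ ∧ Multiset.count l₁ s.1 < T₁))).card := by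
    rw [Fintype.card_subtype, ← Finset.card_univ (α := Sym α K)]
    exact (Finset.card_filter_add_card_filter_not _).symm
  have h2 : (Finset.univ.filter (fun s : Sym α K =>
      ¬ (Multiset.count l₀ s.1 < T₀ ∧ Multiset.count l₁ s.1 < T₁))).card ≤ (A₀ ∪ A₁).card := by
    refine Finset.card_le_card ?_
    intro s hs
    rw [Finset.mem_filter] at hs
    rw [Finset.mem_union, hA₀, hA₁, Finset.mem_filter, Finset.mem_filter]
    have hs2 := hs.2
    by_cases h : T₀ ≤ Multiset.count l₀ s.1
    · exact Or.inl ⟨Finset.mem_univ _, h⟩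
    · refine Or.inr ⟨Finset.mem_univ _, ?_⟩
      by_contra h'
      exact hs2 ⟨not_le.1 h, not_le.1 h'⟩
  have h3 : (A₀ ∪ A₁).card + (A₀ ∩ A₁).card = A₀.card + A₁.card :=
    Finset.card_union_add_card_inter A₀ A₁
  have h4 : A₀ ∩ A₁ = Finset.univ.filter (fun s : Sym α K =>
      T₀ ≤ Multiset.count l₀ s.1 ∧ T₁ ≤ Multiset.count l₁ s.1) := by
    rw [hA₀, hA₁, Finset.filter_and]
  have h6 : A₀.card ≤ Fintype.card (Sym α (K - T₀)) := card_filter_count_ge_le α K T₀ l₀
  have h7 : A₁.card ≤ Fintype.card (Sym α (K - T₁)) := card_filter_count_ge_le α K T₁ l₁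
  by_cases hT : T₀ + T₁ ≤ K
  · rw [if_pos hT]
    have h5 := card_both_ge α K T₀ T₁ l₀ l₁ hT
    rw [← h4] at h5
    omega
  · rw [if_neg hT]
    omega

end Vale.Agent.Lib.P209.H80
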