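import Vale.Agent.Lib.P209.Shell
import Vale.Agent.Lib.P209.ShellCount
import Vale.Agent.Lib.P209.helper45.CountShell

open Complex ComplexConjugate Filter Topology

namespace Vale.Agent.Lib.P209.H80

open Vale.Agent.Lib.P209

/-- The index type of the shell cells: the nonzero bit strings of length `m + 1`. -/
abbrev SCell (m : ℕ) : Type := {β : Fin (m + 1) → Bool // β ≠ fun _ => false}

/-- Threshold for the number of slack letters: a cube with fewer slack letters lies outside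
the ball of capacity `ρ₀`. -/
noncomputable def shT₀ (m K : ℕ) (R ρ₀ : ℝ) : ℕ :=
  K + 1 - ⌈((K + (m + 1) : ℕ) : ℝ) * ρ₀ / R⌉₊

/-- Threshold for the coordinate `0`: a cube with smaller coordinate `0` lies outside the shell
corner. -/
noncomputable def shT₁ (m K : ℕ) (R ρ₀ : ℝ) : ℕ :=
  ⌊((K + (m + 1) : ℕ) : ℝ) - ((K + (m + 1) : ℕ) : ℝ) * (2 * (R - ρ₀)) / R⌋₊

/-- The number of cubes needed by the small balls is at most the number of good cubes. -/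
theorem shell_count (m M K : ℕ) (hM : 1 ≤ M) (ε : ℝ)
    (hP : (M : ℝ) * ((m + 1).factorial : ℝ) +
        ((((K + (m + 1) : ℕ) : ℝ) * (1 + 1 / (M : ℝ))) ^ (m + 1)) * (1 - ε) +
        3 * ((((K + (m + 1) : ℕ) : ℝ) + ((m : ℝ) + 1)) ^ (m + 1) -
          ((K + (m + 1) : ℕ) : ℝ) ^ (m + 1)) ≤
      ((K : ℝ) + 1) ^ (m + 1))
    (k : ℕ) (r : Fin k → ℝ) (R : ℝ) (hR : 0 < R)
    (ρ₀ : ℝ) (hρ : R / 2 ≤ ρ₀) (hρR : ρ₀ < R)
    (hV : ρ₀ ^ (m + 1) + ((2 : ℝ) ^ (m + 1) - 1) * (R - ρ₀) ^ (m + 1) + ∑ i, r i ^ (m + 1) ≤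
      (1 - ε) * R ^ (m + 1))
    (L t : Fin k → ℕ) (tt : Fin k → Fin M) (htt : ∀ i, M + (tt i).val = t i)
    (hge : ∀ i, R / (((K + (m + 1) : ℕ) : ℝ) * ((t i : ℝ) + 1) * 2 ^ L i) ≤ r i)
    (D : ℕ) (hLD : ∀ i, L i ≤ D) :
    ∑ τ : Fin M, ((∑ i ∈ Finset.univ.filter (fun i => tt i = τ), (2 ^ (m + 1)) ^ (D - L i)) /
        (((M + τ.val) ^ (m + 1) * (m + 1).factorial) * (2 ^ (m + 1)) ^ D) + 1) ≤
      Fintype.card {s : Sym (Fin (m + 1 + 1)) K //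
        Multiset.count (Fin.last (m + 1)) s.1 < shT₀ m K R ρ₀ ∧
          Multiset.count (Fin.castSucc (0 : Fin (m + 1))) s.1 < shT₁ m K R ρ₀} := by
  classical
  have hN1 : 1 ≤ K + (m + 1) := by omega
  have hN0 : (0 : ℝ) < ((K + (m + 1) : ℕ) : ℝ) := by exact_mod_cast hN1
  have hm0 : (0 : ℝ) ≤ (m : ℝ) := Nat.cast_nonneg m
  have hNrK : ((K + (m + 1) : ℕ) : ℝ) = (K : ℝ) + ((m : ℝ) + 1) := by push_cast; ring
  have hT₀def : shT₀ m K R ρ₀ = K + 1 - ⌈((K + (m + 1) : ℕ) : ℝ) * ρ₀ / R⌉₊ := rfl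
  have hT₁def : shT₁ m K R ρ₀ =
      ⌊((K + (m + 1) : ℕ) : ℝ) - ((K + (m + 1) : ℕ) : ℝ) * (2 * (R - ρ₀)) / R⌋₊ := rfl
  generalize shT₀ m K R ρ₀ = T₀ at hT₀def ⊢
  generalize shT₁ m K R ρ₀ = T₁ at hT₁def ⊢
  set Nr : ℝ := ((K + (m + 1) : ℕ) : ℝ) with hNr
  set x₀ : ℝ := Nr * ρ₀ / R with hx₀
  set x₁ : ℝ := Nr * (2 * (R - ρ₀)) / R with hx₁
  set v : ℝ := Nr * (R - ρ₀) / R with hv
  have hρ0 : 0 < ρ₀ := by linarith
  have hx₀pos : 0 < x₀ := by rw [hx₀]; positivity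
  have hv0 : 0 ≤ v := by
    rw [hv]
    exact div_nonneg (mul_nonneg hN0.le (by linarith)) hR.le
  have hx₀v : x₀ + v = Nr := by
    rw [hx₀, hv]
    field_simp
    ring
  have hx₁v : x₁ = 2 * v := by
    rw [hx₁, hv]
    ring
  have hvle : 2 * v ≤ Nr := by
    have h1 : v ≤ Nr / 2 := by
      rw [hv, div_le_iff₀ hR]
      nlinarith
    linarith
  have hceil1 : 1 ≤ ⌈x₀⌉₊ := Nat.one_le_ceil_iff.2 hx₀pos
  have hceil_lt : (⌈x₀⌉₊ : ℝ) < x₀ + 1 := Nat.ceil_lt_add_one hx₀pos.le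
  have hfloor_le : (T₁ : ℝ) ≤ Nr - x₁ := by
    rw [hT₁def]
    exact Nat.floor_le (by linarith)
  have hlt_floor : Nr - x₁ < (T₁ : ℝ) + 1 := by
    rw [hT₁def]
    exact Nat.lt_floor_add_one _
  have hT₀cases : T₀ = 0 ∨ (T₀ : ℝ) ≤ (K : ℝ) + 1 - x₀ := by
    have hle_ceil : x₀ ≤ (⌈x₀⌉₊ : ℝ) := Nat.le_ceil x₀
    by_cases h : ⌈x₀⌉₊ ≤ K + 1
    · right
      have h1 : T₀ + ⌈x₀⌉₊ = K + 1 := by omega
      have h2 : (T₀ : ℝ) + (⌈x₀⌉₊ : ℝ) = (K : ℝ) + 1 := by exact_mod_cast h1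
      linarith
    · left
      omega
  have hgood := card_good2_ge (Fin (m + 1 + 1)) K T₀ T₁ (Fin.last (m + 1))
    (Fin.castSucc (0 : Fin (m + 1)))
  have hc₀ : ((K - T₀ : ℕ) : ℝ) ≤ x₀ := by
    have h1 : K - T₀ + 1 ≤ ⌈x₀⌉₊ := by omega
    have h2 : ((K - T₀ : ℕ) : ℝ) + 1 ≤ (⌈x₀⌉₊ : ℝ) := by exact_mod_cast h1
    linarith
  have hc₁ : ((K - T₁ : ℕ) : ℝ) ≤ x₁ := by
    by_cases h : T₁ ≤ K
    · rw [Nat.cast_sub h]
      linarith
    · rw [Nat.sub_eq_zero_of_le (by omega)]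
      rw [hx₁v]
      simp only [Nat.cast_zero]
      linarith
  have hX : v ≤ (m : ℝ) + 1 ∨
      ∃ c₂ : ℕ, (if T₀ + T₁ ≤ K then Fintype.card (Sym (Fin (m + 1 + 1)) (K - T₀ - T₁))
          else 0) = Fintype.card (Sym (Fin (m + 1 + 1)) c₂) ∧
        v - ((m : ℝ) + 1) ≤ (c₂ : ℝ) + 1 := by
    by_cases hT : T₀ + T₁ ≤ K
    · right
      refine ⟨K - T₀ - T₁, by rw [if_pos hT], ?_⟩
      have h1 : ((K - T₀ - T₁ : ℕ) : ℝ) = (K : ℝ) - T₀ - T₁ := by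
        rw [Nat.cast_sub (by omega), Nat.cast_sub (by omega)]
      rw [h1]
      rcases hT₀cases with h0 | h0
      · rw [h0]
        simp only [Nat.cast_zero]
        linarith
      · linarith
    · left
      have h1 : K + 1 ≤ T₀ + T₁ := by omega
      have h2 : (K : ℝ) + 1 ≤ (T₀ : ℝ) + (T₁ : ℝ) := by exact_mod_cast h1
      rcases hT₀cases with h0 | h0
      · rw [h0] at h2
        simp only [Nat.cast_zero] at h2
        linarith
      · linarith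
  have hcb := count_bound_shell m M K hM ε hP k r R hR ρ₀ hρ hρR.le hV (K - T₀) (K - T₁)
    (if T₀ + T₁ ≤ K then Fintype.card (Sym (Fin (m + 1 + 1)) (K - T₀ - T₁)) else 0)
    hc₀ hc₁ hX L t tt htt hge D hLD
  omega

/-- The big family: the ball of capacity `ρ₀` (identity) and the shell cells, with moment
images missing every good cube. -/
theorem shell_family (m K : ℕ) (R ρ₀ c : ℝ) (hR : 0 < R) (hρ : R / 2 ≤ ρ₀) (hρR : ρ₀ < R)
    (hc : c < R - ρ₀) :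
    ∃ F : Option (SCell m) → EuclideanSpace ℂ (Fin (m + 1)) → EuclideanSpace ℂ (Fin (m + 1)),
      (∀ b, IsSympBallEmb (m + 1) (Option.elim b ρ₀ (fun _ => c)) (F b)) ∧
      (∀ b, F b '' capBall (m + 1) (Option.elim b ρ₀ (fun _ => c)) ⊆ openCapBall (m + 1) R) ∧
      (∀ b b', b ≠ b' → Disjoint (F b '' capBall (m + 1) (Option.elim b ρ₀ (fun _ => c)))
        (F b' '' capBall (m + 1) (Option.elim b' ρ₀ (fun _ => c)))) ∧
      ∀ s : Sym (Fin (m + 1 + 1)) K,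
        Multiset.count (Fin.last (m + 1)) s.1 < shT₀ m K R ρ₀ →
        Multiset.count (Fin.castSucc (0 : Fin (m + 1))) s.1 < shT₁ m K R ρ₀ →
        ∀ b, ∀ z ∈ capBall (m + 1) (Option.elim b ρ₀ (fun _ => c)),
          ¬ ∀ j, (cubeOf (m + 1) K s j : ℝ) * (R / (Real.pi * ((K + (m + 1) : ℕ) : ℝ))) <
                ‖F b z j‖ ^ 2 ∧
              ‖F b z j‖ ^ 2 <
                ((cubeOf (m + 1) K s j : ℝ) + 1) * (R / (Real.pi * ((K + (m + 1) : ℕ) : ℝ))) := by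
  classical
  have hpi := Real.pi_pos
  have hN1 : 1 ≤ K + (m + 1) := by omega
  have hN0 : (0 : ℝ) < ((K + (m + 1) : ℕ) : ℝ) := by exact_mod_cast hN1
  have hT₀def : shT₀ m K R ρ₀ = K + 1 - ⌈((K + (m + 1) : ℕ) : ℝ) * ρ₀ / R⌉₊ := rfl
  have hT₁def : shT₁ m K R ρ₀ =
      ⌊((K + (m + 1) : ℕ) : ℝ) - ((K + (m + 1) : ℕ) : ℝ) * (2 * (R - ρ₀)) / R⌋₊ := rfl
  generalize shT₀ m K R ρ₀ = T₀ at hT₀def ⊢
  generalize shT₁ m K R ρ₀ = T₁ at hT₁def ⊢
  generalize ((K + (m + 1) : ℕ) : ℝ) = Nr at *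
  set x₀ : ℝ := Nr * ρ₀ / R with hx₀
  set x₁ : ℝ := Nr * (2 * (R - ρ₀)) / R with hx₁
  have hx₁le : x₁ ≤ Nr := by
    rw [hx₁, div_le_iff₀ hR]
    nlinarith
  have hle_ceil : x₀ ≤ (⌈x₀⌉₊ : ℝ) := Nat.le_ceil x₀
  have hfloor_le : (T₁ : ℝ) ≤ Nr - x₁ := by
    rw [hT₁def]
    exact Nat.floor_le (by linarith)
  obtain ⟨Fs, hFs, hFsb, hFsd⟩ := shell_maps m R ρ₀ c hρ hρR hc
  have hcross : ∀ β : SCell m, Disjoint ((id : EuclideanSpace ℂ (Fin (m + 1)) → _) ''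
      capBall (m + 1) ρ₀) (Fs β '' capBall (m + 1) c) := by
    intro β
    rw [Set.disjoint_left]
    rintro y ⟨z, hz, rfl⟩ ⟨z', hz', heq⟩
    rw [mem_capBall] at hz
    have h1 := (hFsb β z' hz').1
    have heq' : Fs β z' = z := heq
    rw [heq'] at h1
    linarith
  set H : ℝ := R / (Real.pi * Nr) with hH
  have hHpos : 0 < H := by rw [hH]; positivity
  have hpiH : Real.pi * H = R / Nr := by
    rw [hH]
    field_simp
  have h9 : 0 < R / Nr := by positivity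
  refine ⟨fun o => Option.elim o id Fs, ?_, ?_, ?_, ?_⟩
  · rintro (_ | β)
    · exact id_isSympBallEmb (m + 1) ρ₀
    · exact hFs β
  · rintro (_ | β)
    · rintro y ⟨z, hz, rfl⟩
      have hz' : z ∈ capBall (m + 1) ρ₀ := hz
      rw [mem_capBall] at hz'
      rw [mem_openCapBall]
      show Real.pi * ‖z‖ ^ 2 < R
      linarith
    · rintro y ⟨z, hz, rfl⟩
      rw [mem_openCapBall]
      exact (hFsb β z hz).2.1
  · rintro (_ | β) (_ | β') hne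
    · exact absurd rfl hne
    · exact hcross β'
    · exact (hcross β).symm
    · exact hFsd β β' (fun h => hne (congrArg some h))
  · rintro s hs0 hs1 (_ | β) z hz hall
    · -- the ball of capacity ρ₀, embedded by the identity
      have hz' : Real.pi * ∑ j, ‖z j‖ ^ 2 ≤ ρ₀ := hz
      have hall' : ∀ j, (cubeOf (m + 1) K s j : ℝ) * H < ‖z j‖ ^ 2 := fun j => (hall j).1
      have h1 : ∑ j, (cubeOf (m + 1) K s j : ℝ) * H < ∑ j, ‖z j‖ ^ 2 :=
        Finset.sum_lt_sum_of_nonempty (Finset.univ_nonempty_iff.2 ⟨⟨0, Nat.succ_pos m⟩⟩)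
          fun j _ => hall' j
      rw [← Finset.sum_mul] at h1
      have h2 := sum_cubeOf (m + 1) K s
      have h4 : ⌈x₀⌉₊ ≤ ∑ j, cubeOf (m + 1) K s j := by omega
      have h5 : (⌈x₀⌉₊ : ℝ) ≤ ∑ j, (cubeOf (m + 1) K s j : ℝ) := by exact_mod_cast h4
      have h6 : x₀ * (R / Nr) = ρ₀ := by
        rw [hx₀]
        field_simp
      have h7 : Real.pi * ((∑ j, (cubeOf (m + 1) K s j : ℝ)) * H) < ρ₀ :=
        lt_of_lt_of_le (mul_lt_mul_of_pos_left h1 hpi) hz'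
      have h8 : Real.pi * ((∑ j, (cubeOf (m + 1) K s j : ℝ)) * H) =
          (∑ j, (cubeOf (m + 1) K s j : ℝ)) * (R / Nr) := by
        rw [← hpiH]
        ring
      rw [h8] at h7
      have h10 : x₀ * (R / Nr) ≤ (∑ j, (cubeOf (m + 1) K s j : ℝ)) * (R / Nr) :=
        mul_le_mul_of_nonneg_right (le_trans hle_ceil h5) h9.le
      linarith
    · -- a shell cell
      have hz' : z ∈ capBall (m + 1) c := hz
      have h1 := (hFsb β z hz').2.2
      have h2' : ‖Fs β z 0‖ ^ 2 < ((cubeOf (m + 1) K s 0 : ℝ) + 1) * H := (hall 0).2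
      have h4 : cubeOf (m + 1) K s 0 + 1 ≤ T₁ := hs1
      have h5 : (cubeOf (m + 1) K s 0 : ℝ) + 1 ≤ (T₁ : ℝ) := by exact_mod_cast h4
      have h6 : Real.pi * ‖Fs β z 0‖ ^ 2 < ((cubeOf (m + 1) K s 0 : ℝ) + 1) * (R / Nr) := by
        have := mul_lt_mul_of_pos_left h2' hpi
        rw [← hpiH]
        calc Real.pi * ‖Fs β z 0‖ ^ 2 < Real.pi * (((cubeOf (m + 1) K s 0 : ℝ) + 1) * H) := this
          _ = ((cubeOf (m + 1) K s 0 : ℝ) + 1) * (Real.pi * H) := by ring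
      have h7 : ((cubeOf (m + 1) K s 0 : ℝ) + 1) * (R / Nr) ≤ (Nr - x₁) * (R / Nr) :=
        mul_le_mul_of_nonneg_right (le_trans h5 hfloor_le) h9.le
      have h8 : (Nr - x₁) * (R / Nr) = 2 * ρ₀ - R := by
        rw [hx₁]
        field_simp
        ring
      linarith

/-- Core statement for one big ball of capacity `ρ₀ ≥ R / 2`: with grid parameters `M`, `K`
satisfying the numerical condition, the ball of capacity `R` contains the closed ball of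
capacity `ρ₀`, the `2 ^ n - 1` shell cells of capacity `c < R - ρ₀` and a family of further
containers, disjoint from each other, such that the given small balls pack the further
containers; the small balls have capacities below `R / ((K + n) M)` and the volume condition
counts the big ball and the whole shell corner (complex dimension `n = m + 1`). -/
theorem shell_core (m M K : ℕ) (hM : 1 ≤ M) (ε : ℝ)
    (hP : (M : ℝ) * ((m + 1).factorial : ℝ) +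
        ((((K + (m + 1) : ℕ) : ℝ) * (1 + 1 / (M : ℝ))) ^ (m + 1)) * (1 - ε) +
        3 * ((((K + (m + 1) : ℕ) : ℝ) + ((m : ℝ) + 1)) ^ (m + 1) -
          ((K + (m + 1) : ℕ) : ℝ) ^ (m + 1)) ≤
      ((K : ℝ) + 1) ^ (m + 1))
    (R ρ₀ c : ℝ) (hR : 0 < R) (hρ : R / 2 ≤ ρ₀) (hρR : ρ₀ < R) (hc : c < R - ρ₀)
    (k : ℕ) (r : Fin k → ℝ) (hr : ∀ i, 0 < r i)
    (hsmall : ∀ i, r i < R / (((K + (m + 1) : ℕ) : ℝ) * (M : ℝ)))
    (hV : ρ₀ ^ (m + 1) + ((2 : ℝ) ^ (m + 1) - 1) * (R - ρ₀) ^ (m + 1) + ∑ i, r i ^ (m + 1) ≤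
      (1 - ε) * R ^ (m + 1)) :
    ∃ (κ₂ : Type) (ρ₂ : κ₂ → ℝ) (Φ : Fin k → κ₂),
      BallPackingOn (m + 1) (Option (SCell m) ⊕ κ₂)
        (Sum.elim (fun o => Option.elim o ρ₀ (fun _ => c)) ρ₂) R ∧
      ∀ g : κ₂, BallPackingOn (m + 1) {i : Fin k // Φ i = g} (fun i => r i.val) (ρ₂ g) := by
  classical
  have hN1 : 1 ≤ K + (m + 1) := by omega
  have hM0 : (0 : ℝ) < (M : ℝ) := by exact_mod_cast hM
  have hN0 : (0 : ℝ) < ((K + (m + 1) : ℕ) : ℝ) := by exact_mod_cast hN1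
  choose L t htM ht2M hlt hge using fun i =>
    exists_type M (K + (m + 1)) hM hN1 (r i) R (hr i) (hsmall i)
  have hLD : ∀ i, L i ≤ Finset.univ.sup L := fun i => Finset.le_sup (Finset.mem_univ i)
  generalize Finset.univ.sup L = D at hLD
  have hB1 : 1 ≤ 2 ^ (m + 1) := Nat.one_le_two_pow
  let tt : Fin k → Fin M := fun i => ⟨t i - M, by have := htM i; have := ht2M i; omega⟩
  have htt : ∀ i, M + (tt i).val = t i := by
    intro i
    have := htM i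
    show M + (t i - M) = t i
    omega
  let mτ : Fin M → ℕ := fun τ =>
    (∑ i ∈ Finset.univ.filter (fun i => tt i = τ), (2 ^ (m + 1)) ^ (D - L i)) /
      (((M + τ.val) ^ (m + 1) * (m + 1).factorial) * (2 ^ (m + 1)) ^ D) + 1
  have hne : ∀ τ, Nonempty (GBin (m + 1) M mτ τ) := fun τ =>
    ⟨(⟨0, Nat.succ_pos _⟩, (fun _ => ⟨0, by omega⟩, 1))⟩
  have hcap : ∀ τ, ∑ i ∈ Finset.univ.filter (fun i => tt i = τ), (2 ^ (m + 1)) ^ (D - L i) ≤
      Fintype.card (GBin (m + 1) M mτ τ) * (2 ^ (m + 1)) ^ D := by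
    intro τ
    rw [card_GBin]
    have hq : 0 < ((M + τ.val) ^ (m + 1) * (m + 1).factorial) * (2 ^ (m + 1)) ^ D :=
      Nat.mul_pos (Nat.mul_pos (Nat.pow_pos (by omega)) (Nat.factorial_pos _)) (Nat.pow_pos hB1)
    exact nat_le_succ_div_mul _ _ _ hq
  obtain ⟨Φ, hΦ1, hΦ⟩ :=
    assign_bins (2 ^ (m + 1)) hB1 k M tt L D hLD (GBin (m + 1) M mτ) hcap
  have hcount : ∑ τ, mτ τ ≤ Fintype.card {s : Sym (Fin (m + 1 + 1)) K //
      Multiset.count (Fin.last (m + 1)) s.1 < shT₀ m K R ρ₀ ∧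
        Multiset.count (Fin.castSucc (0 : Fin (m + 1))) s.1 < shT₁ m K R ρ₀} :=
    shell_count m M K hM ε hP k r R hR ρ₀ hρ hρR hV L t tt htt hge D hLD
  have hcardS : Fintype.card (Σ τ : Fin M, Fin (mτ τ)) ≤
      Fintype.card {s : Sym (Fin (m + 1 + 1)) K //
        Multiset.count (Fin.last (m + 1)) s.1 < shT₀ m K R ρ₀ ∧
          Multiset.count (Fin.castSucc (0 : Fin (m + 1))) s.1 < shT₁ m K R ρ₀} := by
    rw [Fintype.card_sigma]
    simpa using hcount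
  obtain ⟨ψ'⟩ := Function.Embedding.nonempty_of_card_le hcardS
  obtain ⟨F, hFe, hFin, hFd, hFgood⟩ := shell_family m K R ρ₀ c hR hρ hρR hc
  have ht0 : ∀ i, (0 : ℝ) < (t i : ℝ) := fun i => by
    exact_mod_cast (lt_of_lt_of_le hM (htM i))
  have hden : ∀ i, (0 : ℝ) < ((K + (m + 1) : ℕ) : ℝ) * (t i : ℝ) * 2 ^ L i := by
    intro i
    have := ht0 i
    positivity
  obtain ⟨δ, hδpos, hδ⟩ := exists_pos_le_of_finite
    (fun i : Fin k => 1 - r i * (((K + (m + 1) : ℕ) : ℝ) * (t i : ℝ) * 2 ^ L i) / R) (by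
      intro i
      have h1 := hlt i
      rw [lt_div_iff₀ (hden i)] at h1
      rw [sub_pos, div_lt_one hR]
      exact h1)
  let ρ : Fin M → ℝ := fun τ =>
    (1 - δ / 2) * (R / (((K + (m + 1) : ℕ) : ℝ) * ((M + τ.val : ℕ) : ℝ)))
  have houter : BallPackingOn (m + 1) (Option (SCell m) ⊕ Σ τ : Fin M, GBin (m + 1) M mτ τ)
      (Sum.elim (fun o => Option.elim o ρ₀ (fun _ => c)) (fun g => ρ g.1)) R := by
    refine outer_grid_big m M K hM mτ (ψ'.trans (Function.Embedding.subtype _)) ρ R hR ?_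
      (fun o => Option.elim o ρ₀ (fun _ => c)) F hFe hFin hFd ?_
    · intro τ
      have hpos : (0 : ℝ) < ((M + τ.val : ℕ) : ℝ) := by
        exact_mod_cast (by omega : 0 < M + τ.val)
      have hX : 0 < R / (((K + (m + 1) : ℕ) : ℝ) * ((M + τ.val : ℕ) : ℝ)) := by positivity
      show (1 - δ / 2) * (R / (((K + (m + 1) : ℕ) : ℝ) * ((M + τ.val : ℕ) : ℝ))) < _
      nlinarith
    · intro bb x z hz
      exact hFgood (ψ' x).1 (ψ' x).2.1 (ψ' x).2.2 bb z hz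
  refine ⟨Σ τ : Fin M, GBin (m + 1) M mτ τ, fun g => ρ g.1, Φ, houter, ?_⟩
  intro g
  refine dyadic_on m D {i : Fin k // Φ i = g} (fun i => L i.val) (fun i => r i.val) (ρ g.1)
    (fun i => hLD i.val) ?_ ?_
  · rintro ⟨i, hi⟩
    have hg1 : g.1 = tt i := by
      rw [← hi]
      exact hΦ1 i
    show r i < ρ g.1 / 2 ^ L i
    rw [hg1]
    show r i < (1 - δ / 2) * (R / (((K + (m + 1) : ℕ) : ℝ) * ((M + (tt i).val : ℕ) : ℝ))) /
      2 ^ L i
    rw [htt i]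
    have h1 := hδ i
    have h2 := hden i
    have h3 : r i * (((K + (m + 1) : ℕ) : ℝ) * (t i : ℝ) * 2 ^ L i) / R ≤ 1 - δ := by
      linarith
    rw [div_le_iff₀ hR] at h3
    have h4 : (1 - δ / 2) * (R / (((K + (m + 1) : ℕ) : ℝ) * (t i : ℝ))) =
        (1 - δ / 2) * R / (((K + (m + 1) : ℕ) : ℝ) * (t i : ℝ)) := by ring
    have h5 := ht0 i
    rw [lt_div_iff₀ (by positivity), h4, lt_div_iff₀ (by positivity)]
    nlinarith
  · have h1 := hΦ g
    have h2 : ∑ i : {i : Fin k // Φ i = g}, (2 ^ (m + 1)) ^ (D - L i.val) =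
        ∑ i ∈ Finset.univ.filter (fun i => Φ i = g), (2 ^ (m + 1)) ^ (D - L i) :=
      (Finset.sum_subtype (Finset.univ.filter (fun i => Φ i = g)) (by simp)
        (fun i => (2 ^ (m + 1)) ^ (D - L i))).symm
    rw [h2]
    exact h1

end Vale.Agent.Lib.P209.H80
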