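import Vale.Agent.Lib.P209.Chart

open Complex ComplexConjugate Filter Topology

namespace Vale.Agent.Lib.P209

variable {V : Type*} [NormedAddCommGroup V] [InnerProductSpace ℂ V]

/-- The real-linear map `u ↦ ⟪e, u⟫`. -/
noncomputable def innerR (e : V) : V →L[ℝ] ℂ := (innerSL ℂ e).restrictScalars ℝ

theorem innerR_apply (e u : V) : innerR e u = inner ℂ e u := rfl

theorem isOpen_dom (a c : ℝ) : IsOpen {w : V | ‖w‖ ^ 2 < a ^ 2 * c} :=
  isOpen_lt (continuous_norm.pow 2) continuous_const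

theorem rho_contDiffAt (c : ℝ) (w : V) (hw : ‖w‖ ^ 2 < c) (n : WithTop ℕ∞) :
    ContDiffAt ℝ n (rho (V := V) c) w := by
  have h1 : ContDiffAt ℝ n (fun w : V => c - ‖w‖ ^ 2) w :=
    contDiffAt_const.sub (contDiff_norm_sq ℂ).contDiffAt
  exact h1.sqrt (by linarith)

theorem zz_contDiffAt (a b c : ℝ) (e : V) (w : V) (hw : ‖w‖ ^ 2 < c) (n : WithTop ℕ∞) :
    ContDiffAt ℝ n (zz a b c e) w := by
  have h1 : ContDiffAt ℝ n (fun w : V => ((a * rho c w : ℝ) : ℂ)) w :=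
    Complex.ofRealCLM.contDiff.contDiffAt.comp w (contDiffAt_const.mul (rho_contDiffAt c w hw n))
  have h2 : ContDiffAt ℝ n (fun w : V => (b : ℂ) * innerR e w) w :=
    contDiffAt_const.mul (innerR e).contDiff.contDiffAt
  exact h1.sub h2

theorem kk_contDiffAt (a b c : ℝ) (e : V) (w : V) (hw : ‖w‖ ^ 2 < c) (n : WithTop ℕ∞) :
    ContDiffAt ℝ n (kk a b c e) w := by
  have h1 : ContDiffAt ℝ n (fun w : V => ((b * rho c w : ℝ) : ℂ)) w :=
    Complex.ofRealCLM.contDiff.contDiffAt.comp w (contDiffAt_const.mul (rho_contDiffAt c w hw n))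
  have h2 : ContDiffAt ℝ n (fun w : V => ((a - 1 : ℝ) : ℂ) * innerR e w) w :=
    contDiffAt_const.mul (innerR e).contDiff.contDiffAt
  exact h2.add h1

theorem vv_contDiffAt (a b c : ℝ) (e : V) (w : V) (hw : ‖w‖ ^ 2 < c) (n : WithTop ℕ∞) :
    ContDiffAt ℝ n (vv a b c e) w :=
  contDiffAt_id.add ((kk_contDiffAt a b c e w hw n).smul_const e)

theorem gg_eq (a b c : ℝ) (e : V) :
    gg a b c e = fun w => conj (zz a b c e w) * (((‖zz a b c e w‖ : ℝ) : ℂ))⁻¹ := by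
  funext w
  unfold gg
  rw [div_eq_mul_inv]

theorem gg_contDiffAt (a b c : ℝ) (e : V) (w : V) (hw : ‖w‖ ^ 2 < c) (hz : zz a b c e w ≠ 0)
    (n : WithTop ℕ∞) : ContDiffAt ℝ n (gg a b c e) w := by
  have hzd := zz_contDiffAt a b c e w hw n
  have h1 : ContDiffAt ℝ n (fun w : V => conj (zz a b c e w)) w :=
    Complex.conjCLE.contDiff.contDiffAt.comp w hzd
  have h2 : ContDiffAt ℝ n (fun w : V => ‖zz a b c e w‖) w := hzd.norm ℂ hz
  have h3 : ContDiffAt ℝ n (fun w : V => ((‖zz a b c e w‖ : ℝ) : ℂ)) w :=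
    Complex.ofRealCLM.contDiff.contDiffAt.comp w h2
  have hn : ((‖zz a b c e w‖ : ℝ) : ℂ) ≠ 0 := by
    exact_mod_cast (norm_ne_zero_iff.2 hz)
  rw [gg_eq]
  exact h1.mul (h3.inv hn)

theorem GG_contDiffAt (a b c : ℝ) (e : V) (w : V) (hw : ‖w‖ ^ 2 < c) (hz : zz a b c e w ≠ 0)
    (n : WithTop ℕ∞) : ContDiffAt ℝ n (GG a b c e) w :=
  (gg_contDiffAt a b c e w hw hz n).smul (vv_contDiffAt a b c e w hw n)

theorem GG_contDiffOn (a b c : ℝ) (e : V) (he : ‖e‖ = 1) (ha : 0 < a) (hab : a ^ 2 + b ^ 2 = 1)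
    (n : WithTop ℕ∞) : ContDiffOn ℝ n (GG a b c e) {w : V | ‖w‖ ^ 2 < a ^ 2 * c} := by
  intro w hw
  simp only [Set.mem_setOf_eq] at hw
  exact (GG_contDiffAt a b c e w (lt_of_lt_mul hab (sq_nonneg _) hw)
    (zz_ne_zero a b c e he ha hab w hw) n).contDiffWithinAt

end Vale.Agent.Lib.P209
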