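import Vale.Agent.Lib.P209.Twist

open Complex ComplexConjugate Filter Topology

namespace Vale.Agent.Lib.P209

variable {V : Type*} [NormedAddCommGroup V] [InnerProductSpace ℂ V]

/-- `x(w) = Re ⟪e, w⟫`. -/
noncomputable def sx (e w : V) : ℝ := (inner ℂ e w).re

/-- `y(w) = Im ⟪e, w⟫`. -/
noncomputable def sy (e w : V) : ℝ := (inner ℂ e w).im

/-- `N(w) = ‖w - ⟪e, w⟫ e‖²`. -/
noncomputable def sN (e w : V) : ℝ := ‖perp e w‖ ^ 2

/-- `D(w) = M - N(w) - x(w)²`. -/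
noncomputable def sD (M : ℝ) (e w : V) : ℝ := M - sN e w - sx e w * sx e w

/-- `s(w) = sqrt D(w)`. -/
noncomputable def ss (M : ℝ) (e w : V) : ℝ := Real.sqrt (sD M e w)

/-- `θ(w) = y / (2 s)`. -/
noncomputable def sth (M : ℝ) (e w : V) : ℝ := sy e w * (2 * ss M e w)⁻¹

/-- `φ(w) = arctan (x / s) + π / 2`. -/
noncomputable def sph (M : ℝ) (e w : V) : ℝ :=
  Real.arctan (sx e w * (ss M e w)⁻¹) + Real.pi / 2

/-- `A(w) = ε + (M - N) φ + x s`: the area swept, shifted by `ε`. -/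
noncomputable def sA (M ε : ℝ) (e w : V) : ℝ :=
  ε + ((M - sN e w) * sph M e w + sx e w * ss M e w)

/-- `τ(w) = 2 θ φ`. -/
noncomputable def stau (M : ℝ) (e w : V) : ℝ := 2 * (sth M e w * sph M e w)

noncomputable def XL (e : V) : V →L[ℝ] ℝ := Complex.reCLM.comp (innerR e)

noncomputable def YL (e : V) : V →L[ℝ] ℝ := Complex.imCLM.comp (innerR e)

noncomputable def NL (e w : V) : V →L[ℝ] ℝ :=
  Complex.reCLM.comp ((fderivInnerCLM ℂ (perp e w, perp e w)).comp ((perpL e).prod (perpL e)))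

theorem XL_apply (e u : V) : XL e u = (inner ℂ e u).re := rfl

theorem YL_apply (e u : V) : YL e u = (inner ℂ e u).im := rfl

theorem NL_apply (e w u : V) : NL e w u = 2 * (inner ℂ (perp e w) (perp e u)).re := by
  simp only [NL, ContinuousLinearMap.comp_apply, ContinuousLinearMap.prod_apply, perpL_apply,
    fderivInnerCLM_apply, Complex.reCLM_apply, Complex.add_re]
  have h : (inner ℂ (perp e u) (perp e w)).re = (inner ℂ (perp e w) (perp e u)).re := by
    rw [← inner_conj_symm, Complex.conj_re]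
  rw [h]
  ring

theorem sx_hasFDerivAt (e w : V) : HasFDerivAt (sx e) (XL e) w := (XL e).hasFDerivAt

theorem sy_hasFDerivAt (e w : V) : HasFDerivAt (sy e) (YL e) w := (YL e).hasFDerivAt

theorem perp_hasFDerivAt (e w : V) : HasFDerivAt (perp e) (perpL e) w := by
  have h1 : perp e = fun w => perpL e w := by
    funext w
    rw [perpL_apply]
  rw [h1]
  exact (perpL e).hasFDerivAt

theorem sN_hasFDerivAt (e w : V) : HasFDerivAt (sN e) (NL e w) w := by
  have h := Complex.reCLM.hasFDerivAt.comp w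
    ((perp_hasFDerivAt e w).inner ℂ (perp_hasFDerivAt e w))
  have h1 : sN e = ⇑Complex.reCLM ∘ fun t => inner ℂ (perp e t) (perp e t) := by
    funext t
    simp only [Function.comp_apply, Complex.reCLM_apply, sN]
    rw [inner_self_eq_norm_sq_to_K]
    norm_cast
  rw [h1]
  exact h

/-- Derivative of `s`. -/
noncomputable def DsL (M : ℝ) (e w : V) : V →L[ℝ] ℝ :=
  (1 / (2 * ss M e w)) • (-NL e w - (sx e w • XL e + sx e w • XL e))

/-- Derivative of `θ`. -/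
noncomputable def DthL (M : ℝ) (e w : V) : V →L[ℝ] ℝ :=
  sy e w • (-((2 * ss M e w) ^ 2)⁻¹ • ((2 : ℝ) • DsL M e w)) + (2 * ss M e w)⁻¹ • YL e

/-- Derivative of `x / s`. -/
noncomputable def DtL (M : ℝ) (e w : V) : V →L[ℝ] ℝ :=
  sx e w • (-(ss M e w ^ 2)⁻¹ • DsL M e w) + (ss M e w)⁻¹ • XL e

/-- Derivative of `φ`. -/
noncomputable def DphL (M : ℝ) (e w : V) : V →L[ℝ] ℝ :=
  (1 / (1 + (sx e w * (ss M e w)⁻¹) ^ 2)) • DtL M e w

/-- Derivative of `A`. -/
noncomputable def DAL (M : ℝ) (e w : V) : V →L[ℝ] ℝ :=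
  (M - sN e w) • DphL M e w + sph M e w • -NL e w + (sx e w • DsL M e w + ss M e w • XL e)

/-- Derivative of `τ`. -/
noncomputable def DtauL (M : ℝ) (e w : V) : V →L[ℝ] ℝ :=
  (2 : ℝ) • (sth M e w • DphL M e w + sph M e w • DthL M e w)

theorem ss_hasFDerivAt (M : ℝ) (e w : V) (hD : sD M e w ≠ 0) :
    HasFDerivAt (ss M e) (DsL M e w) w :=
  (((sN_hasFDerivAt e w).const_sub M).sub
    ((sx_hasFDerivAt e w).mul (sx_hasFDerivAt e w))).sqrt hD

theorem sth_hasFDerivAt (M : ℝ) (e w : V) (hD : sD M e w ≠ 0) (hs : ss M e w ≠ 0) :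
    HasFDerivAt (sth M e) (DthL M e w) w := by
  have hs' := ss_hasFDerivAt M e w hD
  have h2s := hs'.const_mul 2
  have h2s0 : 2 * ss M e w ≠ 0 := mul_ne_zero two_ne_zero hs
  have hinv := (hasDerivAt_inv h2s0).comp_hasFDerivAt w h2s
  exact (sy_hasFDerivAt e w).mul hinv

theorem sph_hasFDerivAt (M : ℝ) (e w : V) (hD : sD M e w ≠ 0) (hs : ss M e w ≠ 0) :
    HasFDerivAt (sph M e) (DphL M e w) w := by
  have hs' := ss_hasFDerivAt M e w hD
  have hsinv := (hasDerivAt_inv hs).comp_hasFDerivAt w hs'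
  have ht := (sx_hasFDerivAt e w).mul hsinv
  exact ht.arctan.add_const (Real.pi / 2)

theorem sA_hasFDerivAt (M ε : ℝ) (e w : V) (hD : sD M e w ≠ 0) (hs : ss M e w ≠ 0) :
    HasFDerivAt (sA M ε e) (DAL M e w) w := by
  have hs' := ss_hasFDerivAt M e w hD
  have hφ := sph_hasFDerivAt M e w hD hs
  have hm := (sN_hasFDerivAt e w).const_sub M
  have h1 := hm.mul hφ
  have h2 := (sx_hasFDerivAt e w).mul hs'
  exact (h1.add h2).const_add ε

theorem stau_hasFDerivAt (M : ℝ) (e w : V) (hD : sD M e w ≠ 0) (hs : ss M e w ≠ 0) :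
    HasFDerivAt (stau M e) (DtauL M e w) w :=
  ((sth_hasFDerivAt M e w hD hs).mul (sph_hasFDerivAt M e w hD hs)).const_mul 2

theorem norm_sq_decomp (e : V) (he : ‖e‖ = 1) (w : V) :
    ‖w‖ ^ 2 = sx e w * sx e w + sy e w * sy e w + sN e w := by
  unfold sN sx sy
  rw [norm_sq_perp e he w, ← Complex.normSq_eq_norm_sq, Complex.normSq_apply]
  ring

theorem sD_eq (M : ℝ) (e : V) (he : ‖e‖ = 1) (w : V) :
    sD M e w = M - ‖w‖ ^ 2 + sy e w * sy e w := by
  unfold sD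
  rw [norm_sq_decomp e he w]
  ring

theorem sy_sq_lt_sD (M : ℝ) (e : V) (he : ‖e‖ = 1) (w : V) (hw : ‖w‖ ^ 2 < M) :
    sy e w * sy e w < sD M e w := by
  rw [sD_eq M e he w]
  linarith

theorem sD_pos (M : ℝ) (e : V) (he : ‖e‖ = 1) (w : V) (hw : ‖w‖ ^ 2 < M) : 0 < sD M e w :=
  lt_of_le_of_lt (mul_self_nonneg _) (sy_sq_lt_sD M e he w hw)

theorem ss_pos (M : ℝ) (e : V) (he : ‖e‖ = 1) (w : V) (hw : ‖w‖ ^ 2 < M) : 0 < ss M e w :=
  Real.sqrt_pos.2 (sD_pos M e he w hw)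

theorem ss_sq (M : ℝ) (e : V) (he : ‖e‖ = 1) (w : V) (hw : ‖w‖ ^ 2 < M) :
    ss M e w ^ 2 = sD M e w :=
  Real.sq_sqrt (sD_pos M e he w hw).le

theorem M_sub_sN (M : ℝ) (e : V) (he : ‖e‖ = 1) (w : V) (hw : ‖w‖ ^ 2 < M) :
    M - sN e w = sx e w * sx e w + ss M e w ^ 2 := by
  rw [ss_sq M e he w hw]
  unfold sD
  ring

/-- Bounds for the area function: `0 ≤ m φ + x s ≤ π m` with `m = x² + s²`. -/
theorem area_bounds (x s : ℝ) (hs : 0 < s) :
    0 ≤ (x * x + s ^ 2) * (Real.arctan (x * s⁻¹) + Real.pi / 2) + x * s ∧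
    (x * x + s ^ 2) * (Real.arctan (x * s⁻¹) + Real.pi / 2) + x * s ≤
      Real.pi * (x * x + s ^ 2) := by
  set ψ := Real.arctan (x * s⁻¹) with hψ
  have hψ1 : -(Real.pi / 2) < ψ := Real.neg_pi_div_two_lt_arctan _
  have hψ2 : ψ < Real.pi / 2 := Real.arctan_lt_pi_div_two _
  have hcos : 0 < Real.cos ψ := Real.cos_arctan_pos _
  have htan : Real.tan ψ = x * s⁻¹ := Real.tan_arctan _
  have hxs : x * Real.cos ψ = s * Real.sin ψ := by
    rw [Real.tan_eq_sin_div_cos] at htan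
    have h1 : Real.sin ψ = x * s⁻¹ * Real.cos ψ := by
      field_simp at htan ⊢
      linarith
    rw [h1]
    field_simp
  have hsc : Real.sin ψ ^ 2 + Real.cos ψ ^ 2 = 1 := Real.sin_sq_add_cos_sq ψ
  have hprod : x * s = (x * x + s ^ 2) * (Real.sin ψ * Real.cos ψ) := by
    linear_combination (-(x * s)) * hsc - (x * Real.sin ψ - s * Real.cos ψ) * hxs
  have hm : 0 < x * x + s ^ 2 := add_pos_of_nonneg_of_pos (mul_self_nonneg x) (pow_pos hs 2)
  have hc1 : Real.cos ψ ≤ Real.pi / 2 - ψ := by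
    have := Real.sin_le (x := Real.pi / 2 - ψ) (by linarith)
    rwa [Real.sin_pi_div_two_sub] at this
  have hc2 : Real.cos ψ ≤ ψ + Real.pi / 2 := by
    have := Real.sin_le (x := ψ + Real.pi / 2) (by linarith)
    rwa [Real.sin_add_pi_div_two] at this
  have hs1 : Real.sin ψ ≤ 1 := Real.sin_le_one ψ
  have hs2 : -1 ≤ Real.sin ψ := Real.neg_one_le_sin ψ
  have hσ1 : Real.sin ψ * Real.cos ψ ≤ Real.pi / 2 - ψ := by nlinarith
  have hσ2 : -(ψ + Real.pi / 2) ≤ Real.sin ψ * Real.cos ψ := by nlinarith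
  rw [hprod]
  constructor
  · have : 0 ≤ (x * x + s ^ 2) * (ψ + Real.pi / 2 + Real.sin ψ * Real.cos ψ) :=
      mul_nonneg hm.le (by linarith)
    linarith
  · have : (x * x + s ^ 2) * (ψ + Real.sin ψ * Real.cos ψ) ≤ (x * x + s ^ 2) * (Real.pi / 2) :=
      mul_le_mul_of_nonneg_left (by linarith) hm.le
    linarith

theorem sA_bounds (M ε : ℝ) (e : V) (he : ‖e‖ = 1) (w : V) (hw : ‖w‖ ^ 2 < M) :
    ε ≤ sA M ε e w ∧ sA M ε e w ≤ ε + Real.pi * (M - sN e w) := by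
  have hb := area_bounds (sx e w) (ss M e w) (ss_pos M e he w hw)
  unfold sA sph
  rw [M_sub_sN M e he w hw]
  constructor
  · linarith [hb.1]
  · linarith [hb.2]

end Vale.Agent.Lib.P209
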