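import Vale.Agent.Lib.P209.Squeeze

open Complex ComplexConjugate Filter Topology

namespace Vale.Agent.Lib.P209

variable {V : Type*} [NormedAddCommGroup V] [InnerProductSpace ℂ V]

/-- The radial function of the squeeze map. -/
noncomputable def sr (M ε : ℝ) (e w : V) : ℝ := Real.sqrt (Real.pi⁻¹ * sA M ε e w)

/-- The angular function of the squeeze map. -/
noncomputable def svt (M : ℝ) (e w : V) : ℝ := 2 * Real.pi * sth M e w

/-- The squeeze map. -/
noncomputable def SQ (M ε : ℝ) (e : V) : V → V := twist (sr M ε e) (svt M e) (stau M e) e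

theorem sA_pos (M ε : ℝ) (hε : 0 < ε) (e : V) (he : ‖e‖ = 1) (w : V) (hw : ‖w‖ ^ 2 < M) :
    0 < sA M ε e w := lt_of_lt_of_le hε (sA_bounds M ε e he w hw).1

theorem sr_pos (M ε : ℝ) (hε : 0 < ε) (e : V) (he : ‖e‖ = 1) (w : V) (hw : ‖w‖ ^ 2 < M) :
    0 < sr M ε e w :=
  Real.sqrt_pos.2 (mul_pos (inv_pos.2 Real.pi_pos) (sA_pos M ε hε e he w hw))

theorem sr_sq (M ε : ℝ) (hε : 0 < ε) (e : V) (he : ‖e‖ = 1) (w : V) (hw : ‖w‖ ^ 2 < M) :
    sr M ε e w ^ 2 = Real.pi⁻¹ * sA M ε e w :=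
  Real.sq_sqrt (mul_pos (inv_pos.2 Real.pi_pos) (sA_pos M ε hε e he w hw)).le

theorem sr_hasFDerivAt (M ε : ℝ) (hε : 0 < ε) (e : V) (he : ‖e‖ = 1) (w : V)
    (hw : ‖w‖ ^ 2 < M) :
    HasFDerivAt (sr M ε e) ((1 / (2 * sr M ε e w)) • (Real.pi⁻¹ • DAL M e w)) w := by
  have hD := (sD_pos M e he w hw).ne'
  have hs := (ss_pos M e he w hw).ne'
  have hA := (sA_hasFDerivAt M ε e w hD hs).const_mul Real.pi⁻¹
  exact hA.sqrt (mul_pos (inv_pos.2 Real.pi_pos) (sA_pos M ε hε e he w hw)).ne'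

theorem svt_hasFDerivAt (M : ℝ) (e : V) (he : ‖e‖ = 1) (w : V) (hw : ‖w‖ ^ 2 < M) :
    HasFDerivAt (svt M e) ((2 * Real.pi) • DthL M e w) w := by
  have hD := (sD_pos M e he w hw).ne'
  have hs := (ss_pos M e he w hw).ne'
  exact (sth_hasFDerivAt M e w hD hs).const_mul (2 * Real.pi)

theorem SQ_symplectic (M ε : ℝ) (hε : 0 < ε) (e : V) (he : ‖e‖ = 1) (w : V)
    (hw : ‖w‖ ^ 2 < M) (u v : V) :
    (inner ℂ (fderiv ℝ (SQ M ε e) w u) (fderiv ℝ (SQ M ε e) w v)).im = (inner ℂ u v).im := by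
  have hD := (sD_pos M e he w hw).ne'
  have hspos := ss_pos M e he w hw
  have hs := hspos.ne'
  have hr := (sr_pos M ε hε e he w hw).ne'
  have hpi := Real.pi_pos.ne'
  unfold SQ
  rw [twist_fderiv_im _ _ _ e he w _ _ _ (sr_hasFDerivAt M ε hε e he w hw)
    (svt_hasFDerivAt M e he w hw) (stau_hasFDerivAt M e w hD hs) u v]
  have hNu : (inner ℂ (perp e w) (perp e u)).re = NL e w u / 2 := by
    rw [NL_apply]; ring
  have hNv : (inner ℂ (perp e w) (perp e v)).re = NL e w v / 2 := by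
    rw [NL_apply]; ring
  have hI : (inner ℂ (perp e u) (perp e v)).im =
      (inner ℂ u v).im - (XL e u * YL e v - YL e u * XL e v) := by
    rw [inner_perp_perp e he, XL_apply, YL_apply, XL_apply, YL_apply]
    simp only [Complex.sub_im, Complex.mul_im, Complex.conj_re, Complex.conj_im]
    ring
  rw [hNu, hNv, hI]
  have hMN := M_sub_sN M e he w hw
  simp only [DAL, DtauL, DthL, DphL, DtL, DsL, ContinuousLinearMap.add_apply,
    ContinuousLinearMap.smul_apply, ContinuousLinearMap.neg_apply,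
    ContinuousLinearMap.sub_apply, smul_eq_mul]
  rw [hMN]
  unfold sth
  set x := sx e w
  set y := sy e w
  set s := ss M e w
  set φ := sph M e w
  set Xu := XL e u
  set Yu := YL e u
  set Lu := NL e w u
  set Xv := XL e v
  set Yv := YL e v
  set Lv := NL e w v
  set ρ := sr M ε e w
  have hm : x * x + s ^ 2 ≠ 0 :=
    (add_pos_of_nonneg_of_pos (mul_self_nonneg x) (pow_pos hspos 2)).ne'
  have h1 : (1 + (x * s⁻¹) ^ 2) ≠ 0 := (add_pos_of_pos_of_nonneg one_pos (sq_nonneg _)).ne'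
  field_simp
  ring

theorem inner_e_SQ (M ε : ℝ) (e : V) (he : ‖e‖ = 1) (w : V) :
    inner ℂ e (SQ M ε e w) =
      ((sr M ε e w : ℝ) : ℂ) * Complex.exp (((svt M e w : ℝ) : ℂ) * Complex.I) := by
  unfold SQ twist
  rw [inner_add_right, inner_smul_right, inner_smul_right, inner_e_perp e he,
    inner_self_eq_norm_sq_to_K, he]
  simp

theorem perp_SQ (M ε : ℝ) (e : V) (he : ‖e‖ = 1) (w : V) :
    perp e (SQ M ε e w) = Complex.exp (((stau M e w : ℝ) : ℂ) * Complex.I) • perp e w := by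
  have h := inner_e_SQ M ε e he w
  have h1 : perp e (SQ M ε e w) = SQ M ε e w - inner ℂ e (SQ M ε e w) • e := rfl
  rw [h1, h]
  unfold SQ twist
  abel

theorem norm_inner_e_SQ (M ε : ℝ) (hε : 0 < ε) (e : V) (he : ‖e‖ = 1) (w : V)
    (hw : ‖w‖ ^ 2 < M) : ‖inner ℂ e (SQ M ε e w)‖ = sr M ε e w := by
  rw [inner_e_SQ M ε e he w, norm_mul, Complex.norm_exp_ofReal_mul_I, mul_one,
    Complex.norm_real, Real.norm_of_nonneg (sr_pos M ε hε e he w hw).le]

theorem inner_e_SQ_ne_zero (M ε : ℝ) (hε : 0 < ε) (e : V) (he : ‖e‖ = 1) (w : V)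
    (hw : ‖w‖ ^ 2 < M) : inner ℂ e (SQ M ε e w) ≠ 0 := by
  intro h0
  have h := norm_inner_e_SQ M ε hε e he w hw
  rw [h0, norm_zero] at h
  exact (sr_pos M ε hε e he w hw).ne h

theorem norm_sq_inner_e_SQ (M ε : ℝ) (hε : 0 < ε) (e : V) (he : ‖e‖ = 1) (w : V)
    (hw : ‖w‖ ^ 2 < M) : ‖inner ℂ e (SQ M ε e w)‖ ^ 2 = Real.pi⁻¹ * sA M ε e w := by
  rw [norm_inner_e_SQ M ε hε e he w hw, sr_sq M ε hε e he w hw]

theorem norm_sq_SQ (M ε : ℝ) (hε : 0 < ε) (e : V) (he : ‖e‖ = 1) (w : V)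
    (hw : ‖w‖ ^ 2 < M) : ‖SQ M ε e w‖ ^ 2 = Real.pi⁻¹ * sA M ε e w + sN e w := by
  have h1 := norm_sq_perp e he (SQ M ε e w)
  rw [perp_SQ M ε e he w, norm_smul, Complex.norm_exp_ofReal_mul_I, one_mul,
    norm_sq_inner_e_SQ M ε hε e he w hw] at h1
  unfold sN
  linarith

theorem norm_sq_SQ_le (M ε : ℝ) (hε : 0 < ε) (e : V) (he : ‖e‖ = 1) (w : V)
    (hw : ‖w‖ ^ 2 < M) : ‖SQ M ε e w‖ ^ 2 ≤ Real.pi⁻¹ * ε + M := by
  rw [norm_sq_SQ M ε hε e he w hw]
  have hb := (sA_bounds M ε e he w hw).2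
  have hpi := Real.pi_pos
  have h2 : Real.pi⁻¹ * sA M ε e w ≤ Real.pi⁻¹ * (ε + Real.pi * (M - sN e w)) :=
    mul_le_mul_of_nonneg_left hb (inv_pos.2 hpi).le
  have h3 : Real.pi⁻¹ * (ε + Real.pi * (M - sN e w)) = Real.pi⁻¹ * ε + (M - sN e w) := by
    field_simp
  linarith

/-- Strict monotonicity of the map sending `ψ` to `ψ + sin ψ cos ψ` between `-π/2` and `π/2`. -/
theorem angle_strict (ψ₁ ψ₂ : ℝ) (h1 : -(Real.pi / 2) < ψ₁) (h2 : ψ₂ < Real.pi / 2)
    (h : ψ₁ < ψ₂) :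
    ψ₁ + Real.sin ψ₁ * Real.cos ψ₁ < ψ₂ + Real.sin ψ₂ * Real.cos ψ₂ := by
  have ht : 0 < ψ₂ - ψ₁ := by linarith
  have htpi : ψ₂ - ψ₁ < Real.pi := by linarith
  have hsin1 : Real.sin (ψ₂ - ψ₁) < ψ₂ - ψ₁ := Real.sin_lt ht
  have hsin0 : 0 < Real.sin (ψ₂ - ψ₁) := Real.sin_pos_of_pos_of_lt_pi ht htpi
  have hcos : -1 ≤ Real.cos (ψ₁ + ψ₂) := Real.neg_one_le_cos _
  have hid : Real.sin ψ₂ * Real.cos ψ₂ - Real.sin ψ₁ * Real.cos ψ₁ =
      Real.cos (ψ₁ + ψ₂) * Real.sin (ψ₂ - ψ₁) := by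
    rw [Real.cos_add, Real.sin_sub]
    have e1 := Real.sin_sq_add_cos_sq ψ₁
    have e2 := Real.sin_sq_add_cos_sq ψ₂
    linear_combination (-(Real.sin ψ₂ * Real.cos ψ₂)) * e1 + (Real.sin ψ₁ * Real.cos ψ₁) * e2
  nlinarith

/-- The area function determines the point: injectivity in `x` for fixed `x² + s²`. -/
theorem area_inj (x s x' s' : ℝ) (hs : 0 < s) (hs' : 0 < s')
    (hm : x * x + s ^ 2 = x' * x' + s' ^ 2)
    (hA : (x * x + s ^ 2) * (Real.arctan (x * s⁻¹) + Real.pi / 2) + x * s =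
      (x' * x' + s' ^ 2) * (Real.arctan (x' * s'⁻¹) + Real.pi / 2) + x' * s') :
    x = x' ∧ s = s' := by
  have key : ∀ x s : ℝ, 0 < s →
      x * Real.cos (Real.arctan (x * s⁻¹)) = s * Real.sin (Real.arctan (x * s⁻¹)) ∧
      x * s = (x * x + s ^ 2) *
        (Real.sin (Real.arctan (x * s⁻¹)) * Real.cos (Real.arctan (x * s⁻¹))) := by
    intro x s hs
    set ψ := Real.arctan (x * s⁻¹) with hψ
    have hcos : 0 < Real.cos ψ := Real.cos_arctan_pos _
    have htan : Real.tan ψ = x * s⁻¹ := Real.tan_arctan _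
    have hxs : x * Real.cos ψ = s * Real.sin ψ := by
      rw [Real.tan_eq_sin_div_cos] at htan
      have h1 : Real.sin ψ = x * s⁻¹ * Real.cos ψ := by
        field_simp at htan ⊢
        linarith
      rw [h1]
      field_simp
    have hsc : Real.sin ψ ^ 2 + Real.cos ψ ^ 2 = 1 := Real.sin_sq_add_cos_sq ψ
    refine ⟨hxs, ?_⟩
    linear_combination (-(x * s)) * hsc - (x * Real.sin ψ - s * Real.cos ψ) * hxs
  obtain ⟨k1, k2⟩ := key x s hs
  obtain ⟨k1', k2'⟩ := key x' s' hs'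
  set ψ := Real.arctan (x * s⁻¹) with hψ
  set ψ' := Real.arctan (x' * s'⁻¹) with hψ'
  have hmpos : 0 < x * x + s ^ 2 := add_pos_of_nonneg_of_pos (mul_self_nonneg x) (pow_pos hs 2)
  have hg : ψ + Real.sin ψ * Real.cos ψ = ψ' + Real.sin ψ' * Real.cos ψ' := by
    rw [k2, k2', ← hm] at hA
    have h3 : (x * x + s ^ 2) * (ψ + Real.sin ψ * Real.cos ψ) =
        (x * x + s ^ 2) * (ψ' + Real.sin ψ' * Real.cos ψ') := by linarith
    exact mul_left_cancel₀ hmpos.ne' h3
  have hψeq : ψ = ψ' := by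
    by_contra hne
    rcases lt_or_gt_of_ne hne with hlt | hgt
    · have := angle_strict ψ ψ' (Real.neg_pi_div_two_lt_arctan _) (Real.arctan_lt_pi_div_two _) hlt
      linarith
    · have := angle_strict ψ' ψ (Real.neg_pi_div_two_lt_arctan _) (Real.arctan_lt_pi_div_two _) hgt
      linarith
  rw [← hψeq] at k1'
  have hcos : 0 < Real.cos ψ := Real.cos_arctan_pos _
  have hsc : Real.sin ψ ^ 2 + Real.cos ψ ^ 2 = 1 := Real.sin_sq_add_cos_sq ψ
  -- `s = √m cos ψ` in squared form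
  have hs2 : s ^ 2 = (x * x + s ^ 2) * Real.cos ψ ^ 2 := by
    linear_combination (-(s ^ 2)) * hsc - (x * Real.cos ψ + s * Real.sin ψ) * k1
  have hs2' : s' ^ 2 = (x' * x' + s' ^ 2) * Real.cos ψ ^ 2 := by
    linear_combination (-(s' ^ 2)) * hsc - (x' * Real.cos ψ + s' * Real.sin ψ) * k1'
  have hss : s = s' := by
    have h4 : s ^ 2 = s' ^ 2 := by rw [hs2, hs2', hm]
    nlinarith
  refine ⟨?_, hss⟩
  rw [← hss] at k1'
  have h5 : x * Real.cos ψ = x' * Real.cos ψ := by rw [k1, k1']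
  exact mul_right_cancel₀ hcos.ne' h5

theorem sth_abs_lt (M : ℝ) (e : V) (he : ‖e‖ = 1) (w : V) (hw : ‖w‖ ^ 2 < M) :
    |sth M e w| < 1 / 2 := by
  have hs := ss_pos M e he w hw
  have hlt := sy_sq_lt_sD M e he w hw
  rw [← ss_sq M e he w hw] at hlt
  have habs : |sy e w| < ss M e w := abs_lt_of_sq_lt_sq (by rw [sq]; exact hlt) hs.le
  unfold sth
  rw [abs_mul, abs_inv, abs_of_pos (by linarith : (0 : ℝ) < 2 * ss M e w)]
  have h2 : |sy e w| * (2 * ss M e w)⁻¹ < ss M e w * (2 * ss M e w)⁻¹ :=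
    mul_lt_mul_of_pos_right habs (inv_pos.2 (by linarith))
  have h3 : ss M e w * (2 * ss M e w)⁻¹ = 1 / 2 := by
    field_simp
  linarith

theorem SQ_injOn (M ε : ℝ) (hε : 0 < ε) (e : V) (he : ‖e‖ = 1) :
    Set.InjOn (SQ M ε e) {w : V | ‖w‖ ^ 2 < M} := by
  intro w hw w' hw' hEq
  simp only [Set.mem_setOf_eq] at hw hw'
  have hpi := Real.pi_pos
  have hi : ((sr M ε e w : ℝ) : ℂ) * Complex.exp (((svt M e w : ℝ) : ℂ) * Complex.I) =
      ((sr M ε e w' : ℝ) : ℂ) * Complex.exp (((svt M e w' : ℝ) : ℂ) * Complex.I) := by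
    rw [← inner_e_SQ M ε e he w, ← inner_e_SQ M ε e he w', hEq]
  have hsr : sr M ε e w = sr M ε e w' := by
    rw [← norm_inner_e_SQ M ε hε e he w hw, ← norm_inner_e_SQ M ε hε e he w' hw', hEq]
  have hA : sA M ε e w = sA M ε e w' := by
    have h1 := sr_sq M ε hε e he w hw
    have h2 := sr_sq M ε hε e he w' hw'
    rw [hsr] at h1
    exact mul_left_cancel₀ (inv_pos.2 hpi).ne' (h1.symm.trans h2)
  have hexp : Complex.exp (((svt M e w : ℝ) : ℂ) * Complex.I) =
      Complex.exp (((svt M e w' : ℝ) : ℂ) * Complex.I) := by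
    rw [hsr] at hi
    have hne : ((sr M ε e w' : ℝ) : ℂ) ≠ 0 := by
      exact_mod_cast (sr_pos M ε hε e he w' hw').ne'
    exact mul_left_cancel₀ hne hi
  have hth : sth M e w = sth M e w' := by
    obtain ⟨n, hn⟩ := Complex.exp_eq_exp_iff_exists_int.1 hexp
    have him := congrArg Complex.im hn
    simp only [Complex.add_im, Complex.mul_im, Complex.ofReal_re, Complex.ofReal_im,
      Complex.I_re, Complex.I_im, Complex.intCast_re, Complex.intCast_im, Complex.mul_re,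
      Complex.re_ofNat, Complex.im_ofNat] at him
    unfold svt at him
    have h1 := sth_abs_lt M e he w hw
    have h2 := sth_abs_lt M e he w' hw'
    rw [abs_lt] at h1 h2
    have h3 : sth M e w - sth M e w' = (n : ℝ) := by
      have h4 : 2 * Real.pi * (sth M e w - sth M e w') = 2 * Real.pi * (n : ℝ) := by
        linarith
      exact mul_left_cancel₀ (by positivity) h4
    have h5 : (n : ℝ) < 1 := by linarith
    have h6 : (-1 : ℝ) < (n : ℝ) := by linarith
    have h7 : n < 1 := by exact_mod_cast h5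
    have h8 : -1 < n := by exact_mod_cast h6
    have h9 : n = 0 := by omega
    rw [h9] at h3
    simp only [Int.cast_zero] at h3
    linarith
  have hperp : Complex.exp (((stau M e w : ℝ) : ℂ) * Complex.I) • perp e w =
      Complex.exp (((stau M e w' : ℝ) : ℂ) * Complex.I) • perp e w' := by
    rw [← perp_SQ M ε e he w, ← perp_SQ M ε e he w', hEq]
  have hN : sN e w = sN e w' := by
    have h1 := congrArg norm hperp
    rw [norm_smul, norm_smul, Complex.norm_exp_ofReal_mul_I, Complex.norm_exp_ofReal_mul_I,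
      one_mul, one_mul] at h1
    unfold sN
    rw [h1]
  have hm : sx e w * sx e w + ss M e w ^ 2 = sx e w' * sx e w' + ss M e w' ^ 2 := by
    rw [← M_sub_sN M e he w hw, ← M_sub_sN M e he w' hw', hN]
  have hA' : (sx e w * sx e w + ss M e w ^ 2) *
        (Real.arctan (sx e w * (ss M e w)⁻¹) + Real.pi / 2) + sx e w * ss M e w =
      (sx e w' * sx e w' + ss M e w' ^ 2) *
        (Real.arctan (sx e w' * (ss M e w')⁻¹) + Real.pi / 2) + sx e w' * ss M e w' := by
    unfold sA sph at hA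
    rw [M_sub_sN M e he w hw, M_sub_sN M e he w' hw'] at hA
    linarith
  obtain ⟨hx, hs⟩ := area_inj _ _ _ _ (ss_pos M e he w hw) (ss_pos M e he w' hw') hm hA'
  have hy : sy e w = sy e w' := by
    unfold sth at hth
    rw [hs] at hth
    have hne : (2 * ss M e w')⁻¹ ≠ 0 :=
      inv_ne_zero (by have := ss_pos M e he w' hw'; positivity)
    exact mul_right_cancel₀ hne hth
  have hph : sph M e w = sph M e w' := by
    unfold sph
    rw [hx, hs]
  have htau : stau M e w = stau M e w' := by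
    unfold stau
    rw [hth, hph]
  have hp : perp e w = perp e w' := by
    rw [htau] at hperp
    exact smul_right_injective V (Complex.exp_ne_zero _) hperp
  have hin : inner ℂ e w = inner ℂ e w' := Complex.ext hx hy
  have e1 : w = perp e w + inner ℂ e w • e := by
    unfold perp
    abel
  have e2 : w' = perp e w' + inner ℂ e w' • e := by
    unfold perp
    abel
  rw [e1, e2, hp, hin]

theorem SQ_contDiffAt (M ε : ℝ) (hε : 0 < ε) (e : V) (he : ‖e‖ = 1) (w : V)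
    (hw : ‖w‖ ^ 2 < M) (n : WithTop ℕ∞) : ContDiffAt ℝ n (SQ M ε e) w := by
  have hx : ContDiffAt ℝ n (sx e) w := (XL e).contDiff.contDiffAt
  have hy : ContDiffAt ℝ n (sy e) w := (YL e).contDiff.contDiffAt
  have hp : ContDiffAt ℝ n (perp e) w := by
    have h1 : perp e = fun w => perpL e w := by
      funext w
      rw [perpL_apply]
    rw [h1]
    exact (perpL e).contDiff.contDiffAt
  have hN : ContDiffAt ℝ n (sN e) w := hp.norm_sq ℂ
  have hD : ContDiffAt ℝ n (sD M e) w := (contDiffAt_const.sub hN).sub (hx.mul hx)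
  have hs : ContDiffAt ℝ n (ss M e) w := hD.sqrt (sD_pos M e he w hw).ne'
  have hs0 : ss M e w ≠ 0 := (ss_pos M e he w hw).ne'
  have hth : ContDiffAt ℝ n (sth M e) w :=
    hy.mul ((contDiffAt_const.mul hs).inv (mul_ne_zero two_ne_zero hs0))
  have hph : ContDiffAt ℝ n (sph M e) w :=
    (Real.contDiff_arctan.contDiffAt.comp w (hx.mul (hs.inv hs0))).add contDiffAt_const
  have hA : ContDiffAt ℝ n (sA M ε e) w :=
    contDiffAt_const.add (((contDiffAt_const.sub hN).mul hph).add (hx.mul hs))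
  have htau : ContDiffAt ℝ n (stau M e) w := contDiffAt_const.mul (hth.mul hph)
  have hr : ContDiffAt ℝ n (sr M ε e) w :=
    (contDiffAt_const.mul hA).sqrt
      (mul_pos (inv_pos.2 Real.pi_pos) (sA_pos M ε hε e he w hw)).ne'
  have hvt : ContDiffAt ℝ n (svt M e) w := contDiffAt_const.mul hth
  have hrc : ContDiffAt ℝ n (fun w => ((sr M ε e w : ℝ) : ℂ)) w :=
    Complex.ofRealCLM.contDiff.contDiffAt.comp w hr
  have hvc : ContDiffAt ℝ n (fun w => ((svt M e w : ℝ) : ℂ) * Complex.I) w :=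
    (Complex.ofRealCLM.contDiff.contDiffAt.comp w hvt).mul contDiffAt_const
  have htc : ContDiffAt ℝ n (fun w => ((stau M e w : ℝ) : ℂ) * Complex.I) w :=
    (Complex.ofRealCLM.contDiff.contDiffAt.comp w htau).mul contDiffAt_const
  exact ((hrc.mul hvc.cexp).smul_const e).add (htc.cexp.smul hp)

end Vale.Agent.Lib.P209
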