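import Vale.Agent.Lib.P209.WChartSymp
import Vale.Agent.Lib.P209.Corner

open Complex ComplexConjugate Filter Topology

namespace Vale.Agent.Lib.P209

section General

variable {V : Type*} [NormedAddCommGroup V] [InnerProductSpace ℂ V]

/-- `f` is smooth and injective on the open set `U`, and its derivative at every point of `U`
preserves the imaginary part of the Hermitian product. -/
def SympOn (f : V → V) (U : Set V) : Prop :=
  IsOpen U ∧ ContDiffOn ℝ ((⊤ : ℕ∞) : WithTop ℕ∞) f U ∧ Set.InjOn f U ∧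
    ∀ x ∈ U, ∀ u v : V, (inner ℂ (fderiv ℝ f x u) (fderiv ℝ f x v)).im = (inner ℂ u v).im

theorem sympOn_id {U : Set V} (hU : IsOpen U) : SympOn (id : V → V) U := by
  refine ⟨hU, contDiff_id.contDiffOn, Function.injective_id.injOn, ?_⟩
  intro x _ u v
  rw [fderiv_id]
  rfl

theorem SympOn.mono {f : V → V} {U U' : Set V} (hf : SympOn f U) (hU' : IsOpen U')
    (h : U' ⊆ U) : SympOn f U' :=
  ⟨hU', hf.2.1.mono h, hf.2.2.1.mono h, fun x hx => hf.2.2.2 x (h hx)⟩

theorem SympOn.comp {f g : V → V} {U W : Set V} (hf : SympOn f U) (hg : SympOn g W)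
    (h : Set.MapsTo f U W) : SympOn (g ∘ f) U := by
  obtain ⟨hU, hfs, hfi, hfω⟩ := hf
  obtain ⟨hW, hgs, hgi, hgω⟩ := hg
  refine ⟨hU, hgs.comp hfs h, hgi.comp hfi h, ?_⟩
  intro x hx u v
  have hfd : DifferentiableAt ℝ f x :=
    (hfs.contDiffAt (hU.mem_nhds hx)).differentiableAt (by simp)
  have hgd : DifferentiableAt ℝ g (f x) :=
    (hgs.contDiffAt (hW.mem_nhds (h hx))).differentiableAt (by simp)
  rw [fderiv_comp x hgd hfd]
  simp only [ContinuousLinearMap.comp_apply]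
  rw [hgω (f x) (h hx), hfω x hx]

theorem WG_sympOn (c : ℝ) (Q : V →L[ℂ] V) (e : V) (he : ‖e‖ = 1) (hQ : IsProjPerp Q e) :
    SympOn (WG c Q e) (wDom c Q e) :=
  ⟨isOpen_wDom c Q e, WG_contDiffOn c Q e _, WG_injOn c Q e he hQ,
    fun x hx u v => WG_symplectic c Q e he hQ x hx u v⟩

theorem GG_sympOn (c : ℝ) (e : V) (he : ‖e‖ = 1) :
    SympOn (GG 0 1 c e) (chartDom 0 1 c e) :=
  ⟨isOpen_chartDom 0 1 c e, GG_contDiffOn_gen 0 1 c e _, GG_injOn_gen 0 1 c e he (by norm_num),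
    fun x hx u v => GG_symplectic_gen 0 1 c e he (by norm_num) (chartDom 0 1 c e)
      (isOpen_chartDom 0 1 c e) (fun w hw => hw) x hx u v⟩

theorem SQ_sympOn (M ε : ℝ) (hε : 0 < ε) (e : V) (he : ‖e‖ = 1) :
    SympOn (SQ M ε e) {w : V | ‖w‖ ^ 2 < M} :=
  ⟨isOpen_lt (continuous_norm.pow 2) continuous_const,
    fun w hw => (SQ_contDiffAt M ε hε e he w hw _).contDiffWithinAt, SQ_injOn M ε hε e he,
    fun x hx u v => SQ_symplectic M ε hε e he x hx u v⟩

/-- Coordinates orthogonal to `e` are only multiplied by a phase under the squeeze map. -/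
theorem inner_SQ_of_orth (M ε : ℝ) (e f w : V) (hfe : inner ℂ f e = 0) :
    inner ℂ f (SQ M ε e w) =
      Complex.exp (((stau M e w : ℝ) : ℂ) * Complex.I) * inner ℂ f w := by
  unfold SQ twist perp
  rw [inner_add_right, inner_smul_right, inner_smul_right, inner_sub_right, inner_smul_right,
    hfe]
  ring

end General

theorem SympOn.isSympBallEmb {n : ℕ} {r : ℝ}
    {f : EuclideanSpace ℂ (Fin n) → EuclideanSpace ℂ (Fin n)}
    {U : Set (EuclideanSpace ℂ (Fin n))} (hf : SympOn f U) (h : capBall n r ⊆ U) :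
    IsSympBallEmb n r f := by
  refine ⟨U, hf.1, h, hf.2.1, hf.2.2.1, ?_⟩
  intro x hx u v
  rw [omega0_eq, omega0_eq]
  exact hf.2.2.2 x hx u v

end Vale.Agent.Lib.P209
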