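import Vale.Agent.Lib.P209.Halving
import Vale.Agent.Lib.P209.MultiSq

open Complex ComplexConjugate Filter Topology

namespace Vale.Agent.Lib.P209

section General

variable {V : Type*} [NormedAddCommGroup V] [InnerProductSpace ℂ V]

/-- Coordinates orthogonal to `e` are only multiplied by a phase under the chart at infinity. -/
theorem inner_GG_of_orth (c : ℝ) (e f w : V) (hfe : inner ℂ f e = 0) :
    inner ℂ f (GG 0 1 c e w) = gg 0 1 c e w * inner ℂ f w := by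
  unfold GG vv
  rw [inner_smul_right, inner_add_right, inner_smul_right, hfe]
  ring

end General

/-- The open toric piece: all coordinates nonzero and squared norm below `s`. -/
def Tor (n : ℕ) (s : ℝ) : Set (EuclideanSpace ℂ (Fin n)) :=
  {w | (∀ i, w i ≠ 0) ∧ ‖w‖ ^ 2 < s}

theorem isOpen_Tor (n : ℕ) (s : ℝ) : IsOpen (Tor n s) :=
  (isOpen_nonzero n).inter (isOpen_lt (continuous_norm.pow 2) continuous_const)

/-- One shear step: in the squared moduli of the coordinates it adds to coordinate `d` the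
constant `κ` and the squared moduli of all later coordinates. -/
noncomputable def tstep (n : ℕ) (C κ : ℝ) (d : ℕ) :
    EuclideanSpace ℂ (Fin n) → EuclideanSpace ℂ (Fin n) :=
  if h : d < n then
    GG 0 1 (C + κ) (EuclideanSpace.single (⟨d, h⟩ : Fin n) (1 : ℂ)) ∘
      WG C (Qge n (d + 1)) (EuclideanSpace.single (⟨d, h⟩ : Fin n) (1 : ℂ))
  else id

theorem tstep_eq (n : ℕ) (C κ : ℝ) (d : ℕ) (h : d < n) (u : EuclideanSpace ℂ (Fin n)) :
    tstep n C κ d u = GG 0 1 (C + κ) (EuclideanSpace.single (⟨d, h⟩ : Fin n) (1 : ℂ))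
      (WG C (Qge n (d + 1)) (EuclideanSpace.single (⟨d, h⟩ : Fin n) (1 : ℂ)) u) := by
  unfold tstep
  simp [h]

theorem WG_mem_chartDom (n : ℕ) (C κ : ℝ) (hκ : 0 ≤ κ) (d : ℕ) (h : d < n)
    (u : EuclideanSpace ℂ (Fin n)) (hu : u ∈ Lev n C (d + 1)) :
    WG C (Qge n (d + 1)) (EuclideanSpace.single (⟨d, h⟩ : Fin n) (1 : ℂ)) u ∈
      chartDom 0 1 (C + κ) (EuclideanSpace.single (⟨d, h⟩ : Fin n) (1 : ℂ)) := by
  have hdom := Lev_subset_wDom n C d h hu
  have hQ := isProjPerp_Qge n d h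
  have he := norm_single_one n (⟨d, h⟩ : Fin n)
  rw [mem_chartDom_zero_one]
  refine ⟨?_, inner_e_WG_ne_zero C he hQ u hdom⟩
  rw [norm_sq_WG C he hQ u hdom]
  have hpos : 0 < ‖inner ℂ (EuclideanSpace.single (⟨d, h⟩ : Fin n) (1 : ℂ)) u‖ ^ 2 :=
    pow_pos (norm_pos_iff.2 hdom.1) 2
  have := sq_nonneg ‖Qge n (d + 1) u‖
  linarith

theorem tstep_sympOn (n : ℕ) (C κ : ℝ) (hκ : 0 ≤ κ) (d : ℕ) :
    SympOn (tstep n C κ d) (Lev n C (d + 1)) := by
  unfold tstep
  by_cases h : d < n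
  · simp only [h, dif_pos]
    have h1 : SympOn (WG C (Qge n (d + 1)) (EuclideanSpace.single (⟨d, h⟩ : Fin n) (1 : ℂ)))
        (Lev n C (d + 1)) :=
      (WG_sympOn C (Qge n (d + 1)) _ (norm_single_one n _) (isProjPerp_Qge n d h)).mono
        (isOpen_Lev n C (d + 1)) (Lev_subset_wDom n C d h)
    exact h1.comp (GG_sympOn (C + κ) _ (norm_single_one n _))
      (fun u hu => WG_mem_chartDom n C κ hκ d h u hu)
  · simp only [h, dif_neg, not_false_eq_true]
    exact sympOn_id (isOpen_Lev n C (d + 1))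

theorem tstep_coord_ne (n : ℕ) (C κ : ℝ) (hκ : 0 ≤ κ) (d : ℕ) (h : d < n)
    (u : EuclideanSpace ℂ (Fin n)) (hu : u ∈ Lev n C (d + 1)) (i : Fin n) (hi : i.val ≠ d) :
    ‖tstep n C κ d u i‖ = ‖u i‖ := by
  have hdom := Lev_subset_wDom n C d h hu
  have hQ := isProjPerp_Qge n d h
  have hcd := WG_mem_chartDom n C κ hκ d h u hu
  have hzz : zz 0 1 (C + κ) (EuclideanSpace.single (⟨d, h⟩ : Fin n) (1 : ℂ))
      (WG C (Qge n (d + 1)) (EuclideanSpace.single (⟨d, h⟩ : Fin n) (1 : ℂ)) u) ≠ 0 := hcd.2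
  have hg := norm_wg (EuclideanSpace.single (⟨d, h⟩ : Fin n) (1 : ℂ)) u hdom.1
  have hfe : inner ℂ (EuclideanSpace.single i (1 : ℂ))
      (EuclideanSpace.single (⟨d, h⟩ : Fin n) (1 : ℂ)) = 0 := by
    rw [inner_single_one]
    have : (⟨d, h⟩ : Fin n) ≠ i := by
      intro hij
      exact hi (by rw [← hij])
    simp [this]
  rw [tstep_eq n C κ d h, ← inner_single_one n i, inner_GG_of_orth _ _ _ _ hfe, norm_mul,
    norm_gg _ _ _ _ _ hzz, one_mul]
  rcases lt_or_gt_of_ne hi with hlt | hgt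
  · rw [inner_WG_of_Q_eq_zero C hQ u _ (Qge_single n (d + 1) i (by omega)) hfe,
      inner_single_one, norm_mul, hg, one_mul]
  · rw [inner_WG_of_Q_eq C hQ u _ (Qge_single_self n (d + 1) i (by omega)),
      inner_single_one, norm_mul, norm_mul, hg, one_mul, one_mul]

theorem tstep_coord_self (n : ℕ) (C κ : ℝ) (hκ : 0 ≤ κ) (d : ℕ) (h : d < n)
    (u : EuclideanSpace ℂ (Fin n)) (hu : u ∈ Lev n C (d + 1)) :
    ‖tstep n C κ d u ⟨d, h⟩‖ ^ 2 = κ + ‖u ⟨d, h⟩‖ ^ 2 + ‖Qge n (d + 1) u‖ ^ 2 := by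
  have hdom := Lev_subset_wDom n C d h hu
  have hQ := isProjPerp_Qge n d h
  have he := norm_single_one n (⟨d, h⟩ : Fin n)
  have hcd := (mem_chartDom_zero_one _ _ _).1 (WG_mem_chartDom n C κ hκ d h u hu)
  rw [tstep_eq n C κ d h, ← inner_single_one n (⟨d, h⟩ : Fin n),
    norm_sq_inner_GG_zero_one (C + κ) _ he _ hcd.1 hcd.2, norm_sq_WG C he hQ u hdom,
    inner_single_one]
  ring

/-- The composite of the first `d` shear steps. -/
noncomputable def TT (n : ℕ) (C : ℝ) (κ : ℕ → ℝ) :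
    ℕ → EuclideanSpace ℂ (Fin n) → EuclideanSpace ℂ (Fin n)
  | 0 => id
  | d + 1 => tstep n C (κ d) d ∘ TT n C κ d

theorem norm_sq_Qge_pos (n : ℕ) (w : EuclideanSpace ℂ (Fin n)) (i : Fin n) (hi : w i ≠ 0) :
    0 < ‖Qge n i.val w‖ ^ 2 := by
  have h3 : ‖Qge n i.val w‖ ^ 2 = ‖Qge n (i.val + 1) w‖ ^ 2 + ‖w i‖ ^ 2 :=
    norm_sq_Qge_succ n i.val i.isLt w
  have h4 : 0 < ‖w i‖ ^ 2 := pow_pos (norm_pos_iff.2 hi) 2
  have h5 := sq_nonneg ‖Qge n (i.val + 1) w‖
  linarith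

theorem TT_props (n : ℕ) (C s : ℝ) (κ : ℕ → ℝ) (hκ : ∀ d, 0 ≤ κ d)
    (hC : 2 * (∑ i : Fin n, κ i.val + n * s) < C) : ∀ d : ℕ, d ≤ n →
    SympOn (TT n C κ d) (Tor n s) ∧
      ∀ w ∈ Tor n s,
        (∀ i : Fin n, i.val < d → ‖TT n C κ d w i‖ ^ 2 = κ i.val + ‖Qge n i.val w‖ ^ 2) ∧
        (∀ i : Fin n, d ≤ i.val → ‖TT n C κ d w i‖ = ‖w i‖) := by
  intro d
  induction d with
  | zero =>
    intro _
    exact ⟨sympOn_id (isOpen_Tor n s), fun w _ =>
      ⟨fun i hi => absurd hi (Nat.not_lt_zero _), fun i _ => rfl⟩⟩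
  | succ d ih =>
    intro hd
    have hdn : d < n := hd
    obtain ⟨hs, hco⟩ := ih (Nat.le_of_succ_le hd)
    have hmem : ∀ w ∈ Tor n s, TT n C κ d w ∈ Lev n C (d + 1) := by
      intro w hw
      obtain ⟨h1, h2⟩ := hco w hw
      have hcoord : ∀ i : Fin n, 0 < ‖TT n C κ d w i‖ ^ 2 ∧
          ‖TT n C κ d w i‖ ^ 2 ≤ κ i.val + s := by
        intro i
        by_cases hi : i.val < d
        · rw [h1 i hi]
          have hp := norm_sq_Qge_pos n w i (hw.1 i)
          have hle : ‖Qge n i.val w‖ ^ 2 ≤ ‖w‖ ^ 2 := norm_Qge_le n i.val w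
          exact ⟨by linarith [hκ i.val], by linarith [hw.2]⟩
        · rw [h2 i (not_lt.1 hi)]
          have hp : 0 < ‖w i‖ ^ 2 := pow_pos (norm_pos_iff.2 (hw.1 i)) 2
          have hle := norm_sq_coord_le n w i
          exact ⟨hp, by linarith [hκ i.val, hw.2]⟩
      refine ⟨fun i => ?_, ?_⟩
      · intro h0
        have := (hcoord i).1
        rw [h0, norm_zero] at this
        simp at this
      · have hn : ‖TT n C κ d w‖ ^ 2 ≤ ∑ i : Fin n, κ i.val + n * s := by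
          rw [← sum_norm_sq]
          calc ∑ i, ‖TT n C κ d w i‖ ^ 2 ≤ ∑ i : Fin n, (κ i.val + s) :=
                Finset.sum_le_sum fun i _ => (hcoord i).2
            _ = ∑ i : Fin n, κ i.val + n * s := by
                rw [Finset.sum_add_distrib]
                simp
        have hq := norm_Qge_le n (d + 1) (TT n C κ d w)
        linarith
    refine ⟨hs.comp (tstep_sympOn n C (κ d) (hκ d) d) hmem, ?_⟩
    intro w hw
    obtain ⟨h1, h2⟩ := hco w hw
    have hu := hmem w hw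
    have hTT : TT n C κ (d + 1) w = tstep n C (κ d) d (TT n C κ d w) := rfl
    refine ⟨fun i hi => ?_, fun i hi => ?_⟩
    · rw [hTT]
      by_cases hid : i.val = d
      · have hi' : i = ⟨d, hdn⟩ := Fin.ext hid
        rw [hi', tstep_coord_self n C (κ d) (hκ d) d hdn _ hu]
        have e1 : ‖TT n C κ d w ⟨d, hdn⟩‖ = ‖w ⟨d, hdn⟩‖ := h2 ⟨d, hdn⟩ le_rfl
        have e2 : ‖Qge n (d + 1) (TT n C κ d w)‖ ^ 2 = ‖Qge n (d + 1) w‖ ^ 2 := by
          rw [norm_sq_Qge, norm_sq_Qge]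
          refine Finset.sum_congr rfl fun j _ => ?_
          split_ifs with hj
          · rw [h2 j (by omega)]
          · rfl
        rw [e1, e2, norm_sq_Qge_succ n d hdn w]
        ring
      · rw [tstep_coord_ne n C (κ d) (hκ d) d hdn _ hu i hid]
        exact h1 i (by omega)
    · rw [hTT, tstep_coord_ne n C (κ d) (hκ d) d hdn _ hu i (by omega)]
      exact h2 i (by omega)

end Vale.Agent.Lib.P209
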