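import Vale.Agent.Lib.P209.ChartGen

open Complex ComplexConjugate Filter Topology

namespace Vale.Agent.Lib.P209

variable {V : Type*} [NormedAddCommGroup V] [InnerProductSpace ℂ V]

/-- The component of `w` orthogonal to the unit vector `e`. -/
noncomputable def perp (e w : V) : V := w - inner ℂ e w • e

/-- The orthogonal projection `perp e` as a real-linear continuous map. -/
noncomputable def perpL (e : V) : V →L[ℝ] V :=
  ContinuousLinearMap.id ℝ V - (innerR e).smulRight e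

theorem perpL_apply (e u : V) : perpL e u = perp e u := by
  simp [perpL, perp, innerR_apply]

theorem inner_e_perp (e : V) (he : ‖e‖ = 1) (u : V) : inner ℂ e (perp e u) = 0 := by
  unfold perp
  rw [inner_sub_right, inner_smul_right, inner_self_eq_norm_sq_to_K, he]
  simp

theorem inner_perp_e (e : V) (he : ‖e‖ = 1) (u : V) : inner ℂ (perp e u) e = 0 := by
  rw [← inner_conj_symm, inner_e_perp e he, map_zero]

theorem inner_perp_perp (e : V) (he : ‖e‖ = 1) (u v : V) :
    inner ℂ (perp e u) (perp e v) = inner ℂ u v - conj (inner ℂ e u) * inner ℂ e v := by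
  unfold perp
  rw [inner_sub_left, inner_sub_right, inner_sub_right, inner_smul_left, inner_smul_left,
    inner_smul_right, inner_smul_right, inner_self_eq_norm_sq_to_K, he]
  have h : inner ℂ u e = conj (inner ℂ e u) := (inner_conj_symm u e).symm
  rw [h]
  simp
  ring

theorem norm_sq_perp (e : V) (he : ‖e‖ = 1) (w : V) :
    ‖perp e w‖ ^ 2 = ‖w‖ ^ 2 - ‖inner ℂ e w‖ ^ 2 := by
  have h1 := inner_perp_perp e he w w
  have h2 : inner ℂ (perp e w) (perp e w) = ((‖perp e w‖ ^ 2 : ℝ) : ℂ) := by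
    rw [inner_self_eq_norm_sq_to_K]
    simp
  have h3 : inner ℂ w w = ((‖w‖ ^ 2 : ℝ) : ℂ) := by
    rw [inner_self_eq_norm_sq_to_K]
    simp
  have h4 : conj (inner ℂ e w) * inner ℂ e w = ((‖inner ℂ e w‖ ^ 2 : ℝ) : ℂ) := by
    rw [Complex.conj_mul']
    simp
  rw [h2, h3, h4] at h1
  exact_mod_cast h1

theorem conj_cexp_mul_self (t : ℝ) :
    conj (Complex.exp ((t : ℂ) * Complex.I)) * Complex.exp ((t : ℂ) * Complex.I) = 1 := by
  rw [← Complex.exp_conj, ← Complex.exp_add]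
  simp

/-- The twist map built from real functions `r, ϑ, τ`:
`w ↦ (r e^{iϑ}) e + e^{iτ} (w - ⟪e, w⟫ e)`. -/
noncomputable def twist (r ϑ τ : V → ℝ) (e : V) (w : V) : V :=
  (((r w : ℝ) : ℂ) * Complex.exp (((ϑ w : ℝ) : ℂ) * Complex.I)) • e +
    Complex.exp (((τ w : ℝ) : ℂ) * Complex.I) • perp e w

theorem twist_fderiv_im (r ϑ τ : V → ℝ) (e : V) (he : ‖e‖ = 1) (w : V) (Dr Dϑ Dτ : V →L[ℝ] ℝ)
    (hr : HasFDerivAt r Dr w) (hϑ : HasFDerivAt ϑ Dϑ w) (hτ : HasFDerivAt τ Dτ w) (u v : V) :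
    (inner ℂ (fderiv ℝ (twist r ϑ τ e) w u) (fderiv ℝ (twist r ϑ τ e) w v)).im =
      r w * (Dr u * Dϑ v - Dϑ u * Dr v) +
      (Dτ v * (inner ℂ (perp e w) (perp e u)).re - Dτ u * (inner ℂ (perp e w) (perp e v)).re) +
      (inner ℂ (perp e u) (perp e v)).im := by
  have hrc : HasFDerivAt (fun w => ((r w : ℝ) : ℂ)) (Complex.ofRealCLM.comp Dr) w :=
    Complex.ofRealCLM.hasFDerivAt.comp w hr
  have hϑc : HasFDerivAt (fun w => ((ϑ w : ℝ) : ℂ) * Complex.I)
      (Complex.I • Complex.ofRealCLM.comp Dϑ) w :=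
    (Complex.ofRealCLM.hasFDerivAt.comp w hϑ).mul_const Complex.I
  have hτc : HasFDerivAt (fun w => ((τ w : ℝ) : ℂ) * Complex.I)
      (Complex.I • Complex.ofRealCLM.comp Dτ) w :=
    (Complex.ofRealCLM.hasFDerivAt.comp w hτ).mul_const Complex.I
  have hE := hϑc.cexp
  have hB := hτc.cexp
  have hα := hrc.mul hE
  have hperp : HasFDerivAt (perp e) (perpL e) w := by
    have h1 : perp e = fun w => perpL e w := by
      funext w
      rw [perpL_apply]
    rw [h1]
    exact (perpL e).hasFDerivAt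
  have hΨ : HasFDerivAt (twist r ϑ τ e) _ w := (hα.smul_const e).add (hB.smul hperp)
  rw [hΨ.fderiv]
  simp only [ContinuousLinearMap.add_apply, ContinuousLinearMap.smul_apply,
    ContinuousLinearMap.smulRight_apply, ContinuousLinearMap.comp_apply, perpL_apply,
    Complex.ofRealCLM_apply, smul_eq_mul]
  have hE1 := conj_cexp_mul_self (ϑ w)
  have hB1 := conj_cexp_mul_self (τ w)
  set E := Complex.exp (((ϑ w : ℝ) : ℂ) * Complex.I) with hEdef
  set B := Complex.exp (((τ w : ℝ) : ℂ) * Complex.I) with hBdef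
  have hsym : inner ℂ (perp e u) (perp e w) = conj (inner ℂ (perp e w) (perp e u)) :=
    (inner_conj_symm _ _).symm
  have hNN : inner ℂ (perp e w) (perp e w) = ((‖perp e w‖ ^ 2 : ℝ) : ℂ) := by
    rw [inner_self_eq_norm_sq_to_K]
    simp
  have hee : inner ℂ e e = 1 := by
    rw [inner_self_eq_norm_sq_to_K, he]
    simp
  simp only [inner_add_left, inner_add_right, inner_smul_left, inner_smul_right,
    inner_e_perp e he, inner_perp_e e he, mul_zero, add_zero, zero_add, hee, mul_one]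
  rw [hsym, hNN]
  refine (congrArg Complex.im (?_ : _ =
    (((Dr u : ℝ) : ℂ) - Complex.I * (r w : ℂ) * (Dϑ u : ℂ)) *
      (((Dr v : ℝ) : ℂ) + Complex.I * (r w : ℂ) * (Dϑ v : ℂ)) +
    (inner ℂ (perp e u) (perp e v) +
      Complex.I * (Dτ v : ℂ) * conj (inner ℂ (perp e w) (perp e u)) -
      Complex.I * (Dτ u : ℂ) * inner ℂ (perp e w) (perp e v) +
      (Dτ u : ℂ) * (Dτ v : ℂ) * ((‖perp e w‖ ^ 2 : ℝ) : ℂ)))).trans ?_
  · simp only [map_add, map_mul, Complex.conj_ofReal, Complex.conj_I]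
    linear_combination ((((Dr u : ℝ) : ℂ) - Complex.I * (r w : ℂ) * (Dϑ u : ℂ)) *
      (((Dr v : ℝ) : ℂ) + Complex.I * (r w : ℂ) * (Dϑ v : ℂ))) * hE1 +
      (inner ℂ (perp e u) (perp e v) +
      Complex.I * (Dτ v : ℂ) * conj (inner ℂ (perp e w) (perp e u)) -
      Complex.I * (Dτ u : ℂ) * inner ℂ (perp e w) (perp e v) +
      (Dτ u : ℂ) * (Dτ v : ℂ) * ((‖perp e w‖ ^ 2 : ℝ) : ℂ)) * hB1 -
      (B * conj B * (Dτ u : ℂ) * (Dτ v : ℂ) * ((‖perp e w‖ ^ 2 : ℝ) : ℂ)) * Complex.I_sq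
  · simp only [Complex.add_im, Complex.sub_im, Complex.mul_im, Complex.add_re, Complex.sub_re,
      Complex.mul_re, Complex.ofReal_re, Complex.ofReal_im, Complex.I_re, Complex.I_im,
      Complex.conj_re, Complex.conj_im]
    ring

end Vale.Agent.Lib.P209
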