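import Vale.Agent.Lib.P209.ChartGen

open Complex ComplexConjugate Filter Topology

namespace Vale.Agent.Lib.P209

variable {V : Type*} [NormedAddCommGroup V] [InnerProductSpace ℂ V]

/-- `Q` is a self-adjoint idempotent complex-linear map that kills `e`. -/
def IsProjPerp (Q : V →L[ℂ] V) (e : V) : Prop :=
  (∀ u v : V, inner ℂ (Q u) v = inner ℂ u (Q v)) ∧ (∀ u : V, Q (Q u) = Q u) ∧ Q e = 0

/-- `ρ(w) = sqrt (c - ‖w‖² - ‖Q w‖²)`. -/
noncomputable def wrho (c : ℝ) (Q : V →L[ℂ] V) (w : V) : ℝ :=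
  Real.sqrt (c - ‖w‖ ^ 2 - ‖Q w‖ ^ 2)

/-- The phase `conj ζ / |ζ|` of `ζ = ⟪e, w⟫`. -/
noncomputable def wg (e w : V) : ℂ := conj (inner ℂ e w) / ((‖inner ℂ e w‖ : ℝ) : ℂ)

/-- `v(w) = w + (ρ(w) - ⟪e, w⟫) e`. -/
noncomputable def wv (c : ℝ) (Q : V →L[ℂ] V) (e w : V) : V :=
  w + (((wrho c Q w : ℝ) : ℂ) - inner ℂ e w) • e

/-- The weighted chart map: `g (v - Q w) + g² Q w`. -/
noncomputable def WG (c : ℝ) (Q : V →L[ℂ] V) (e w : V) : V :=
  wg e w • (wv c Q e w - Q w) + (wg e w * wg e w) • Q w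

/-- The domain of the weighted chart map. -/
def wDom (c : ℝ) (Q : V →L[ℂ] V) (e : V) : Set V :=
  {w | inner ℂ e w ≠ 0 ∧ ‖w‖ ^ 2 + ‖Q w‖ ^ 2 < c}

theorem isOpen_wDom (c : ℝ) (Q : V →L[ℂ] V) (e : V) : IsOpen (wDom c Q e) := by
  have h1 : IsOpen {w : V | inner ℂ e w ≠ 0} :=
    isOpen_ne_fun (innerSL ℂ e).continuous continuous_const
  have h2 : IsOpen {w : V | ‖w‖ ^ 2 + ‖Q w‖ ^ 2 < c} :=
    isOpen_lt ((continuous_norm.pow 2).add ((continuous_norm.comp Q.continuous).pow 2))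
      continuous_const
  exact h1.inter h2

section Proj

variable {Q : V →L[ℂ] V} {e : V}

theorem IsProjPerp.inner_Q_e (hQ : IsProjPerp Q e) (u : V) : inner ℂ (Q u) e = 0 := by
  rw [hQ.1 u e, hQ.2.2, inner_zero_right]

theorem IsProjPerp.inner_e_Q (hQ : IsProjPerp Q e) (u : V) : inner ℂ e (Q u) = 0 := by
  rw [← inner_conj_symm, hQ.inner_Q_e u, map_zero]

theorem IsProjPerp.inner_Q_Q (hQ : IsProjPerp Q e) (u v : V) :
    inner ℂ (Q u) (Q v) = inner ℂ u (Q v) := by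
  rw [hQ.1 u (Q v), hQ.2.1]

theorem IsProjPerp.inner_sub_Q (hQ : IsProjPerp Q e) (y x : V) :
    inner ℂ (y - Q y) (Q x) = 0 := by
  rw [inner_sub_left, hQ.inner_Q_Q, sub_self]

theorem IsProjPerp.inner_Q_sub (hQ : IsProjPerp Q e) (x y : V) :
    inner ℂ (Q x) (y - Q y) = 0 := by
  rw [← inner_conj_symm, hQ.inner_sub_Q, map_zero]

theorem norm_sq_add_of_inner_eq_zero (a b : V) (h : inner ℂ a b = 0) :
    ‖a + b‖ ^ 2 = ‖a‖ ^ 2 + ‖b‖ ^ 2 := by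
  rw [norm_add_sq (𝕜 := ℂ), h]
  simp

theorem IsProjPerp.norm_sq_sub_Q (hQ : IsProjPerp Q e) (y : V) :
    ‖y - Q y‖ ^ 2 = ‖y‖ ^ 2 - ‖Q y‖ ^ 2 := by
  have h := norm_sq_add_of_inner_eq_zero (y - Q y) (Q y) (hQ.inner_sub_Q y y)
  rw [sub_add_cancel] at h
  linarith

end Proj

theorem wrho_sq {c : ℝ} {Q : V →L[ℂ] V} {w : V} (h : ‖w‖ ^ 2 + ‖Q w‖ ^ 2 ≤ c) :
    wrho c Q w ^ 2 = c - ‖w‖ ^ 2 - ‖Q w‖ ^ 2 := by
  unfold wrho
  rw [Real.sq_sqrt (by linarith)]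

theorem wrho_pos {c : ℝ} {Q : V →L[ℂ] V} {w : V} (h : ‖w‖ ^ 2 + ‖Q w‖ ^ 2 < c) :
    0 < wrho c Q w :=
  Real.sqrt_pos.2 (by linarith)

theorem wg_mul_z (e w : V) (hz : inner ℂ e w ≠ 0) :
    wg e w * inner ℂ e w = ((‖inner ℂ e w‖ : ℝ) : ℂ) := by
  unfold wg
  have hn : ((‖inner ℂ e w‖ : ℝ) : ℂ) ≠ 0 := by
    exact_mod_cast (norm_ne_zero_iff.2 hz)
  rw [div_mul_eq_mul_div, Complex.conj_mul', div_eq_iff hn]
  push_cast
  ring

theorem wg_mul_conj (e w : V) (hz : inner ℂ e w ≠ 0) : wg e w * conj (wg e w) = 1 := by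
  unfold wg
  have hn : ((‖inner ℂ e w‖ : ℝ) : ℂ) ≠ 0 := by
    exact_mod_cast (norm_ne_zero_iff.2 hz)
  rw [map_div₀, Complex.conj_conj, Complex.conj_ofReal, div_mul_div_comm, Complex.conj_mul',
    div_eq_one_iff_eq (mul_ne_zero hn hn)]
  push_cast
  ring

theorem conj_wg_mul (e w : V) (hz : inner ℂ e w ≠ 0) : conj (wg e w) * wg e w = 1 := by
  rw [mul_comm]
  exact wg_mul_conj e w hz

theorem norm_wg (e w : V) (hz : inner ℂ e w ≠ 0) : ‖wg e w‖ = 1 := by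
  have h := wg_mul_conj e w hz
  rw [Complex.mul_conj'] at h
  have h2 : ‖wg e w‖ ^ 2 = 1 := by exact_mod_cast h
  have h3 : 0 ≤ ‖wg e w‖ := norm_nonneg _
  nlinarith

theorem wg_ne_zero (e w : V) (hz : inner ℂ e w ≠ 0) : wg e w ≠ 0 := by
  intro h0
  have := norm_wg e w hz
  rw [h0, norm_zero] at this
  exact zero_ne_one this

section Facts

variable {Q : V →L[ℂ] V} {e : V}

theorem Q_wv (c : ℝ) (hQ : IsProjPerp Q e) (w : V) : Q (wv c Q e w) = Q w := by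
  unfold wv
  rw [map_add, map_smul, hQ.2.2, smul_zero, add_zero]

theorem inner_e_wv (c : ℝ) (he : ‖e‖ = 1) (w : V) :
    inner ℂ e (wv c Q e w) = ((wrho c Q w : ℝ) : ℂ) := by
  unfold wv
  rw [inner_add_right, inner_smul_right, inner_self_eq_norm_sq_to_K, he]
  push_cast
  ring

theorem norm_sq_wv (c : ℝ) (he : ‖e‖ = 1) (w : V) :
    ‖wv c Q e w‖ ^ 2 = ‖w‖ ^ 2 - ‖inner ℂ e w‖ ^ 2 + wrho c Q w ^ 2 := by
  unfold wv
  rw [norm_add_sq (𝕜 := ℂ), inner_smul_right, norm_smul, he, mul_one]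
  have h1 : inner ℂ w e = conj (inner ℂ e w) := (inner_conj_symm w e).symm
  rw [h1]
  set m := inner ℂ e w with hm
  set r := wrho c Q w with hr
  rw [← Complex.normSq_eq_norm_sq, ← Complex.normSq_eq_norm_sq]
  simp only [Complex.normSq_apply, Complex.mul_re, Complex.sub_re, Complex.sub_im,
    Complex.ofReal_re, Complex.ofReal_im, Complex.conj_re, Complex.conj_im, RCLike.re_to_complex]
  ring

theorem inner_e_WG (c : ℝ) (he : ‖e‖ = 1) (hQ : IsProjPerp Q e) (w : V) :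
    inner ℂ e (WG c Q e w) = wg e w * ((wrho c Q w : ℝ) : ℂ) := by
  unfold WG
  rw [inner_add_right, inner_smul_right, inner_smul_right, inner_sub_right, inner_e_wv c he,
    hQ.inner_e_Q]
  ring

theorem Q_WG (c : ℝ) (hQ : IsProjPerp Q e) (w : V) :
    Q (WG c Q e w) = (wg e w * wg e w) • Q w := by
  unfold WG
  rw [map_add, map_smul, map_smul, map_sub, Q_wv c hQ, hQ.2.1, sub_self, smul_zero, zero_add]

theorem norm_WG (c : ℝ) (hQ : IsProjPerp Q e) (w : V) (hz : inner ℂ e w ≠ 0) :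
    ‖WG c Q e w‖ ^ 2 = ‖wv c Q e w‖ ^ 2 := by
  have hg := norm_wg e w hz
  have horth : inner ℂ (wg e w • (wv c Q e w - Q w)) ((wg e w * wg e w) • Q w) = 0 := by
    rw [inner_smul_left, inner_smul_right]
    have h := hQ.inner_sub_Q (wv c Q e w) w
    rw [Q_wv c hQ] at h
    rw [h]
    ring
  unfold WG
  rw [norm_sq_add_of_inner_eq_zero _ _ horth, norm_smul, norm_smul, norm_mul, hg]
  have h2 := hQ.norm_sq_sub_Q (wv c Q e w)
  rw [Q_wv c hQ] at h2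
  rw [one_mul, one_mul, one_mul, h2]
  ring

theorem norm_sq_WG (c : ℝ) (he : ‖e‖ = 1) (hQ : IsProjPerp Q e) (w : V)
    (hw : w ∈ wDom c Q e) :
    ‖WG c Q e w‖ ^ 2 = c - ‖Q w‖ ^ 2 - ‖inner ℂ e w‖ ^ 2 := by
  rw [norm_WG c hQ w hw.1, norm_sq_wv c he, wrho_sq hw.2.le]
  ring

theorem norm_Q_WG (c : ℝ) (hQ : IsProjPerp Q e) (w : V) (hz : inner ℂ e w ≠ 0) :
    ‖Q (WG c Q e w)‖ = ‖Q w‖ := by
  rw [Q_WG c hQ, norm_smul, norm_mul, norm_wg e w hz]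
  ring

theorem norm_sq_inner_e_WG (c : ℝ) (he : ‖e‖ = 1) (hQ : IsProjPerp Q e) (w : V)
    (hw : w ∈ wDom c Q e) :
    ‖inner ℂ e (WG c Q e w)‖ ^ 2 = c - ‖w‖ ^ 2 - ‖Q w‖ ^ 2 := by
  rw [inner_e_WG c he hQ, norm_mul, norm_wg e w hw.1, one_mul, Complex.norm_real,
    Real.norm_of_nonneg (wrho_pos hw.2).le, wrho_sq hw.2.le]

theorem inner_e_WG_ne_zero (c : ℝ) (he : ‖e‖ = 1) (hQ : IsProjPerp Q e) (w : V)
    (hw : w ∈ wDom c Q e) : inner ℂ e (WG c Q e w) ≠ 0 := by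
  rw [inner_e_WG c he hQ]
  refine mul_ne_zero (wg_ne_zero e w hw.1) ?_
  exact_mod_cast (wrho_pos hw.2).ne'

/-- Coordinates fixed by `Q` are multiplied by `g²`. -/
theorem inner_WG_of_Q_eq (c : ℝ) (hQ : IsProjPerp Q e) (w f : V) (hf : Q f = f) :
    inner ℂ f (WG c Q e w) = wg e w * wg e w * inner ℂ f w := by
  have hfe : inner ℂ f e = 0 := by
    rw [← hf]
    exact hQ.inner_Q_e f
  have h1 : inner ℂ f (Q w) = inner ℂ f w := by
    rw [← hQ.1 f w, hf]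
  unfold WG wv
  rw [inner_add_right, inner_smul_right, inner_smul_right, inner_sub_right, inner_add_right,
    inner_smul_right, hfe, h1]
  ring

/-- Coordinates killed by `Q` and orthogonal to `e` are multiplied by `g`. -/
theorem inner_WG_of_Q_eq_zero (c : ℝ) (hQ : IsProjPerp Q e) (w f : V) (hf : Q f = 0)
    (hfe : inner ℂ f e = 0) : inner ℂ f (WG c Q e w) = wg e w * inner ℂ f w := by
  have h1 : inner ℂ f (Q w) = 0 := by
    rw [← hQ.1 f w, hf, inner_zero_left]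
  unfold WG wv
  rw [inner_add_right, inner_smul_right, inner_smul_right, inner_sub_right, inner_add_right,
    inner_smul_right, hfe, h1]
  ring

end Facts

end Vale.Agent.Lib.P209
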