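import Vale.Agent.Lib.P209.WChart

open Complex ComplexConjugate Filter Topology

namespace Vale.Agent.Lib.P209

variable {V : Type*} [NormedAddCommGroup V] [InnerProductSpace ℂ V]

theorem wrho_contDiffAt (c : ℝ) (Q : V →L[ℂ] V) (w : V) (hw : ‖w‖ ^ 2 + ‖Q w‖ ^ 2 < c)
    (n : WithTop ℕ∞) : ContDiffAt ℝ n (wrho c Q) w := by
  have hQ : ContDiffAt ℝ n (fun w : V => Q w) w := (Q.restrictScalars ℝ).contDiff.contDiffAt
  have h1 : ContDiffAt ℝ n (fun w : V => c - ‖w‖ ^ 2 - ‖Q w‖ ^ 2) w :=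
    (contDiffAt_const.sub (contDiff_norm_sq ℂ).contDiffAt).sub (hQ.norm_sq ℂ)
  exact h1.sqrt (by linarith)

theorem wg_eq (e : V) :
    wg e = fun w => conj (innerR e w) * (((‖innerR e w‖ : ℝ) : ℂ))⁻¹ := by
  funext w
  unfold wg
  rw [div_eq_mul_inv, innerR_apply]

theorem wg_contDiffAt (e w : V) (hz : inner ℂ e w ≠ 0) (n : WithTop ℕ∞) :
    ContDiffAt ℝ n (wg e) w := by
  have hzd : ContDiffAt ℝ n (fun w : V => innerR e w) w := (innerR e).contDiff.contDiffAt
  have h1 : ContDiffAt ℝ n (fun w : V => conj (innerR e w)) w :=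
    Complex.conjCLE.contDiff.contDiffAt.comp w hzd
  have h2 : ContDiffAt ℝ n (fun w : V => ‖innerR e w‖) w := hzd.norm ℂ hz
  have h3 : ContDiffAt ℝ n (fun w : V => ((‖innerR e w‖ : ℝ) : ℂ)) w :=
    Complex.ofRealCLM.contDiff.contDiffAt.comp w h2
  have hn : ((‖innerR e w‖ : ℝ) : ℂ) ≠ 0 := by
    exact_mod_cast (norm_ne_zero_iff.2 hz)
  rw [wg_eq]
  exact h1.mul (h3.inv hn)

theorem wv_contDiffAt (c : ℝ) (Q : V →L[ℂ] V) (e w : V) (hw : ‖w‖ ^ 2 + ‖Q w‖ ^ 2 < c)
    (n : WithTop ℕ∞) : ContDiffAt ℝ n (wv c Q e) w := by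
  have h1 : ContDiffAt ℝ n (fun w : V => ((wrho c Q w : ℝ) : ℂ)) w :=
    Complex.ofRealCLM.contDiff.contDiffAt.comp w (wrho_contDiffAt c Q w hw n)
  have h2 : ContDiffAt ℝ n (fun w : V => innerR e w) w := (innerR e).contDiff.contDiffAt
  exact contDiffAt_id.add ((h1.sub h2).smul_const e)

theorem WG_contDiffAt (c : ℝ) (Q : V →L[ℂ] V) (e w : V) (hw : w ∈ wDom c Q e)
    (n : WithTop ℕ∞) : ContDiffAt ℝ n (WG c Q e) w := by
  have hg := wg_contDiffAt e w hw.1 n
  have hv := wv_contDiffAt c Q e w hw.2 n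
  have hQ : ContDiffAt ℝ n (fun w : V => Q w) w := (Q.restrictScalars ℝ).contDiff.contDiffAt
  exact (hg.smul (hv.sub hQ)).add ((hg.mul hg).smul hQ)

theorem WG_contDiffOn (c : ℝ) (Q : V →L[ℂ] V) (e : V) (n : WithTop ℕ∞) :
    ContDiffOn ℝ n (WG c Q e) (wDom c Q e) := fun w hw =>
  (WG_contDiffAt c Q e w hw n).contDiffWithinAt

theorem WG_injOn (c : ℝ) (Q : V →L[ℂ] V) (e : V) (he : ‖e‖ = 1) (hQ : IsProjPerp Q e) :
    Set.InjOn (WG c Q e) (wDom c Q e) := by
  intro w hw w' hw' hEq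
  have hρ := wrho_pos hw.2
  have hρ' := wrho_pos hw'.2
  have h1 : wg e w * ((wrho c Q w : ℝ) : ℂ) = wg e w' * ((wrho c Q w' : ℝ) : ℂ) := by
    rw [← inner_e_WG c he hQ w, ← inner_e_WG c he hQ w', hEq]
  have hρeq : wrho c Q w = wrho c Q w' := by
    have h3 := congrArg norm h1
    rw [norm_mul, norm_mul, norm_wg e w hw.1, norm_wg e w' hw'.1, one_mul, one_mul,
      Complex.norm_real, Complex.norm_real, Real.norm_of_nonneg hρ.le,
      Real.norm_of_nonneg hρ'.le] at h3
    exact h3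
  have hg : wg e w = wg e w' := by
    rw [hρeq] at h1
    have hne : ((wrho c Q w' : ℝ) : ℂ) ≠ 0 := by exact_mod_cast hρ'.ne'
    exact mul_right_cancel₀ hne h1
  have hgne := wg_ne_zero e w' hw'.1
  have hQeq : Q w = Q w' := by
    have h2 : (wg e w' * wg e w') • Q w = (wg e w' * wg e w') • Q w' := by
      rw [← Q_WG c hQ w', ← hEq, Q_WG c hQ w, hg]
    exact smul_right_injective V (mul_ne_zero hgne hgne) h2
  have hv : wv c Q e w = wv c Q e w' := by
    have h3 : wg e w' • (wv c Q e w - Q w') = wg e w' • (wv c Q e w' - Q w') := by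
      have e1 : WG c Q e w = wg e w • (wv c Q e w - Q w) + (wg e w * wg e w) • Q w := rfl
      have e2 : WG c Q e w' = wg e w' • (wv c Q e w' - Q w') + (wg e w' * wg e w') • Q w' := rfl
      rw [e1, e2, hg, hQeq] at hEq
      exact add_right_cancel hEq
    have h4 := smul_right_injective V hgne h3
    exact sub_left_injective h4
  -- norms of `⟪e, ·⟫` agree
  have hn : ‖inner ℂ e w‖ = ‖inner ℂ e w'‖ := by
    have a1 := norm_sq_wv (Q := Q) c he w
    have a2 := norm_sq_wv (Q := Q) c he w'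
    have b1 := wrho_sq hw.2.le
    have b2 := wrho_sq hw'.2.le
    rw [hv, hρeq] at a1
    rw [hρeq] at b1
    rw [hQeq] at b1
    have h5 : ‖inner ℂ e w‖ ^ 2 = ‖inner ℂ e w'‖ ^ 2 := by linarith
    have p1 := norm_nonneg (inner ℂ e w)
    have p2 := norm_nonneg (inner ℂ e w')
    nlinarith
  have hz : inner ℂ e w = inner ℂ e w' := by
    have e1 := wg_mul_z e w hw.1
    have e2 := wg_mul_z e w' hw'.1
    rw [hg, hn] at e1
    exact mul_left_cancel₀ hgne (e1.trans e2.symm)
  have hw1 : w = wv c Q e w - (((wrho c Q w : ℝ) : ℂ) - inner ℂ e w) • e := by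
    unfold wv
    abel
  have hw2 : w' = wv c Q e w' - (((wrho c Q w' : ℝ) : ℂ) - inner ℂ e w') • e := by
    unfold wv
    abel
  rw [hw1, hw2, hv, hρeq, hz]

/-- The expansion of the Hermitian product of two derivative vectors. -/
theorem wexpand (g γ γ' : ℂ) (a q bu bu' qu qu' : V) (hgg : conj g * g = 1)
    (o1 : inner ℂ bu qu' = 0) (o2 : inner ℂ bu q = 0) (o3 : inner ℂ a qu' = 0)
    (o4 : inner ℂ a q = 0) (o5 : inner ℂ qu bu' = 0) (o6 : inner ℂ qu a = 0)
    (o7 : inner ℂ q bu' = 0) (o8 : inner ℂ q a = 0) :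
    inner ℂ (g • bu + γ • a + ((g * g) • qu + (g * γ + g * γ) • q))
        (g • bu' + γ' • a + ((g * g) • qu' + (g * γ' + g * γ') • q)) =
      conj γ * γ' * (inner ℂ a a + 4 * inner ℂ q q) +
        conj γ * g * (inner ℂ a bu' + 2 * inner ℂ q qu') +
        conj g * γ' * (inner ℂ bu a + 2 * inner ℂ qu q) +
        (inner ℂ bu bu' + inner ℂ qu qu') := by
  simp only [inner_add_left, inner_add_right, inner_smul_left, inner_smul_right, o1, o2, o3, o4,
    o5, o6, o7, o8, mul_zero, add_zero, zero_add, map_mul, map_add]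
  linear_combination (inner ℂ bu bu' + (conj g * g + 1) * inner ℂ qu qu' +
    4 * conj γ * γ' * inner ℂ q q + 2 * conj γ * g * inner ℂ q qu' +
    2 * conj g * γ' * inner ℂ qu q) * hgg

/-- The weighted chart map preserves the imaginary part of the Hermitian inner product at every
point of its domain. -/
theorem WG_symplectic (c : ℝ) (Q : V →L[ℂ] V) (e : V) (he : ‖e‖ = 1) (hQ : IsProjPerp Q e)
    (w : V) (hw : w ∈ wDom c Q e) (u u' : V) :
    (inner ℂ (fderiv ℝ (WG c Q e) w u) (fderiv ℝ (WG c Q e) w u')).im =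
      (inner ℂ u u').im := by
  have hU : wDom c Q e ∈ 𝓝 w := (isOpen_wDom c Q e).mem_nhds hw
  have hz : inner ℂ e w ≠ 0 := hw.1
  have hwc : ‖w‖ ^ 2 + ‖Q w‖ ^ 2 < c := hw.2
  set P : V →L[ℝ] ℝ := fderiv ℝ (wrho c Q) w with hPdef
  have hP : HasFDerivAt (wrho c Q) P w :=
    ((wrho_contDiffAt c Q w hwc 1).differentiableAt one_ne_zero).hasFDerivAt
  set Dg : V →L[ℝ] ℂ := fderiv ℝ (wg e) w with hDgdef
  have hDg : HasFDerivAt (wg e) Dg w :=
    ((wg_contDiffAt e w hz 1).differentiableAt one_ne_zero).hasFDerivAt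
  set QR : V →L[ℝ] V := Q.restrictScalars ℝ with hQRdef
  have hQd : HasFDerivAt (fun w : V => Q w) QR w := QR.hasFDerivAt
  have hζ : HasFDerivAt (fun w : V => inner ℂ e w) (innerR e) w := (innerR e).hasFDerivAt
  have hρc : HasFDerivAt (fun w : V => ((wrho c Q w : ℝ) : ℂ)) (Complex.ofRealCLM.comp P) w :=
    Complex.ofRealCLM.hasFDerivAt.comp w hP
  set Dv : V →L[ℝ] V := ContinuousLinearMap.id ℝ V +
      (Complex.ofRealCLM.comp P - innerR e).smulRight e with hDvdef
  have hDv : HasFDerivAt (wv c Q e) Dv w := (hasFDerivAt_id w).add ((hρc.sub hζ).smul_const e)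
  have hDW : HasFDerivAt (WG c Q e) (wg e w • (Dv - QR) + Dg.smulRight (wv c Q e w - Q w) +
      ((wg e w * wg e w) • QR + (wg e w • Dg + wg e w • Dg).smulRight (Q w))) w :=
    (hDg.smul (hDv.sub hQd)).add ((hDg.mul hDg).smul hQd)
  have hcg : HasFDerivAt (fun w => conj (wg e w))
      ((Complex.conjCLE : ℂ →L[ℝ] ℂ).comp Dg) w := Complex.conjCLE.hasFDerivAt.comp w hDg
  have hcz : HasFDerivAt (fun w : V => conj (inner ℂ e w))
      ((Complex.conjCLE : ℂ →L[ℝ] ℂ).comp (innerR e)) w := Complex.conjCLE.hasFDerivAt.comp w hζ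
  have hDvu : ∀ u : V, Dv u = u + (((P u : ℝ) : ℂ) - inner ℂ e u) • e := by
    intro u
    simp [hDvdef, innerR_apply]
  have hQDv : ∀ u : V, Q (Dv u) = Q u := by
    intro u
    rw [hDvu, map_add, map_smul, hQ.2.2, smul_zero, add_zero]
  -- (h1)
  have h1 : ∀ u : V, (conj (wg e w) * Dg u).re = 0 := by
    intro u
    have hφ := hDg.mul hcg
    have hev : (fun w => wg e w * conj (wg e w)) =ᶠ[𝓝 w] fun _ => (1 : ℂ) := by
      filter_upwards [hU] with w' hw'
      exact wg_mul_conj e w' hw'.1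
    have h0 := (hφ.congr_of_eventuallyEq hev.symm).unique (hasFDerivAt_const (1 : ℂ) w)
    have h0u := congrArg (fun L : V →L[ℝ] ℂ => L u) h0
    simp only [ContinuousLinearMap.add_apply, ContinuousLinearMap.smul_apply,
      ContinuousLinearMap.comp_apply, ContinuousLinearMap.zero_apply, smul_eq_mul] at h0u
    have h0r := congrArg Complex.re h0u
    simp only [Complex.add_re, Complex.mul_re, Complex.zero_re, Complex.conj_re, Complex.conj_im,
      ContinuousLinearEquiv.coe_coe, Complex.conjCLE_apply] at h0r ⊢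
    linarith
  -- (h2)
  have h2 : ∀ u : V, (Dg u * inner ℂ e w + wg e w * inner ℂ e u).im = 0 := by
    intro u
    have hψ := Complex.imCLM.hasFDerivAt.comp w (hDg.mul hζ)
    have hev : (⇑Complex.imCLM ∘ fun w => wg e w * inner ℂ e w) =ᶠ[𝓝 w]
        fun _ => (0 : ℝ) := by
      filter_upwards [hU] with w' hw'
      have := wg_mul_z e w' hw'.1
      simp only [Function.comp_apply, Complex.imCLM_apply]
      rw [this, Complex.ofReal_im]
    have h0 := (hψ.congr_of_eventuallyEq hev.symm).unique (hasFDerivAt_const (0 : ℝ) w)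
    have h0u := congrArg (fun L : V →L[ℝ] ℝ => L u) h0
    simp only [ContinuousLinearMap.add_apply, ContinuousLinearMap.smul_apply,
      ContinuousLinearMap.comp_apply, ContinuousLinearMap.zero_apply, smul_eq_mul,
      Complex.imCLM_apply, innerR_apply] at h0u
    rw [← h0u]
    congr 1
    ring
  -- (h3)
  have h3 : ∀ u : V, (conj (inner ℂ e w) * inner ℂ e u).re +
      (inner ℂ (wv c Q e w - Q w) (Dv u - Q u) + 2 * inner ℂ (Q w) (Q u)).re = 0 := by
    intro u
    have ha : HasFDerivAt (fun w : V => wv c Q e w - Q w) (Dv - QR) w := hDv.sub hQd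
    have hχ := ((hcz.mul hζ).add (ha.inner ℂ ha)).add ((hQd.inner ℂ hQd).const_mul (2 : ℂ))
    have hev : (fun w => conj (inner ℂ e w) * inner ℂ e w +
        inner ℂ (wv c Q e w - Q w) (wv c Q e w - Q w) + 2 * inner ℂ (Q w) (Q w))
          =ᶠ[𝓝 w] fun _ => (c : ℂ) := by
      filter_upwards [hU] with w' hw'
      have e1 := hQ.norm_sq_sub_Q (wv c Q e w')
      rw [Q_wv c hQ] at e1
      have e2 := norm_sq_wv (Q := Q) c he w'
      have e3 := wrho_sq hw'.2.le
      have hN : ‖inner ℂ e w'‖ ^ 2 + ‖wv c Q e w' - Q w'‖ ^ 2 + 2 * ‖Q w'‖ ^ 2 = c := by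
        linarith
      have h := congrArg (fun t : ℝ => (t : ℂ)) hN
      simp only [Complex.ofReal_add, Complex.ofReal_pow, Complex.ofReal_mul] at h
      rw [Complex.conj_mul', inner_self_eq_norm_sq_to_K, inner_self_eq_norm_sq_to_K]
      simpa using h
    have h0 := (hχ.congr_of_eventuallyEq hev.symm).unique (hasFDerivAt_const (c : ℂ) w)
    have h0u := congrArg (fun L : V →L[ℝ] ℂ => L u) h0
    simp only [ContinuousLinearMap.add_apply, ContinuousLinearMap.smul_apply,
      ContinuousLinearMap.comp_apply, ContinuousLinearMap.zero_apply, smul_eq_mul,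
      fderivInnerCLM_apply, ContinuousLinearMap.prod_apply, ContinuousLinearMap.sub_apply,
      innerR_apply] at h0u
    have h0r := congrArg Complex.re h0u
    have hsym1 : (inner ℂ (Dv u - QR u) (wv c Q e w - Q w)).re =
        (inner ℂ (wv c Q e w - Q w) (Dv u - QR u)).re := by
      rw [← inner_conj_symm, Complex.conj_re]
    have hsym2 : (inner ℂ (QR u) (Q w)).re = (inner ℂ (Q w) (QR u)).re := by
      rw [← inner_conj_symm, Complex.conj_re]
    have hQRu : QR u = Q u := rfl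
    simp only [Complex.add_re, Complex.mul_re, Complex.zero_re, Complex.conj_re, Complex.conj_im,
      ContinuousLinearEquiv.coe_coe, Complex.conjCLE_apply, Complex.re_ofNat, Complex.im_ofNat,
      zero_mul, sub_zero] at h0r ⊢
    rw [hsym1, hsym2, hQRu] at h0r
    linarith
  have hgg : conj (wg e w) * wg e w = 1 := conj_wg_mul e w hz
  set a : V := wv c Q e w - Q w with hadef
  set q : V := Q w with hqdef
  have hQRu : ∀ u : V, QR u = Q u := fun u => rfl
  -- orthogonality relations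
  have ha' : a = wv c Q e w - Q (wv c Q e w) := by rw [hadef, Q_wv c hQ]
  have hb' : ∀ u : V, Dv u - Q u = Dv u - Q (Dv u) := by
    intro u
    rw [hQDv]
  have o1 : ∀ u u' : V, inner ℂ (Dv u - Q u) (Q u') = 0 := by
    intro u u'
    rw [hb']
    exact hQ.inner_sub_Q _ _
  have o3 : ∀ u' : V, inner ℂ a (Q u') = 0 := by
    intro u'
    rw [ha']
    exact hQ.inner_sub_Q _ _
  have o5 : ∀ u u' : V, inner ℂ (Q u) (Dv u' - Q u') = 0 := by
    intro u u'
    rw [hb']
    exact hQ.inner_Q_sub _ _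
  have o6 : ∀ u : V, inner ℂ (Q u) a = 0 := by
    intro u
    rw [ha']
    exact hQ.inner_Q_sub _ _
  have key := core_alg (wg e w) (inner ℂ e w) (inner ℂ e u) (inner ℂ e u') (Dg u) (Dg u')
    (inner ℂ a (Dv u - Q u) + 2 * inner ℂ q (Q u))
    (inner ℂ a (Dv u' - Q u') + 2 * inner ℂ q (Q u'))
    (inner ℂ (Dv u) (Dv u')) (‖a‖ ^ 2 + 4 * ‖q‖ ^ 2) ‖inner ℂ e w‖
    (wg_mul_conj e w hz) (wg_mul_z e w hz) (h1 u) (h1 u') (h2 u) (h2 u') (h3 u) (h3 u')
  have hpair := pair_alg 0 1 (by norm_num) e he u u' (P u) (P u')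
  have hfin : (conj (inner ℂ e u) * inner ℂ e u').im + (inner ℂ (Dv u) (Dv u')).im =
      (inner ℂ u u').im := by
    rw [← Complex.add_im, hDvu u, hDvu u']
    have h5 := congrArg Complex.im hpair
    simp only [Complex.add_im, Complex.ofReal_im, zero_add] at h5
    rw [← h5, Complex.add_im]
    congr 2
    · simp
    · congr 2 <;> · push_cast; ring_nf
  rw [hDW.fderiv]
  simp only [ContinuousLinearMap.add_apply, ContinuousLinearMap.smul_apply,
    ContinuousLinearMap.smulRight_apply, ContinuousLinearMap.sub_apply, hQRu, smul_eq_mul]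
  rw [← hfin, ← key]
  congr 1
  have hB : inner ℂ (Dv u) (Dv u') =
      inner ℂ (Dv u - Q u) (Dv u' - Q u') + inner ℂ (Q u) (Q u') := by
    have e1 : Dv u = (Dv u - Q u) + Q u := by abel
    have e2 : Dv u' = (Dv u' - Q u') + Q u' := by abel
    conv_lhs => rw [e1, e2]
    rw [inner_add_left, inner_add_right, inner_add_right, o1 u u', o5 u u']
    ring
  have hN : (((‖a‖ ^ 2 + 4 * ‖q‖ ^ 2 : ℝ)) : ℂ) = inner ℂ a a + 4 * inner ℂ q q := by
    have e1 : inner ℂ a a = ((‖a‖ ^ 2 : ℝ) : ℂ) := by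
      rw [inner_self_eq_norm_sq_to_K]
      simp
    have e2 : inner ℂ q q = ((‖q‖ ^ 2 : ℝ) : ℂ) := by
      rw [inner_self_eq_norm_sq_to_K]
      simp
    rw [e1, e2]
    push_cast
    ring
  have hA : conj (inner ℂ a (Dv u - Q u) + 2 * inner ℂ q (Q u)) =
      inner ℂ (Dv u - Q u) a + 2 * inner ℂ (Q u) q := by
    rw [map_add, map_mul, inner_conj_symm, inner_conj_symm, map_ofNat]
  rw [hN, hA, hB]
  exact wexpand (wg e w) (Dg u) (Dg u') a q (Dv u - Q u) (Dv u' - Q u') (Q u) (Q u') hgg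
    (o1 u u') (o1 u w) (o3 u') (o3 w) (o5 u u') (o6 u) (o5 w u') (o6 w)

end Vale.Agent.Lib.P209
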